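import Crest.Agent.R186.MD

/-! Functionals on the tensor product of a `Top` datum with a twisted datum. -/

set_option autoImplicit false
set_option linter.unusedSectionVars false

namespace Crest.Agent.R186

open scoped TensorProduct
open MulOpposite

/-- A functional killed by the differential of a complex with one-dimensional homology. -/
theorem KP1.exists_cob {K X : Type*} [Field K] [AddCommGroup X] [Module K X] {d : X →ₗ[K] X}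
    {v : X} {ε : X →ₗ[K] K} (h : KP1 d v ε) (φ : X →ₗ[K] K) (hd : ∀ x, φ (d x) = 0)
    (hv : φ v = 0) : ∃ ψ : X →ₗ[K] K, ∀ x, ψ (d x) = φ x := by
  obtain ⟨s, hs⟩ := h.kp.exists_htpy
  refine ⟨φ ∘ₗ s, fun x => ?_⟩
  have := congrArg φ (hs x)
  simpa [hd, hv] using this

section

variable {K S₁ T₁ S₂ T₂ : Type*} [Field K] [Ring S₁] [Ring T₁] [Algebra K S₁] [Algebra K T₁]
  [Ring S₂] [Ring T₂] [Algebra K S₂] [Algebra K T₂]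

/-- Functionals that are linear for the character `χ₁` of the first tensor factor. -/
def L1 (S₂ : Type*) [Ring S₂] [Algebra K S₂] (χ₁ : S₁ →ₐ[K] K) {X : Type*} [AddCommGroup X]
    [Module K X] [Module (S₁ ⊗[K] S₂) X] (φ : X →ₗ[K] K) : Prop :=
  ∀ (a : S₁) x, φ ((a ⊗ₜ[K] (1 : S₂)) • x) = χ₁ a * φ x

theorem L1.of_chi {χ₁ : S₁ →ₐ[K] K} {χ₂ : S₂ →ₐ[K] K} {X : Type*} [AddCommGroup X]
    [Module K X] [Module (S₁ ⊗[K] S₂) X] {φ : X →ₗ[K] K}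
    (h : ∀ (s : S₁ ⊗[K] S₂) x, φ (s • x) = chiBox χ₁ χ₂ s * φ x) : L1 S₂ χ₁ φ :=
  fun a x => by simp [h]

theorem L1.comp {χ₁ : S₁ →ₐ[K] K} {X X' : Type*} [AddCommGroup X] [Module K X]
    [Module (S₁ ⊗[K] S₂) X] [IsScalarTower K (S₁ ⊗[K] S₂) X] [AddCommGroup X'] [Module K X']
    [Module (S₁ ⊗[K] S₂) X'] [IsScalarTower K (S₁ ⊗[K] S₂) X'] {φ : X →ₗ[K] K}
    (h : L1 S₂ χ₁ φ) (g : X' →ₗ[S₁ ⊗[K] S₂] X) : L1 S₂ χ₁ (φ ∘ₗ g.restrictScalars K) :=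
  fun a x => by simp [h a]

section Key

variable {X₁ X₂ : Type*} [AddCommGroup X₁] [Module K X₁] [Module S₁ X₁] [IsScalarTower K S₁ X₁]
  [AddCommGroup X₂] [Module K X₂] [Module S₂ X₂] [IsScalarTower K S₂ X₂] {χ₁ : S₁ →ₐ[K] K}

theorem L1.key {φ : Box K S₁ S₂ X₁ X₂ →ₗ[K] K} (h : L1 S₂ χ₁ φ) (f : X₁ →ₗ[K] K) (v : X₁)
    (top : ∀ x, x - f x • v ∈ MS K X₁ (kerSet χ₁)) (x : X₁) (u : X₂) :
    φ (Box.mk K S₁ S₂ x u) = f x * φ (Box.mk K S₁ S₂ v u) := by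
  have := MS.eq_zero (φ ∘ₗ (Box.mk K S₁ S₂).flip u) (fun m hm n => by
    have h1 := h m (Box.mk K S₁ S₂ n u)
    rw [Box.smul_mk, one_smul, show χ₁ m = 0 from hm, zero_mul] at h1
    exact h1) (top x)
  simpa [sub_eq_zero] using this

theorem L1.fmul (f : X₁ →ₗ[K] K) (hf : ∀ (s : S₁) x, f (s • x) = χ₁ s * f x) (g : X₂ →ₗ[K] K) :
    L1 S₂ χ₁ (Box.fmul (S₁ := S₁) (S₂ := S₂) f g) := fun a z => by
  induction z using Box.induction_on with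
  | h0 => simp
  | h1 x y => simp [hf, mul_assoc]
  | h2 x y hx hy => simp only [smul_add, map_add, hx, hy, mul_add]

theorem chi2_of_chi {χ₂ : S₂ →ₐ[K] K} {φ : Box K S₁ S₂ X₁ X₂ →ₗ[K] K}
    (h : ∀ (s : S₁ ⊗[K] S₂) x, φ (s • x) = chiBox χ₁ χ₂ s * φ x) (v : X₁) (s : S₂) (u : X₂) :
    (φ ∘ₗ Box.mk K S₁ S₂ v) (s • u) = χ₂ s * (φ ∘ₗ Box.mk K S₁ S₂ v) u := by
  have := h ((1 : S₁) ⊗ₜ[K] s) (Box.mk K S₁ S₂ v u)
  simpa using this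

variable (K S₁ S₂ X₁) in
/-- `id ⊗ θ`. -/
noncomputable def Box.rEquiv (θ : X₂ ≃ₗ[K] X₂) : Box K S₁ S₂ X₁ X₂ ≃ₗ[K] Box K S₁ S₂ X₁ X₂ :=
  LinearEquiv.ofLinearMap (Box.kmap LinearMap.id θ.toLinearMap)
    (Box.kmap LinearMap.id θ.symm.toLinearMap)
    (LinearMap.ext (Box.ext_add _ _ fun x y => by simp))
    (LinearMap.ext (Box.ext_add _ _ fun x y => by simp))

theorem Box.rEquiv_apply (θ : X₂ ≃ₗ[K] X₂) (z : Box K S₁ S₂ X₁ X₂) :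
    Box.rEquiv K S₁ S₂ X₁ θ z = Box.kmap LinearMap.id θ.toLinearMap z := rfl

@[simp] theorem Box.rEquiv_mk (θ : X₂ ≃ₗ[K] X₂) (x : X₁) (u : X₂) :
    Box.rEquiv K S₁ S₂ X₁ θ (Box.mk K S₁ S₂ x u) = Box.mk K S₁ S₂ x (θ u) := rfl

theorem Box.rEquiv_smul (θ : X₂ ≃ₗ[K] X₂) (h : S₂ ≃ₐ[K] S₂)
    (hθ : ∀ (s : S₂) x, θ (s • x) = h s • θ x) (s : S₁ ⊗[K] S₂) (z : Box K S₁ S₂ X₁ X₂) :
    Box.rEquiv K S₁ S₂ X₁ θ (s • z) =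
      Algebra.TensorProduct.congr (AlgEquiv.refl (R := K) (A₁ := S₁)) h s •
        Box.rEquiv K S₁ S₂ X₁ θ z :=
  Box.kmap_eqv (AlgHom.id K S₁) (h : S₂ →ₐ[K] S₂) LinearMap.id θ.toLinearMap
    (fun _ _ => rfl) hθ s z

end Key

variable {E₁ : Env K S₁ T₁} {χ₁ : S₁ →ₐ[K] K} {Xp₁ Xq₁ Y₁ H₁ W₁ : Type*}
    [AddCommGroup Xp₁] [Module K Xp₁] [Module S₁ Xp₁] [IsScalarTower K S₁ Xp₁]
    [AddCommGroup Xq₁] [Module K Xq₁] [Module S₁ Xq₁] [IsScalarTower K S₁ Xq₁]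
    [AddCommGroup Y₁] [Module K Y₁] [Module T₁ Y₁] [IsScalarTower K T₁ Y₁]
    [AddCommGroup H₁] [Module K H₁] [Module T₁ H₁] [IsScalarTower K T₁ H₁]
    [AddCommGroup W₁] [Module K W₁] [Module T₁ W₁] [IsScalarTower K T₁ W₁]
variable {E₂ : Env K S₂ T₂} {χ₂ : S₂ →ₐ[K] K} {Xp₂ Xq₂ : Type*}
    [AddCommGroup Xp₂] [Module K Xp₂] [Module S₂ Xp₂] [IsScalarTower K S₂ Xp₂]
    [AddCommGroup Xq₂] [Module K Xq₂] [Module S₂ Xq₂] [IsScalarTower K S₂ Xq₂]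

namespace Asm

variable {D₁ : Dat E₁ χ₁ 4 Xp₁ Xq₁ Y₁ H₁ W₁} {D₂ : Dat E₂ χ₂ 0 Xp₂ Xq₂ T₂ T₂ T₂}
  (h2 : (2 : K) = 0) (A : D₁.Top) {lam : K} (Tw : D₂.Tw lam)

theorem η_d (y : Xq₁) : D₁.η (D₁.q.d y) = 0 := by
  rw [← D₁.η_e, ← D₁.q.de, D₁.q_hi _ (by norm_num)]
  simp

theorem ε_d (x : Xp₁) : D₁.ε (D₁.p.d x) = 0 := D₁.kp_p.εd x

theorem p_d_mk (x : Xp₁) (u : Xp₂) : (D₁.box D₂ h2).p.d (Box.mk K S₁ S₂ x u) =
    Box.mk K S₁ S₂ (D₁.p.d x) u + Box.mk K S₁ S₂ x (D₂.p.d u) := rfl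

theorem q_d_mk (x : Xq₁) (u : Xq₂) : (D₁.box D₂ h2).q.d (Box.mk K S₁ S₂ x u) =
    Box.mk K S₁ S₂ (D₁.q.d x) u + Box.mk K S₁ S₂ x (D₂.q.d u) := rfl

theorem c_mk (x : Xp₁) (u : Xp₂) : (D₁.box D₂ h2).c (Box.mk K S₁ S₂ x u) =
    Box.mk K S₁ S₂ (D₁.c x) (D₂.c u) := rfl

theorem p_e_v (n : ℤ) (u : Xp₂) : (D₁.box D₂ h2).p.e n (Box.mk K S₁ S₂ D₁.v u) =
    Box.mk K S₁ S₂ D₁.v (D₂.p.e n u) := by
  have := GCx.boxE_left (K := K) (D₁.fin_p D₂) n 0 D₁.v_e u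
  rw [sub_zero] at this
  exact this

theorem q_e_w (n : ℤ) (u : Xq₂) : (D₁.box D₂ h2).q.e n (Box.mk K S₁ S₂ D₁.w u) =
    Box.mk K S₁ S₂ D₁.w (D₂.q.e (n - 4) u) :=
  GCx.boxE_left (K := K) (D₁.fin_q D₂) n 4 D₁.w_e u

include A

theorem key_p {φ : Box K S₁ S₂ Xp₁ Xp₂ →ₗ[K] K} (h : L1 S₂ χ₁ φ) (x : Xp₁) (u : Xp₂) :
    φ (Box.mk K S₁ S₂ x u) = D₁.ε x * φ (Box.mk K S₁ S₂ D₁.v u) := h.key _ _ A.top_p x u

theorem key_q {φ : Box K S₁ S₂ Xq₁ Xq₂ →ₗ[K] K} (h : L1 S₂ χ₁ φ) (x : Xq₁) (u : Xq₂) :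
    φ (Box.mk K S₁ S₂ x u) = D₁.η x * φ (Box.mk K S₁ S₂ D₁.w u) := h.key _ _ A.top_q x u

theorem L1_c {φ : Box K S₁ S₂ Xq₁ Xq₂ →ₗ[K] K} (h : L1 S₂ χ₁ φ) (z : Box K S₁ S₂ Xp₁ Xp₂) :
    φ ((D₁.box D₂ h2).c z) = 0 := by
  induction z using Box.induction_on with
  | h0 => simp
  | h1 x u => rw [c_mk, key_q A h, A.η_c, zero_mul]
  | h2 x y hx hy => simp only [map_add, hx, hy, add_zero]

theorem L1_p_d {φ : Box K S₁ S₂ Xp₁ Xp₂ →ₗ[K] K} (h : L1 S₂ χ₁ φ) (x : Xp₁) (u : Xp₂) :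
    φ ((D₁.box D₂ h2).p.d (Box.mk K S₁ S₂ x u)) =
      D₁.ε x * φ (Box.mk K S₁ S₂ D₁.v (D₂.p.d u)) := by
  rw [p_d_mk, map_add, key_p A h, ε_d, zero_mul, zero_add, key_p A h]

theorem L1_q_d {φ : Box K S₁ S₂ Xq₁ Xq₂ →ₗ[K] K} (h : L1 S₂ χ₁ φ) (x : Xq₁) (u : Xq₂) :
    φ ((D₁.box D₂ h2).q.d (Box.mk K S₁ S₂ x u)) =
      D₁.η x * φ (Box.mk K S₁ S₂ D₁.w (D₂.q.d u)) := by
  rw [q_d_mk, map_add, key_q A h, η_d, zero_mul, zero_add, key_q A h]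

include Tw

theorem chi_p_d {φ : Box K S₁ S₂ Xp₁ Xp₂ →ₗ[K] K}
    (h : ∀ (s : S₁ ⊗[K] S₂) x, φ (s • x) = chiBox χ₁ χ₂ s * φ x) (z : Box K S₁ S₂ Xp₁ Xp₂) :
    φ ((D₁.box D₂ h2).p.d z) = 0 := by
  induction z using Box.induction_on with
  | h0 => simp
  | h1 x u =>
    have := Tw.fp_d _ (chi2_of_chi h D₁.v) u
    rw [L1_p_d h2 A (L1.of_chi h), show φ (Box.mk K S₁ S₂ D₁.v (D₂.p.d u)) = 0 from this,
      mul_zero]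
  | h2 x y hx hy => simp only [map_add, hx, hy, add_zero]

theorem chi_q_d {φ : Box K S₁ S₂ Xq₁ Xq₂ →ₗ[K] K}
    (h : ∀ (s : S₁ ⊗[K] S₂) x, φ (s • x) = chiBox χ₁ χ₂ s * φ x) (z : Box K S₁ S₂ Xq₁ Xq₂) :
    φ ((D₁.box D₂ h2).q.d z) = 0 := by
  induction z using Box.induction_on with
  | h0 => simp
  | h1 x u =>
    have := Tw.fq_d _ (chi2_of_chi h D₁.w) u
    rw [L1_q_d h2 A (L1.of_chi h), show φ (Box.mk K S₁ S₂ D₁.w (D₂.q.d u)) = 0 from this,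
      mul_zero]
  | h2 x y hx hy => simp only [map_add, hx, hy, add_zero]

theorem chi_θp {φ : Box K S₁ S₂ Xp₁ Xp₂ →ₗ[K] K}
    (h : ∀ (s : S₁ ⊗[K] S₂) x, φ (s • x) = chiBox χ₁ χ₂ s * φ x) (n : ℤ)
    (he : ∀ z, φ ((D₁.box D₂ h2).p.e n z) = φ z) (z : Box K S₁ S₂ Xp₁ Xp₂) :
    φ (Box.rEquiv K S₁ S₂ Xp₁ Tw.θp z) = lam ^ n * φ z := by
  induction z using Box.induction_on with
  | h0 => simp
  | h1 x u =>
    have := Tw.fp_θ _ n (chi2_of_chi h D₁.v)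
      (fun u => by simpa [p_e_v] using he (Box.mk K S₁ S₂ D₁.v u)) u
    simp only [LinearMap.comp_apply] at this
    rw [Box.rEquiv_mk, key_p A (L1.of_chi h), this, key_p A (L1.of_chi h) x u]
    ring
  | h2 x y hx hy => simp only [map_add, hx, hy, mul_add]

theorem chi_θq {φ : Box K S₁ S₂ Xq₁ Xq₂ →ₗ[K] K}
    (h : ∀ (s : S₁ ⊗[K] S₂) x, φ (s • x) = chiBox χ₁ χ₂ s * φ x) (n : ℤ)
    (he : ∀ z, φ ((D₁.box D₂ h2).q.e (n + 1) z) = φ z) (z : Box K S₁ S₂ Xq₁ Xq₂) :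
    φ (Box.rEquiv K S₁ S₂ Xq₁ Tw.θq z) = lam ^ (n - 4) * φ z := by
  induction z using Box.induction_on with
  | h0 => simp
  | h1 x u =>
    have := Tw.fq_θ _ (n + 1 - 4) (chi2_of_chi h D₁.w)
      (fun u => by simpa [q_e_w] using he (Box.mk K S₁ S₂ D₁.w u)) u
    simp only [LinearMap.comp_apply] at this
    rw [Box.rEquiv_mk, key_q A (L1.of_chi h), this, key_q A (L1.of_chi h) x u,
      show n + 1 - 4 - 1 = n - 4 by ring]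
    ring
  | h2 x y hx hy => simp only [map_add, hx, hy, mul_add]

theorem chi_zero {φ : Box K S₁ S₂ Xp₁ Xp₂ →ₗ[K] K}
    (h : ∀ (s : S₁ ⊗[K] S₂) x, φ (s • x) = chiBox χ₁ χ₂ s * φ x)
    (he : ∀ z, φ ((D₁.box D₂ h2).p.e 0 z) = φ z) (z : Box K S₁ S₂ Xp₁ Xp₂) :
    φ z = φ (Box.mk K S₁ S₂ D₁.v D₂.v) * (D₁.box D₂ h2).ε z := by
  induction z using Box.induction_on with
  | h0 => simp
  | h1 x u =>
    have := Tw.fp_zero _ (chi2_of_chi h D₁.v)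
      (fun u => by simpa [p_e_v] using he (Box.mk K S₁ S₂ D₁.v u)) u
    simp only [LinearMap.comp_apply] at this
    rw [key_p A (L1.of_chi h), this,
      show (D₁.box D₂ h2).ε (Box.mk K S₁ S₂ x u) = D₁.ε x * D₂.ε u from rfl]
    ring
  | h2 x y hx hy => rw [map_add, map_add, hx, hy, mul_add]

omit A in
/-- The twisting automorphism of the ambient module. -/
noncomputable def θ : (Box K S₁ S₂ Xp₁ Xp₂ × Box K S₁ S₂ Xq₁ Xq₂) ≃ₗ[K]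
    (Box K S₁ S₂ Xp₁ Xp₂ × Box K S₁ S₂ Xq₁ Xq₂) :=
  (Box.rEquiv K S₁ S₂ Xp₁ Tw.θp).prodCongr (Box.rEquiv K S₁ S₂ Xq₁ Tw.θq)

omit A in
theorem θ_apply (x : Box K S₁ S₂ Xp₁ Xp₂ × Box K S₁ S₂ Xq₁ Xq₂) :
    θ (S₁ := S₁) Tw x = (Box.rEquiv K S₁ S₂ Xp₁ Tw.θp x.1, Box.rEquiv K S₁ S₂ Xq₁ Tw.θq x.2) := rfl

omit A in
theorem θp_e (n : ℤ) (z : Box K S₁ S₂ Xp₁ Xp₂) :
    Box.rEquiv K S₁ S₂ Xp₁ Tw.θp ((D₁.box D₂ h2).p.e n z) =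
      (D₁.box D₂ h2).p.e n (Box.rEquiv K S₁ S₂ Xp₁ Tw.θp z) :=
  GCx.kmap_boxE (D₁.fin_p D₂) (D₁.fin_p D₂) LinearMap.id Tw.θp.toLinearMap (fun _ _ => rfl)
    Tw.θp_e n z

omit A in
theorem θq_e (n : ℤ) (z : Box K S₁ S₂ Xq₁ Xq₂) :
    Box.rEquiv K S₁ S₂ Xq₁ Tw.θq ((D₁.box D₂ h2).q.e n z) =
      (D₁.box D₂ h2).q.e n (Box.rEquiv K S₁ S₂ Xq₁ Tw.θq z) :=
  GCx.kmap_boxE (D₁.fin_q D₂) (D₁.fin_q D₂) LinearMap.id Tw.θq.toLinearMap (fun _ _ => rfl)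
    Tw.θq_e n z

omit A in
theorem θp_d (z : Box K S₁ S₂ Xp₁ Xp₂) :
    Box.rEquiv K S₁ S₂ Xp₁ Tw.θp ((D₁.box D₂ h2).p.d z) =
      (D₁.box D₂ h2).p.d (Box.rEquiv K S₁ S₂ Xp₁ Tw.θp z) := by
  induction z using Box.induction_on with
  | h0 => simp
  | h1 x u => simp only [p_d_mk, map_add, Box.rEquiv_mk, Tw.θp_d]
  | h2 x y hx hy => simp only [map_add, hx, hy]

omit A in
theorem θq_d (z : Box K S₁ S₂ Xq₁ Xq₂) :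
    Box.rEquiv K S₁ S₂ Xq₁ Tw.θq ((D₁.box D₂ h2).q.d z) =
      (D₁.box D₂ h2).q.d (Box.rEquiv K S₁ S₂ Xq₁ Tw.θq z) := by
  induction z using Box.induction_on with
  | h0 => simp
  | h1 x u => simp only [q_d_mk, map_add, Box.rEquiv_mk, Tw.θq_d]
  | h2 x y hx hy => simp only [map_add, hx, hy]

omit A in
theorem θ_c (z : Box K S₁ S₂ Xp₁ Xp₂) :
    Box.rEquiv K S₁ S₂ Xq₁ Tw.θq ((D₁.box D₂ h2).c z) =
      (D₁.box D₂ h2).c (Box.rEquiv K S₁ S₂ Xp₁ Tw.θp z) := by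
  induction z using Box.induction_on with
  | h0 => simp
  | h1 x u => simp only [c_mk, Box.rEquiv_mk, Tw.θ_c]
  | h2 x y hx hy => simp only [map_add, hx, hy]

omit A in
theorem ε_θ (z : Box K S₁ S₂ Xp₁ Xp₂) :
    (D₁.box D₂ h2).ε (Box.rEquiv K S₁ S₂ Xp₁ Tw.θp z) = (D₁.box D₂ h2).ε z := by
  induction z using Box.induction_on with
  | h0 => simp
  | h1 x u =>
    change D₁.ε x * D₂.ε (Tw.θp u) = D₁.ε x * D₂.ε u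
    rw [Tw.ε_θ]
  | h2 x y hx hy => simp only [map_add, hx, hy]

omit A Tw in
/-- The first component of a map to `Res χ K`. -/
noncomputable def fP (f : (Box K S₁ S₂ Xp₁ Xp₂ × Box K S₁ S₂ Xq₁ Xq₂) →ₗ[S₁ ⊗[K] S₂]
    Res (chiBox χ₁ χ₂) K) : Box K S₁ S₂ Xp₁ Xp₂ →ₗ[K] K :=
  ofChi (f ∘ₗ LinearMap.inl _ _ _)

omit A Tw in
/-- The second component of a map to `Res χ K`. -/
noncomputable def fQ (f : (Box K S₁ S₂ Xp₁ Xp₂ × Box K S₁ S₂ Xq₁ Xq₂) →ₗ[S₁ ⊗[K] S₂]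
    Res (chiBox χ₁ χ₂) K) : Box K S₁ S₂ Xq₁ Xq₂ →ₗ[K] K :=
  ofChi (f ∘ₗ LinearMap.inr _ _ _)

omit A Tw in
theorem f_split (f : (Box K S₁ S₂ Xp₁ Xp₂ × Box K S₁ S₂ Xq₁ Xq₂) →ₗ[S₁ ⊗[K] S₂]
    Res (chiBox χ₁ χ₂) K) (x : Box K S₁ S₂ Xp₁ Xp₂ × Box K S₁ S₂ Xq₁ Xq₂) :
    f x = Res.of (chiBox χ₁ χ₂) K (fP f x.1 + fQ f x.2) := by
  rw [map_add, fP, fQ, ofChi_apply, ofChi_apply, LinearMap.comp_apply, LinearMap.comp_apply,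
    ← map_add]
  simp

omit A Tw in
theorem fP_e {f : (Box K S₁ S₂ Xp₁ Xp₂ × Box K S₁ S₂ Xq₁ Xq₂) →ₗ[S₁ ⊗[K] S₂]
    Res (chiBox χ₁ χ₂) K} {n : ℤ} (he : ∀ x, f (((D₁.box D₂ h2).tc h2).e n x) = f x) (z) :
    fP f ((D₁.box D₂ h2).p.e n z) = fP f z := by
  have := he (z, 0)
  rw [f_split, f_split f (z, 0)] at this
  simpa using this

omit A Tw in
theorem fQ_e {f : (Box K S₁ S₂ Xp₁ Xp₂ × Box K S₁ S₂ Xq₁ Xq₂) →ₗ[S₁ ⊗[K] S₂]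
    Res (chiBox χ₁ χ₂) K} {n : ℤ} (he : ∀ x, f (((D₁.box D₂ h2).tc h2).e n x) = f x) (z) :
    fQ f ((D₁.box D₂ h2).q.e (n + 1) z) = fQ f z := by
  have := he (0, z)
  rw [f_split, f_split f (0, z)] at this
  simpa using this

theorem fd (f : (Box K S₁ S₂ Xp₁ Xp₂ × Box K S₁ S₂ Xq₁ Xq₂) →ₗ[S₁ ⊗[K] S₂]
    Res (chiBox χ₁ χ₂) K) (n : ℤ) (x) : f (((D₁.box D₂ h2).tc h2).d n x) = 0 := by
  have : f (((D₁.box D₂ h2).tc h2).d n x) = (f ∘ₗ ((D₁.box D₂ h2).tc h2).e n)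
      ((D₁.box D₂ h2).p.d x.1, (D₁.box D₂ h2).c x.1 + (D₁.box D₂ h2).q.d x.2) := rfl
  rw [this, f_split, map_add, map_add, fP, fQ, chi_p_d h2 A Tw (ofChi_smul _),
    chi_q_d h2 A Tw (ofChi_smul _), L1_c h2 A (L1.of_chi (ofChi_smul _))]
  simp

theorem f_θ {f : (Box K S₁ S₂ Xp₁ Xp₂ × Box K S₁ S₂ Xq₁ Xq₂) →ₗ[S₁ ⊗[K] S₂]
    Res (chiBox χ₁ χ₂) K} {n : ℤ} (he : ∀ x, f (((D₁.box D₂ h2).tc h2).e n x) = f x) (x) :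
    f (θ Tw x) = Res.of (chiBox χ₁ χ₂) K (lam ^ n * fP f x.1 + lam ^ (n - 4) * fQ f x.2) := by
  rw [f_split, θ_apply, ← chi_θp h2 A Tw (φ := fP f) (ofChi_smul _) n (fP_e h2 he),
    ← chi_θq h2 A Tw (φ := fQ f) (ofChi_smul _) n (fQ_e h2 he)]

omit A Tw in
theorem fQ_four {f : (Box K S₁ S₂ Xp₁ Xp₂ × Box K S₁ S₂ Xq₁ Xq₂) →ₗ[S₁ ⊗[K] S₂]
    Res (chiBox χ₁ χ₂) K} (he : ∀ x, f (((D₁.box D₂ h2).tc h2).e 4 x) = f x) (z) :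
    fQ f z = 0 := by
  rw [← fQ_e h2 he, (D₁.box D₂ h2).q_hi _ (by norm_num)]
  simp

theorem E1 (hl : ∀ n : ℤ, n ≠ 0 → lam ^ n ≠ 1) (n : ℤ) (hn : n ≠ 0)
    (f : (Box K S₁ S₂ Xp₁ Xp₂ × Box K S₁ S₂ Xq₁ Xq₂) →ₗ[S₁ ⊗[K] S₂] Res (chiBox χ₁ χ₂) K)
    (he : ∀ x, f (((D₁.box D₂ h2).tc h2).e n x) = f x) (hθ : ∀ x, f (θ Tw x) = f x) : f = 0 := by
  have h1 : ∀ z, fP f z = 0 := fun z => by
    have := hθ (z, 0)
    rw [f_θ h2 A Tw he, f_split f (z, 0)] at this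
    have := (Res.of (chiBox χ₁ χ₂) K).injective this
    simp only [map_zero, mul_zero, add_zero] at this
    have h3 : (lam ^ n - 1) * fP f z = 0 := by linear_combination this
    exact (mul_eq_zero.1 h3).resolve_left (sub_ne_zero.2 (hl n hn))
  have h1' : ∀ z, fQ f z = 0 := fun z => by
    by_cases h4 : n = 4
    · subst h4; exact fQ_four h2 he z
    have := hθ (0, z)
    rw [f_θ h2 A Tw he, f_split f (0, z)] at this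
    have := (Res.of (chiBox χ₁ χ₂) K).injective this
    simp only [map_zero, mul_zero, zero_add] at this
    have h3 : (lam ^ (n - 4) - 1) * fQ f z = 0 := by linear_combination this
    exact (mul_eq_zero.1 h3).resolve_left (sub_ne_zero.2 (hl _ (by omega)))
  refine LinearMap.ext fun x => ?_
  rw [f_split, h1, h1']
  simp

theorem E2 (hl : ∀ n : ℤ, n ≠ 0 → lam ^ n ≠ 1) (n : ℤ)
    (a : (Box K S₁ S₂ Xp₁ Xp₂ × Box K S₁ S₂ Xq₁ Xq₂) →ₗ[S₁ ⊗[K] S₂] Res (chiBox χ₁ χ₂) K)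
    (he : ∀ x, a (((D₁.box D₂ h2).tc h2).e n x) = a x) :
    ∃ (α : (Box K S₁ S₂ Xp₁ Xp₂ × Box K S₁ S₂ Xq₁ Xq₂) →ₗ[S₁ ⊗[K] S₂] Res (chiBox χ₁ χ₂) K)
      (c : K), (∀ x, α (((D₁.box D₂ h2).tc h2).e n x) = α x) ∧ (n ≠ 0 → c = 0) ∧
      ∀ x, α (θ Tw x) - α x + c • (D₁.box D₂ h2).εc x = a x := by
  let α : (Box K S₁ S₂ Xp₁ Xp₂ × Box K S₁ S₂ Xq₁ Xq₂) →ₗ[S₁ ⊗[K] S₂] Res (chiBox χ₁ χ₂) K :=
    (lam ^ n - 1)⁻¹ • (a ∘ₗ LinearMap.inl _ _ _ ∘ₗ LinearMap.fst _ _ _) +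
      (lam ^ (n - 4) - 1)⁻¹ • (a ∘ₗ LinearMap.inr _ _ _ ∘ₗ LinearMap.snd _ _ _)
  have hα : ∀ x, α x = Res.of (chiBox χ₁ χ₂) K
      ((lam ^ n - 1)⁻¹ * fP a x.1 + (lam ^ (n - 4) - 1)⁻¹ * fQ a x.2) := fun x => rfl
  refine ⟨α, if n = 0 then fP a (Box.mk K S₁ S₂ D₁.v D₂.v) else 0, fun x => ?_,
    fun hn => if_neg hn, fun x => ?_⟩
  · rw [hα, hα, Dat.tc_e, fP_e h2 he, fQ_e h2 he]
  · rw [hα, hα, θ_apply, f_split a x, Dat.εc_apply, ← map_smul, ← map_sub, ← map_add]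
    congr 1
    have e1 : fP a (Box.rEquiv K S₁ S₂ Xp₁ Tw.θp x.1) = lam ^ n * fP a x.1 :=
      chi_θp h2 A Tw (ofChi_smul _) n (fP_e h2 he) _
    have e2 : fQ a (Box.rEquiv K S₁ S₂ Xq₁ Tw.θq x.2) = lam ^ (n - 4) * fQ a x.2 :=
      chi_θq h2 A Tw (ofChi_smul _) n (fQ_e h2 he) _
    have e3 : (lam ^ (n - 4) - 1)⁻¹ * (lam ^ (n - 4) - 1) * fQ a x.2 = fQ a x.2 := by
      by_cases h4 : n = 4
      · subst h4; rw [fQ_four h2 he, mul_zero]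
      · rw [inv_mul_cancel₀ (sub_ne_zero.2 (hl _ (by omega))), one_mul]
    have e4 : (lam ^ n - 1)⁻¹ * (lam ^ n - 1) * fP a x.1 +
        (if n = 0 then fP a (Box.mk K S₁ S₂ D₁.v D₂.v) else 0) * (D₁.box D₂ h2).ε x.1 =
        fP a x.1 := by
      by_cases h0 : n = 0
      · subst h0
        rw [if_pos rfl, ← chi_zero h2 A Tw (φ := fP a) (ofChi_smul _) (fP_e h2 he)]
        simp
      · rw [inv_mul_cancel₀ (sub_ne_zero.2 (hl _ h0)), one_mul, if_neg h0, zero_mul, add_zero]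
    simp only [e1, e2, smul_eq_mul]
    linear_combination e3 + e4

/-! ### Cohomology with coefficients twisted by the bimodule `H` -/

omit Tw

/-- The generator of the bimodule `H`. -/
noncomputable def oneH (T₂ : Type*) [Ring T₂] [Algebra K T₂] : Box K T₁ T₂ H₁ T₂ :=
  Box.mk K T₁ T₂ A.one 1

section H

variable {X : Type*} [AddCommGroup X] [Module K X] [Module (S₁ ⊗[K] S₂) X]
  [IsScalarTower K (S₁ ⊗[K] S₂) X]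

/-- Evaluation on the generator of `H`. -/
noncomputable def ev (f : BT (E₁.box E₂) (Box K T₁ T₂ H₁ T₂) X →ₗ[S₁ ⊗[K] S₂]
    Res (chiBox χ₁ χ₂) K) : X →ₗ[K] K :=
  ofChi f ∘ₗ BT.mk (E₁.box E₂) (oneH A T₂)

theorem ev_apply (f : BT (E₁.box E₂) (Box K T₁ T₂ H₁ T₂) X →ₗ[S₁ ⊗[K] S₂]
    Res (chiBox χ₁ χ₂) K) (x : X) :
    Res.of (chiBox χ₁ χ₂) K (ev A f x) = f (BT.mk (E₁.box E₂) (oneH A T₂) x) := rfl

theorem ev_L1 (f : BT (E₁.box E₂) (Box K T₁ T₂ H₁ T₂) X →ₗ[S₁ ⊗[K] S₂]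
    Res (chiBox χ₁ χ₂) K) : L1 S₂ χ₁ (ev A f) := fun a x => by
  have h1 : BT.mk (E₁.box E₂) (oneH A T₂) ((a ⊗ₜ[K] (1 : S₂)) • x) =
      (a ⊗ₜ[K] (1 : S₂)) • BT.mk (E₁.box E₂) (oneH A T₂) x := by
    rw [← BT.mk_r, BT.smul_mk, oneH]
    simp [A.central]
  simp only [ev, LinearMap.comp_apply, h1, ofChi_smul]
  simp

theorem ev_ext {M : Type*} [AddCommGroup M] [Module (S₁ ⊗[K] S₂) M]
    (f g : BT (E₁.box E₂) (Box K T₁ T₂ H₁ T₂) X →ₗ[S₁ ⊗[K] S₂] M)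
    (h : ∀ x, f (BT.mk (E₁.box E₂) (oneH A T₂) x) = g (BT.mk (E₁.box E₂) (oneH A T₂) x))
    (z) : f z = g z := by
  refine BT.ext_add f g (fun n x => ?_) z
  induction n using Box.induction_on with
  | h0 => simp
  | h2 n n' hn hn' => simp only [map_add, LinearMap.add_apply, hn, hn']
  | h1 y t =>
    obtain ⟨a, rfl⟩ := A.gen y
    induction t using E₂.induction_on with
    | h0 => simp
    | h2 n n' hn hn' => simp only [map_add, LinearMap.add_apply, hn, hn']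
    | h1 d d' =>
      have : BT.mk (E₁.box E₂) (Box.mk K T₁ T₂ (E₁.l a • A.one) (E₂.l d * E₂.r (op d'))) x =
          (a ⊗ₜ[K] d) • BT.mk (E₁.box E₂) (oneH A T₂) (((1 : S₁) ⊗ₜ[K] d') • x) := by
        rw [← BT.mk_r, BT.smul_mk, oneH]
        simp
      rw [this, f.map_smul, g.map_smul, h]

theorem exists_ev (ψ : X →ₗ[K] K) (hψ : L1 S₂ χ₁ ψ) :
    ∃ g : BT (E₁.box E₂) (Box K T₁ T₂ H₁ T₂) X →ₗ[S₁ ⊗[K] S₂] Res (chiBox χ₁ χ₂) K,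
      ∀ x, ev A g x = ψ x := by
  let φ₂ : T₂ →ₗ[K] X →ₗ[K] K := E₂.lift (LinearMap.mk₂ K
    (fun d d' => χ₂ d • (ψ ∘ₗ Algebra.lsmul K K X ((1 : S₁) ⊗ₜ[K] d')))
    (fun a a' b => by rw [map_add, add_smul]) (fun c a b => by rw [map_smul, smul_assoc])
    (fun a b b' => by ext; simp [TensorProduct.tmul_add, mul_add])
    (fun c a b => by ext; simp [TensorProduct.tmul_smul, mul_left_comm]))
  have hφ₂ : ∀ d d' x, φ₂ (E₂.l d * E₂.r (op d')) x = χ₂ d * ψ (((1 : S₁) ⊗ₜ[K] d') • x) :=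
    fun d d' x => by simp [φ₂]
  let Φ : Box K T₁ T₂ H₁ T₂ →ₗ[K] X →ₗ[K] K := Box.lift (A.χH.smulRight φ₂)
  have hΦ : ∀ y t x, Φ (Box.mk K T₁ T₂ y t) x = A.χH y * φ₂ t x := fun y t x => by simp [Φ]
  have hr : ∀ (b : S₁ ⊗[K] S₂) n x, Φ ((E₁.box E₂).r (op b) • n) x = Φ n (b • x) := by
    intro b n x
    induction b using TensorProduct.induction_on with
    | zero => simp
    | add b b' hb hb' => simp only [op_add, map_add, add_smul, LinearMap.add_apply, hb, hb']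
    | tmul b₁ b₂ =>
      induction n using Box.induction_on with
      | h0 => simp
      | h2 n n' hn hn' => simp only [smul_add, map_add, LinearMap.add_apply, hn, hn']
      | h1 y t =>
        induction t using E₂.induction_on with
        | h0 => simp
        | h2 n n' hn hn' => simp only [smul_add, map_add, LinearMap.add_apply, hn, hn']
        | h1 d d' =>
          have e : ((1 : S₁) ⊗ₜ[K] d') • (b₁ ⊗ₜ[K] b₂) • x =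
              (b₁ ⊗ₜ[K] (1 : S₂)) • ((1 : S₁) ⊗ₜ[K] (d' * b₂)) • x := by
            simp [smul_smul]
          rw [Env.box_r, Box.smul_mk, smul_eq_mul, E₂.r_mul, hΦ, hΦ, hφ₂, hφ₂, A.χH_r, e, hψ]
          ring
  have hl : ∀ (a : S₁ ⊗[K] S₂) n x, Φ ((E₁.box E₂).l a • n) x = chiBox χ₁ χ₂ a * Φ n x := by
    intro a n x
    induction a using TensorProduct.induction_on with
    | zero => simp
    | add b b' hb hb' => simp only [map_add, add_smul, add_mul, LinearMap.add_apply, hb, hb']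
    | tmul b₁ b₂ =>
      induction n using Box.induction_on with
      | h0 => simp
      | h2 n n' hn hn' => simp only [smul_add, map_add, mul_add, LinearMap.add_apply, hn, hn']
      | h1 y t =>
        induction t using E₂.induction_on with
        | h0 => simp
        | h2 n n' hn hn' => simp only [smul_add, map_add, mul_add, LinearMap.add_apply, hn, hn']
        | h1 d d' =>
          rw [Env.box_l, Box.smul_mk, smul_eq_mul, E₂.l_mul, hΦ, hΦ, hφ₂, hφ₂, A.χH_l, map_mul,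
            chiBox_tmul]
          ring
  refine ⟨BT.liftS (Φ.compr₂ (Res.of (chiBox χ₁ χ₂) K).toLinearMap)
    (fun b n x => congrArg (Res.of (chiBox χ₁ χ₂) K) (hr b n x))
    (fun a n x => congrArg (Res.of (chiBox χ₁ χ₂) K) (hl a n x)), fun x => ?_⟩
  have h1 : (1 : T₂) = E₂.l 1 * E₂.r (op 1) := by simp
  change Φ (Box.mk K T₁ T₂ A.one 1) x = ψ x
  rw [hΦ, h1, hφ₂, A.χH_one, ← Algebra.TensorProduct.one_def]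
  simp

end H

theorem exists_L1_cob (φ : (Box K S₁ S₂ Xp₁ Xp₂ × Box K S₁ S₂ Xq₁ Xq₂) →ₗ[K] K)
    (hφ : L1 S₂ χ₁ φ)
    (hd : ∀ x : Box K S₁ S₂ Xp₁ Xp₂ × Box K S₁ S₂ Xq₁ Xq₂,
      φ ((D₁.box D₂ h2).p.d x.1, (D₁.box D₂ h2).c x.1 + (D₁.box D₂ h2).q.d x.2) = 0)
    (hp : φ (Box.mk K S₁ S₂ D₁.v D₂.v, 0) = 0)
    (hq : φ (0, Box.mk K S₁ S₂ D₁.w (D₂.c D₂.v)) = 0) :
    ∃ ψ : (Box K S₁ S₂ Xp₁ Xp₂ × Box K S₁ S₂ Xq₁ Xq₂) →ₗ[K] K, L1 S₂ χ₁ ψ ∧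
      ∀ x : Box K S₁ S₂ Xp₁ Xp₂ × Box K S₁ S₂ Xq₁ Xq₂,
        ψ ((D₁.box D₂ h2).p.d x.1, (D₁.box D₂ h2).c x.1 + (D₁.box D₂ h2).q.d x.2) = φ x := by
  let φP : Box K S₁ S₂ Xp₁ Xp₂ →ₗ[K] K :=
    φ ∘ₗ (LinearMap.inl (S₁ ⊗[K] S₂) _ (Box K S₁ S₂ Xq₁ Xq₂)).restrictScalars K
  let φQ : Box K S₁ S₂ Xq₁ Xq₂ →ₗ[K] K :=
    φ ∘ₗ (LinearMap.inr (S₁ ⊗[K] S₂) (Box K S₁ S₂ Xp₁ Xp₂) _).restrictScalars K
  have hP : L1 S₂ χ₁ φP := hφ.comp _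
  have hQ : L1 S₂ χ₁ φQ := hφ.comp _
  have hs : ∀ a b, φ (a, b) = φP a + φQ b := fun a b => by
    rw [show (a, b) = (a, 0) + (0, b) by simp, map_add]; rfl
  obtain ⟨ψp, hψp⟩ := D₂.kp_p.exists_cob (φP ∘ₗ Box.mk K S₁ S₂ D₁.v) (fun u => by
    have := hd (Box.mk K S₁ S₂ D₁.v u, 0)
    rw [hs, L1_p_d h2 A hP, D₁.kp_p.εv, map_add, L1_c h2 A hQ] at this
    simpa using this) hp
  obtain ⟨ψq, hψq⟩ := D₂.kp_q.exists_cob (φQ ∘ₗ Box.mk K S₁ S₂ D₁.w) (fun u => by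
    have := hd (0, Box.mk K S₁ S₂ D₁.w u)
    rw [hs, map_add, L1_q_d h2 A hQ, D₁.η_w] at this
    simpa using this) hq
  simp only [LinearMap.restrictScalars_apply, LinearMap.comp_apply] at hψp hψq
  have lp := L1.fmul (S₂ := S₂) D₁.ε D₁.ε_smul ψp
  have lq := L1.fmul (S₂ := S₂) D₁.η D₁.η_smul ψq
  refine ⟨(Box.fmul D₁.ε ψp).coprod (Box.fmul D₁.η ψq), fun a x => ?_, fun x => ?_⟩
  · simp only [LinearMap.coprod_apply, Prod.smul_fst, Prod.smul_snd, lp a, lq a, mul_add]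
  · have e1 : ∀ z, Box.fmul D₁.ε ψp ((D₁.box D₂ h2).p.d z) = φP z := fun z => by
      induction z using Box.induction_on with
      | h0 => simp
      | h1 x u => rw [L1_p_d h2 A lp, Box.fmul_mk, D₁.kp_p.εv, one_mul, hψp, key_p A hP x u]
      | h2 x y hx hy => simp only [map_add, hx, hy]
    have e2 : ∀ z, Box.fmul D₁.η ψq ((D₁.box D₂ h2).q.d z) = φQ z := fun z => by
      induction z using Box.induction_on with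
      | h0 => simp
      | h1 x u => rw [L1_q_d h2 A lq, Box.fmul_mk, D₁.η_w, one_mul, hψq, key_q A hQ x u]
      | h2 x y hx hy => simp only [map_add, hx, hy]
    rw [LinearMap.coprod_apply, map_add, e1, e2, L1_c h2 A lq, zero_add, ← hs]

theorem H_cob {n : ℤ} {f : BT (E₁.box E₂) (Box K T₁ T₂ H₁ T₂)
      (Box K S₁ S₂ Xp₁ Xp₂ × Box K S₁ S₂ Xq₁ Xq₂) →ₗ[S₁ ⊗[K] S₂] Res (chiBox χ₁ χ₂) K}
    (hf : (((D₁.box D₂ h2).tc h2).bt (E₁.box E₂) (Box K T₁ T₂ H₁ T₂)).Coc n f)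
    (hp : ev A f (Box.mk K S₁ S₂ D₁.v D₂.v, 0) = 0)
    (hq : ev A f (0, Box.mk K S₁ S₂ D₁.w (D₂.c D₂.v)) = 0) :
    (((D₁.box D₂ h2).tc h2).bt (E₁.box E₂) (Box K T₁ T₂ H₁ T₂)).Cob n f := by
  have he : ∀ x, ev A f (((D₁.box D₂ h2).tc h2).e n x) = ev A f x := fun x =>
    congrArg (Res.of (chiBox χ₁ χ₂) K).symm (hf.he (BT.mk (E₁.box E₂) (oneH A T₂) x))
  have hd : ∀ x, ev A f (((D₁.box D₂ h2).tc h2).d n x) = 0 := fun x =>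
    congrArg (Res.of (chiBox χ₁ χ₂) K).symm (hf.hd (BT.mk (E₁.box E₂) (oneH A T₂) x))
  obtain ⟨ψ, hψ, hψd⟩ := exists_L1_cob h2 A (ev A f) (ev_L1 A f)
    (fun x => by rw [← he]; exact hd x) hp hq
  obtain ⟨g, hg⟩ := exists_ev (E₂ := E₂) (χ₂ := χ₂) A ψ hψ
  refine ⟨g, ev_ext A (g ∘ₗ _) f fun x => ?_⟩
  rw [LinearMap.comp_apply, Cx.bt_d_mk, ← ev_apply, ← ev_apply, hg, ← he, ← hψd]
  congr 2
  simp only [Dat.tc_d, Dat.tc_e, GCx.de', Dat.c_e, map_add, sub_add_cancel, add_sub_cancel_right]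

theorem ev_p {n : ℤ} (hn : n ≠ 0) {f : BT (E₁.box E₂) (Box K T₁ T₂ H₁ T₂)
      (Box K S₁ S₂ Xp₁ Xp₂ × Box K S₁ S₂ Xq₁ Xq₂) →ₗ[S₁ ⊗[K] S₂] Res (chiBox χ₁ χ₂) K}
    (hf : (((D₁.box D₂ h2).tc h2).bt (E₁.box E₂) (Box K T₁ T₂ H₁ T₂)).Coc n f) :
    ev A f (Box.mk K S₁ S₂ D₁.v D₂.v, 0) = 0 := by
  have he : ∀ x, ev A f (((D₁.box D₂ h2).tc h2).e n x) = ev A f x := fun x =>
    congrArg (Res.of (chiBox χ₁ χ₂) K).symm (hf.he (BT.mk (E₁.box E₂) (oneH A T₂) x))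
  rw [← he, Dat.tc_e, p_e_v, ← D₂.v_e, D₂.p.eo n 0 hn]
  simp only [map_zero, Prod.mk_zero_zero]

theorem ev_q {n : ℤ} (hn : n ≠ 3) {f : BT (E₁.box E₂) (Box K T₁ T₂ H₁ T₂)
      (Box K S₁ S₂ Xp₁ Xp₂ × Box K S₁ S₂ Xq₁ Xq₂) →ₗ[S₁ ⊗[K] S₂] Res (chiBox χ₁ χ₂) K}
    (hf : (((D₁.box D₂ h2).tc h2).bt (E₁.box E₂) (Box K T₁ T₂ H₁ T₂)).Coc n f) :
    ev A f (0, Box.mk K S₁ S₂ D₁.w (D₂.c D₂.v)) = 0 := by
  have he : ∀ x, ev A f (((D₁.box D₂ h2).tc h2).e n x) = ev A f x := fun x =>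
    congrArg (Res.of (chiBox χ₁ χ₂) K).symm (hf.he (BT.mk (E₁.box E₂) (oneH A T₂) x))
  rw [← he, Dat.tc_e, q_e_w, ← D₂.v_e, D₂.c_e, D₂.q.eo _ 0 (by omega)]
  simp only [map_zero, Prod.mk_zero_zero]

theorem H_hz {n : ℤ} (h0 : n ≠ 0) (h3 : n ≠ 3) :
    (((D₁.box D₂ h2).tc h2).bt (E₁.box E₂) (Box K T₁ T₂ H₁ T₂)).HZ (Res (chiBox χ₁ χ₂) K) n :=
  fun _ hf => H_cob h2 A hf (ev_p h2 A h0 hf) (ev_q h2 A h3 hf)

theorem H_hr :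
    (((D₁.box D₂ h2).tc h2).bt (E₁.box E₂) (Box K T₁ T₂ H₁ T₂)).HR K (Res (chiBox χ₁ χ₂) K)
      3 1 := by
  intro f hf
  let l : Fin 2 → K := fun j => ev A (f j) (0, Box.mk K S₁ S₂ D₁.w (D₂.c D₂.v))
  obtain ⟨c, hc, hl⟩ : ∃ c : Fin 2 → K, c ≠ 0 ∧ ∑ j, c j * l j = 0 := by
    by_cases h : l 0 = 0
    · exact ⟨![1, 0], fun h' => one_ne_zero (congrFun h' 0), by simp [h]⟩
    · exact ⟨![l 1, -l 0], fun h' => h (neg_eq_zero.1 (congrFun h' 1)), by simp [mul_comm]⟩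
  have hcoc : (((D₁.box D₂ h2).tc h2).bt (E₁.box E₂) (Box K T₁ T₂ H₁ T₂)).Coc 3
      (∑ j, c j • f j) :=
    ⟨fun x => by simp [(hf _).he], fun x => by simp [(hf _).hd]⟩
  refine ⟨c, hc, H_cob h2 A hcoc (ev_p h2 A (by norm_num) hcoc) ?_⟩
  rw [← hl, Fin.sum_univ_two, Fin.sum_univ_two]
  rfl

end Asm

end

end Crest.Agent.R186
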