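import Crest.Agent.R186.QG
import Crest.Agent.R186.AssembleAux

/-! The hypotheses `MD` of the main construction hold for `R ⊗ D`. -/

set_option autoImplicit false
set_option linter.unusedSectionVars false

namespace Crest.Agent.R186

open scoped TensorProduct
open MulOpposite

section Gen

variable {K S T : Type*} [Field K] [Ring S] [Ring T] [Algebra K S] [Algebra K T]

/-- The twisted multiplication `a ⊗ b ↦ a * h b`. -/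
noncomputable def Env.mulTw (E : Env K S T) (h : S →ₐ[K] S) : T →ₗ[K] S :=
  E.lift ((LinearMap.mul K S).compl₂ h.toLinearMap)

@[simp] theorem Env.mulTw_apply (E : Env K S T) (h : S →ₐ[K] S) (a b : S) :
    E.mulTw h (E.l a * E.r (op b)) = a * h b := by simp [Env.mulTw]

theorem Env.mulTw_one (E : Env K S T) (h : S →ₐ[K] S) : E.mulTw h 1 = 1 := by
  have := E.mulTw_apply h 1 1
  simpa using this

theorem Env.mulTw_l (E : Env K S T) (h : S →ₐ[K] S) (a : S) (t : T) :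
    E.mulTw h (E.l a • t) = a * E.mulTw h t := by
  induction t using E.induction_on with
  | h0 => simp
  | h1 c d => rw [smul_eq_mul, E.l_mul, E.mulTw_apply, E.mulTw_apply, mul_assoc]
  | h2 x y hx hy => simp only [smul_add, map_add, hx, hy, mul_add]

theorem Env.mulTw_r (E : Env K S T) (h : S →ₐ[K] S) (b : S) (t : T) :
    E.mulTw h (E.r (op b) • t) = E.mulTw h t * h b := by
  induction t using E.induction_on with
  | h0 => simp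
  | h1 c d => rw [smul_eq_mul, E.r_mul, E.mulTw_apply, E.mulTw_apply, map_mul, mul_assoc]
  | h2 x y hx hy => simp only [smul_add, map_add, hx, hy, add_mul]

/-- The map `a ⊗ b ↦ χ b • a`. -/
noncomputable def Env.nu (E : Env K S T) (χ : S →ₐ[K] K) : T →ₗ[K] S :=
  E.lift (χ.toLinearMap.smulRight (LinearMap.id : S →ₗ[K] S)).flip

@[simp] theorem Env.nu_apply (E : Env K S T) (χ : S →ₐ[K] K) (a b : S) :
    E.nu χ (E.l a * E.r (op b)) = χ b • a := by simp [Env.nu]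

theorem Env.nu_l (E : Env K S T) (χ : S →ₐ[K] K) (a : S) (t : T) :
    E.nu χ (E.l a • t) = a * E.nu χ t := by
  induction t using E.induction_on with
  | h0 => simp
  | h1 c d => rw [smul_eq_mul, E.l_mul, E.nu_apply, E.nu_apply, mul_smul_comm]
  | h2 x y hx hy => simp only [smul_add, map_add, hx, hy, mul_add]

theorem Env.nu_r (E : Env K S T) (χ : S →ₐ[K] K) (b : S) (t : T) :
    E.nu χ (E.r (op b) • t) = χ b • E.nu χ t := by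
  induction t using E.induction_on with
  | h0 => simp
  | h1 c d => rw [smul_eq_mul, E.r_mul, E.nu_apply, E.nu_apply, map_mul, smul_smul, mul_comm]
  | h2 x y hx hy => simp only [smul_add, map_add, hx, hy]

theorem Env.chi_mulTw (E : Env K S T) (χ : S →ₐ[K] K) (h : S →ₐ[K] S) (hχ : ∀ a, χ (h a) = χ a)
    (t : T) : χ (E.mulTw h t) = χ (E.nu χ t) := by
  induction t using E.induction_on with
  | h0 => simp
  | h1 c d => simp [hχ, mul_comm]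
  | h2 x y hx hy => simp only [map_add, hx, hy]

variable {E : Env K S T} {χ : S →ₐ[K] K} {t : ℤ} {Xp Xq Y H W : Type*}
    [AddCommGroup Xp] [Module K Xp] [Module S Xp] [IsScalarTower K S Xp]
    [AddCommGroup Xq] [Module K Xq] [Module S Xq] [IsScalarTower K S Xq]
    [AddCommGroup Y] [Module K Y] [Module T Y] [IsScalarTower K T Y]
    [AddCommGroup H] [Module K H] [Module T H] [IsScalarTower K T H]
    [AddCommGroup W] [Module K W] [Module T W] [IsScalarTower K T W]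
    (D : Dat E χ t Xp Xq Y H W)

theorem Dat.G_ind {p : D.G → Prop} (h : ∀ y w, p (Submodule.Quotient.mk (y, w))) (g : D.G) :
    p g := by
  obtain ⟨⟨y, w⟩, rfl⟩ := Submodule.Quotient.mk_surjective _ g
  exact h y w

theorem Dat.Gπ_smul (μ' : W →ₗ[K] S) (hμ : ∀ y, μ' (D.f y) = 0) (a : T) (y : Y) (w : W) :
    D.Gπ μ' hμ (a • Submodule.Quotient.mk (y, w)) = μ' (a • w) := rfl

theorem ses_inr (R A B : Type*) [Ring R] [AddCommGroup A] [Module R A] [AddCommGroup B]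
    [Module R B] : SES (LinearMap.inr R A B) (LinearMap.fst R A B) :=
  ⟨LinearMap.inr_injective, LinearMap.fst_surjective, fun _ => rfl,
    fun y hy => ⟨y.2, Prod.ext (Eq.symm hy) rfl⟩⟩

/-- The structure `MD` attached to a datum with a twisting automorphism. -/
noncomputable def Dat.mkMD [Module.Finite K S] (ht : t = 4) (h2 : (2 : K) = 0)
    (hz : ∀ n, (D.tc h2).HZ S n) (h : S ≃ₐ[K] S) (χ_h : ∀ a, χ (h a) = χ a)
    (θ : (Xp × Xq) ≃ₗ[K] (Xp × Xq)) (θ_smul : ∀ (s : S) x, θ (s • x) = h s • θ x)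
    (θ_te : ∀ n x, θ ((D.tc h2).e n x) = (D.tc h2).e n (θ x))
    (θ_td : ∀ n x, θ ((D.tc h2).d n x) = (D.tc h2).d n (θ x))
    (θ_pe : ∀ n x, θ (D.pc.e n x) = D.pc.e n (θ x))
    (θ_pd : ∀ n x, θ (D.pc.d n x) = D.pc.d n (θ x))
    (ε_θ : ∀ x, D.εc (θ x) = D.εc x)
    (fd : ∀ (f : Xp × Xq →ₗ[S] Res χ K) n x, f ((D.tc h2).d n x) = 0)
    (E1 : ∀ n, n ≠ 0 → ∀ f : Xp × Xq →ₗ[S] Res χ K, (∀ x, f ((D.tc h2).e n x) = f x) →
      (∀ x, f (θ x) = f x) → f = 0)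
    (E2 : ∀ (n : ℤ) (a : Xp × Xq →ₗ[S] Res χ K), (∀ x, a ((D.tc h2).e n x) = a x) →
      ∃ (α : Xp × Xq →ₗ[S] Res χ K) (c : K), (∀ x, α ((D.tc h2).e n x) = α x) ∧
        (n ≠ 0 → c = 0) ∧ ∀ x, α (θ x) - α x + c • D.εc x = a x)
    (hμ : ∀ y, D.μ (D.f y) = 0) (μh : W →ₗ[K] S) (hμh : ∀ y, μh (D.f y) = 0)
    (μh_l : ∀ a x, μh (E.l a • x) = a * μh x)
    (μh_r : ∀ b x, μh (E.r (op b) • x) = μh x * h b)
    (χ_μh : ∀ x, χ (μh x) = χ (D.μ x))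
    (HZ : ∀ n, n ≠ 0 → n ≠ 3 → ((D.tc h2).bt E H).HZ (Res χ K) n)
    (HR : ((D.tc h2).bt E H).HR K (Res χ K) 3 1) : MD E χ (Xp × Xq) (D.G × T × T) where
  t := D.tc h2
  t_fp := D.tc_fp h2
  t_ex := D.tc_ex h2
  p := D.pc
  p_fp := D.pc_fp
  p_lo n hn := LinearMap.ext fun x => by simp [D.p_lo n hn]
  p_ex := D.pc_ex
  agree_e n hn := D.agree_e h2 n (by omega)
  agree_d n hn := D.agree_d h2 n (by omega)
  ε := D.εc
  ε_p := ⟨fun x => by simp [D.ε_e], fun x => by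
    have : D.ε (D.p.d x.1) = 0 := D.kp_p.εd x.1
    simp [D.ε_e, this]⟩
  ε_t x := by simp [D.ε_e]
  ε_ex := D.εc_ex
  v := (D.v, 0)
  v_e := by simp [D.v_e]
  ε_v := by simp [D.kp_p.εv]
  h := h
  χ_h := χ_h
  θ := θ
  θ_smul := θ_smul
  θ_te := θ_te
  θ_td := θ_td
  θ_pe := θ_pe
  θ_pd := θ_pd
  ε_θ := ε_θ
  fd := fd
  E1 := E1
  E2 := E2
  U_l := (D.G_l ht).prod (E.fpvia_l.prod E.fpvia_l)
  U_r := (D.G_r ht).prod (E.fpvia_r.prod E.fpvia_r)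
  π₁ := (D.Gπ D.μ hμ).coprod (E.mulTw (AlgHom.id K S) ∘ₗ LinearMap.fst K T T)
  π₂ := (D.Gπ μh hμh).coprod (E.mulTw h ∘ₗ LinearMap.snd K T T)
  π₁_l a u := by
    obtain ⟨g, b, c⟩ := u
    induction g using D.G_ind with | h y w =>
    simp only [LinearMap.coprod_apply, Prod.smul_mk, LinearMap.comp_apply, LinearMap.fst_apply,
      D.Gπ_smul, D.Gπ_mk, D.μ_l, E.mulTw_l, mul_add]
  π₁_r a u := by
    obtain ⟨g, b, c⟩ := u
    induction g using D.G_ind with | h y w =>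
    simp only [LinearMap.coprod_apply, Prod.smul_mk, LinearMap.comp_apply, LinearMap.fst_apply,
      D.Gπ_smul, D.Gπ_mk, D.μ_r, E.mulTw_r, add_mul, AlgHom.id_apply]
  π₂_l a u := by
    obtain ⟨g, b, c⟩ := u
    induction g using D.G_ind with | h y w =>
    simp only [LinearMap.coprod_apply, Prod.smul_mk, LinearMap.comp_apply, LinearMap.snd_apply,
      D.Gπ_smul, D.Gπ_mk, μh_l, E.mulTw_l, mul_add]
  π₂_r a u := by
    obtain ⟨g, b, c⟩ := u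
    induction g using D.G_ind with | h y w =>
    simp only [LinearMap.coprod_apply, Prod.smul_mk, LinearMap.comp_apply, LinearMap.snd_apply,
      D.Gπ_smul, D.Gπ_mk, μh_r, E.mulTw_r, add_mul, AlgEquiv.coe_toAlgHom]
  u₁ := (0, 1, 0)
  u₂ := (0, 0, 1)
  π₁_u₁ := by simp [E.mulTw_one]
  π₂_u₁ := by simp
  π₁_u₂ := by simp
  π₂_u₂ := by simp [E.mulTw_one]
  lft := (LinearMap.toSpanSingleton S (Xp × Xq) (D.v, 0)).restrictScalars K ∘ₗ E.nu χ ∘ₗ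
    (LinearMap.fst K T T - LinearMap.snd K T T) ∘ₗ LinearMap.snd K D.G (T × T)
  lft_l a u := by
    simp only [LinearMap.comp_apply, LinearMap.snd_apply, LinearMap.sub_apply, Prod.smul_snd,
      Prod.smul_fst, LinearMap.fst_apply, ← smul_sub, E.nu_l, LinearMap.restrictScalars_apply,
      LinearMap.toSpanSingleton_apply, mul_smul]
  lft_r a u := by
    simp only [LinearMap.comp_apply, LinearMap.snd_apply, LinearMap.sub_apply, Prod.smul_snd,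
      Prod.smul_fst, LinearMap.fst_apply, ← smul_sub, E.nu_r, LinearMap.restrictScalars_apply,
      LinearMap.toSpanSingleton_apply, smul_assoc]
  lft_e u := by simp [D.v_e]
  ε_lft u := by
    obtain ⟨g, b, c⟩ := u
    induction g using D.G_ind with | h y w =>
    have e1 := E.chi_mulTw χ (AlgHom.id K S) (fun _ => rfl) b
    have e2 := E.chi_mulTw χ h χ_h c
    simp [D.ε_smul, D.kp_p.εv, χ_μh, e1, e2]
  Q1 n h0 h3 := (Cx.bt_hr_mid (D.tc_fp h2) (ses_inr T D.G (T × T)) (D.G_l ht) (D.G_r ht)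
    (FP.id_self.prod FP.id_self) (D.tc_ex h2 n)
    (D.G_hr ht h2 n 0 ((HZ (n + 3) (by omega) (by omega)).hr 0))).hz
  Q2 := Cx.bt_hr_mid (D.tc_fp h2) (ses_inr T D.G (T × T)) (D.G_l ht) (D.G_r ht)
    (FP.id_self.prod FP.id_self) (D.tc_ex h2 0) (D.G_hr ht h2 0 1 (by simpa using HR))
  Q3 := by
    rintro ⟨g, hg⟩
    refine D.G_γ ht h2 hz fd hμ ⟨g ∘ₗ BT.mapL (LinearMap.inl T D.G (T × T)), fun u x => ?_⟩
    rw [LinearMap.comp_apply, BT.mapL_mk, hg]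
    simp

end Gen

section

variable {K S₁ T₁ S₂ T₂ : Type*} [Field K] [Ring S₁] [Ring T₁] [Algebra K S₁] [Algebra K T₁]
  [Ring S₂] [Ring T₂] [Algebra K S₂] [Algebra K T₂]
variable {E₁ : Env K S₁ T₁} {χ₁ : S₁ →ₐ[K] K} {Xp₁ Xq₁ Y₁ H₁ W₁ : Type*}
    [AddCommGroup Xp₁] [Module K Xp₁] [Module S₁ Xp₁] [IsScalarTower K S₁ Xp₁]
    [AddCommGroup Xq₁] [Module K Xq₁] [Module S₁ Xq₁] [IsScalarTower K S₁ Xq₁]
    [AddCommGroup Y₁] [Module K Y₁] [Module T₁ Y₁] [IsScalarTower K T₁ Y₁]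
    [AddCommGroup H₁] [Module K H₁] [Module T₁ H₁] [IsScalarTower K T₁ H₁]
    [AddCommGroup W₁] [Module K W₁] [Module T₁ W₁] [IsScalarTower K T₁ W₁]
variable {E₂ : Env K S₂ T₂} {χ₂ : S₂ →ₐ[K] K} {Xp₂ Xq₂ : Type*}
    [AddCommGroup Xp₂] [Module K Xp₂] [Module S₂ Xp₂] [IsScalarTower K S₂ Xp₂]
    [AddCommGroup Xq₂] [Module K Xq₂] [Module S₂ Xq₂] [IsScalarTower K S₂ Xq₂]

namespace Asm

variable {D₁ : Dat E₁ χ₁ 4 Xp₁ Xq₁ Y₁ H₁ W₁} {D₂ : Dat E₂ χ₂ 0 Xp₂ Xq₂ T₂ T₂ T₂}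
  (h2 : (2 : K) = 0) (A : D₁.Top) {lam : K} (Tw : D₂.Tw lam)

/-- The twisting automorphism of the algebra. -/
noncomputable def hh (S₁ : Type*) [Ring S₁] [Algebra K S₁] : S₁ ⊗[K] S₂ ≃ₐ[K] S₁ ⊗[K] S₂ :=
  Algebra.TensorProduct.congr AlgEquiv.refl Tw.h

theorem χ_hh (a : S₁ ⊗[K] S₂) : chiBox χ₁ χ₂ (hh Tw S₁ a) = chiBox χ₁ χ₂ a := by
  induction a using TensorProduct.induction_on with
  | zero => simp
  | tmul a b => simp [hh, Tw.χ_h]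
  | add a b ha hb => simp only [map_add, ha, hb]

theorem θ_smul (s : S₁ ⊗[K] S₂) (x : Box K S₁ S₂ Xp₁ Xp₂ × Box K S₁ S₂ Xq₁ Xq₂) :
    θ Tw (s • x) = hh Tw S₁ s • θ Tw x :=
  Prod.ext (Box.rEquiv_smul _ _ Tw.θp_smul s x.1) (Box.rEquiv_smul _ _ Tw.θq_smul s x.2)

theorem θ_te (n : ℤ) (x : Box K S₁ S₂ Xp₁ Xp₂ × Box K S₁ S₂ Xq₁ Xq₂) :
    θ Tw (((D₁.box D₂ h2).tc h2).e n x) = ((D₁.box D₂ h2).tc h2).e n (θ Tw x) := by
  simp only [Dat.tc_e, θ_apply, θp_e, θq_e]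

theorem θ_td (n : ℤ) (x : Box K S₁ S₂ Xp₁ Xp₂ × Box K S₁ S₂ Xq₁ Xq₂) :
    θ Tw (((D₁.box D₂ h2).tc h2).d n x) = ((D₁.box D₂ h2).tc h2).d n (θ Tw x) := by
  simp only [Dat.tc_d, θ_apply, θp_e, θq_e, θp_d, θq_d, θ_c, map_add]

theorem θ_pe (n : ℤ) (x : Box K S₁ S₂ Xp₁ Xp₂ × Box K S₁ S₂ Xq₁ Xq₂) :
    θ Tw ((D₁.box D₂ h2).pc.e n x) = (D₁.box D₂ h2).pc.e n (θ Tw x) := by
  simp only [Dat.pc_e, θ_apply, θp_e, map_zero]

theorem θ_pd (n : ℤ) (x : Box K S₁ S₂ Xp₁ Xp₂ × Box K S₁ S₂ Xq₁ Xq₂) :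
    θ Tw ((D₁.box D₂ h2).pc.d n x) = (D₁.box D₂ h2).pc.d n (θ Tw x) := by
  simp only [Dat.pc_d, θ_apply, θp_e, θp_d, map_zero]

theorem εc_θ (x : Box K S₁ S₂ Xp₁ Xp₂ × Box K S₁ S₂ Xq₁ Xq₂) :
    (D₁.box D₂ h2).εc (θ Tw x) = (D₁.box D₂ h2).εc x := by
  simp only [Dat.εc_apply, θ_apply, ε_θ]

/-- The twisted functional on `W`. -/
noncomputable def μh (D₁ : Dat E₁ χ₁ 4 Xp₁ Xq₁ Y₁ H₁ W₁) :
    Box K T₁ T₂ W₁ T₂ →ₗ[K] S₁ ⊗[K] S₂ := Box.tmap D₁.μ Tw.μh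

theorem μh_l (a : S₁ ⊗[K] S₂) (x : Box K T₁ T₂ W₁ T₂) :
    μh Tw D₁ ((E₁.box E₂).l a • x) = a * μh Tw D₁ x := Box.tmap_l _ _ D₁.μ_l Tw.μh_l a x

theorem μh_r (a : S₁ ⊗[K] S₂) (x : Box K T₁ T₂ W₁ T₂) :
    μh Tw D₁ ((E₁.box E₂).r (op a) • x) = μh Tw D₁ x * hh Tw S₁ a :=
  Box.tmap_r _ _ (AlgHom.id K S₁) (Tw.h : S₂ →ₐ[K] S₂) D₁.μ_r Tw.μh_r a x

theorem χ_μh (x : Box K T₁ T₂ W₁ T₂) :
    chiBox χ₁ χ₂ (μh Tw D₁ x) = chiBox χ₁ χ₂ ((D₁.box D₂ h2).μ x) := by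
  induction x using Box.induction_on with
  | h0 => simp
  | h1 a b =>
    change χ₁ (D₁.μ a) * χ₂ (Tw.μh b) = χ₁ (D₁.μ a) * χ₂ (D₂.μ b)
    rw [Tw.χ_μh]
  | h2 a b ha hb => simp only [map_add, ha, hb]

include A

theorem μ_f (y : Box K T₁ T₂ Y₁ T₂) : (D₁.box D₂ h2).μ ((D₁.box D₂ h2).f y) = 0 := by
  induction y using Box.induction_on with
  | h0 => simp
  | h1 a b =>
    change D₁.μ (D₁.f a) ⊗ₜ[K] D₂.μ (D₂.f b) = 0
    rw [A.μ_f, TensorProduct.zero_tmul]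
  | h2 a b ha hb => rw [map_add, map_add, ha, hb, add_zero]

theorem μh_f (y : Box K T₁ T₂ Y₁ T₂) : μh Tw D₁ ((D₁.box D₂ h2).f y) = 0 := by
  induction y using Box.induction_on with
  | h0 => simp
  | h1 a b =>
    change D₁.μ (D₁.f a) ⊗ₜ[K] Tw.μh (D₂.f b) = 0
    rw [A.μ_f, TensorProduct.zero_tmul]
  | h2 a b ha hb => rw [map_add, map_add, ha, hb, add_zero]

/-- The structure `MD` for the tensor product. -/
noncomputable def md [Module.Finite K S₁] [Module.Finite K S₂]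
    (hl : ∀ n : ℤ, n ≠ 0 → lam ^ n ≠ 1)
    (hz : ∀ n, ((D₁.box D₂ h2).tc h2).HZ (S₁ ⊗[K] S₂) n) :
    MD (E₁.box E₂) (chiBox χ₁ χ₂) (Box K S₁ S₂ Xp₁ Xp₂ × Box K S₁ S₂ Xq₁ Xq₂)
      ((D₁.box D₂ h2).G × (T₁ ⊗[K] T₂) × (T₁ ⊗[K] T₂)) :=
  (D₁.box D₂ h2).mkMD (add_zero 4) h2 hz (hh Tw S₁) (χ_hh Tw) (θ Tw) (θ_smul Tw) (θ_te h2 Tw)
    (θ_td h2 Tw) (θ_pe h2 Tw) (θ_pd h2 Tw) (εc_θ h2 Tw) (fd h2 A Tw) (E1 h2 A Tw hl)
    (E2 h2 A Tw hl) (μ_f h2 A) (μh Tw D₁) (μh_f h2 A Tw) (μh_l Tw) (μh_r Tw) (χ_μh h2 Tw)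
    (fun _ => H_hz h2 A) (H_hr h2 A)

end Asm

end

universe u

theorem TopExists.box {K S₁ T₁ S₂ T₂ : Type u} [Field K] [Ring S₁] [Ring T₁] [Algebra K S₁]
    [Algebra K T₁] [Ring S₂] [Ring T₂] [Algebra K S₂] [Algebra K T₂] {E₁ : Env K S₁ T₁}
    {E₂ : Env K S₂ T₂} {χ₁ : S₁ →ₐ[K] K} {χ₂ : S₂ →ₐ[K] K} {t₁ t₂ : ℤ} (h2 : (2 : K) = 0) :
    TopExists E₁ χ₁ t₁ → TopExists E₂ χ₂ t₂ →
      TopExists (E₁.box E₂) (chiBox χ₁ χ₂) (t₁ + t₂) := by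
  rintro ⟨Xp₁, Xq₁, Y₁, H₁, W₁, _, _, _, _, _, _, _, _, _, _, _, _, _, _, _, _, _, _, _, _, D₁,
    ⟨A₁⟩⟩ ⟨Xp₂, Xq₂, Y₂, H₂, W₂, _, _, _, _, _, _, _, _, _, _, _, _, _, _, _, _, _, _, _, _, D₂,
    ⟨A₂⟩⟩
  exact ⟨_, _, _, _, _, _, _, _, inferInstance, _, _, _, inferInstance, _, _, _, inferInstance,
    _, _, _, inferInstance, _, _, _, inferInstance, D₁.box D₂ h2, ⟨A₁.box h2 A₂⟩⟩

theorem exists_MD {K S₁ T₁ S₂ T₂ : Type u} [Field K] [Ring S₁] [Ring T₁] [Ring S₂] [Ring T₂]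
    [Algebra K S₁] [Algebra K T₁] [Algebra K S₂] [Algebra K T₂] [Module.Finite K S₁]
    [Module.Finite K S₂] (E₁ : Env K S₁ T₁) (E₂ : Env K S₂ T₂) (χ₁ : S₁ →ₐ[K] K)
    (χ₂ : S₂ →ₐ[K] K) (h2 : (2 : K) = 0) (lam : K) (hl : ∀ n : ℤ, n ≠ 0 → lam ^ n ≠ 1)
    (hR : TopExists E₁ χ₁ 4) (hD : TwExists E₂ χ₂ lam)
    (hz : ∀ (X : Type u) [AddCommGroup X] [Module K X] [Module (S₁ ⊗[K] S₂) X]
      [IsScalarTower K (S₁ ⊗[K] S₂) X] (P : Cx (S₁ ⊗[K] S₂) X), P.IsFP → (∀ n, P.ExactAt n) →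
      ∀ n, P.HZ (S₁ ⊗[K] S₂) n) :
    ∃ (X U : Type u) (_ : AddCommGroup X) (_ : Module K X) (_ : Module (S₁ ⊗[K] S₂) X)
      (_ : IsScalarTower K (S₁ ⊗[K] S₂) X) (_ : AddCommGroup U) (_ : Module K U)
      (_ : Module (T₁ ⊗[K] T₂) U) (_ : IsScalarTower K (T₁ ⊗[K] T₂) U),
      Nonempty (MD (E₁.box E₂) (chiBox χ₁ χ₂) X U) := by
  obtain ⟨Xp₁, Xq₁, Y₁, H₁, W₁, _, _, _, _, _, _, _, _, _, _, _, _, _, _, _, _, _, _, _, _, D₁,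
    ⟨A⟩⟩ := hR
  obtain ⟨Xp₂, Xq₂, _, _, _, _, _, _, _, _, D₂, ⟨Tw⟩⟩ := hD
  exact ⟨Box K S₁ S₂ Xp₁ Xp₂ × Box K S₁ S₂ Xq₁ Xq₂,
    (D₁.box D₂ h2).G × (T₁ ⊗[K] T₂) × (T₁ ⊗[K] T₂), inferInstance, inferInstance, inferInstance,
    inferInstance, inferInstance, inferInstance, inferInstance, inferInstance,
    ⟨Asm.md h2 A Tw hl (hz _ _ ((D₁.box D₂ h2).tc_fp h2) ((D₁.box D₂ h2).tc_ex h2))⟩⟩

end Crest.Agent.R186
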