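import Crest.Agent.R186.Env

/-! Tensor product of a bimodule with a left module; rank bounds for `Hom` cohomology. -/

set_option autoImplicit false
set_option linter.unusedSectionVars false

namespace Crest.Agent.R186

open scoped TensorProduct
open MulOpposite

/-! ### Rank bounds and exact sequences of complexes -/

namespace Cx

variable {K S X Y Z : Type*} [Field K] [Ring S] [Algebra K S]
  [AddCommGroup X] [Module S X] [AddCommGroup Y] [Module S Y] [AddCommGroup Z] [Module S Z]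
variable {N : Type*} [AddCommGroup N] [Module S N] [Module K N] [IsScalarTower K S N]

/-- Chain maps of degree zero. -/
structure Hom (P : Cx S X) (Q : Cx S Y) (f : X →ₗ[S] Y) : Prop where
  he : ∀ n x, f (P.e n x) = Q.e n (f x)
  hd : ∀ n x, f (P.d n x) = Q.d n (f x)

theorem Coc.pull {P : Cx S X} {Q : Cx S Y} {φ : X →ₗ[S] Y} (h : Hom P Q φ) {n : ℤ}
    {M : Type*} [AddCommGroup M] [Module S M] {f : Y →ₗ[S] M} (hf : Q.Coc n f) :
    P.Coc n (f ∘ₗ φ) :=
  ⟨fun x => by simp [h.he, hf.he], fun x => by simp [h.hd, hf.hd]⟩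

theorem Cob.pull {P : Cx S X} {Q : Cx S Y} {φ : X →ₗ[S] Y} (h : Hom P Q φ) {n : ℤ}
    {M : Type*} [AddCommGroup M] [Module S M] {f : Y →ₗ[S] M} (hf : Q.Cob n f) :
    P.Cob n (f ∘ₗ φ) := by
  obtain ⟨g, hg⟩ := hf
  exact ⟨g ∘ₗ φ, fun x => by simp [h.hd, hg]⟩

variable (K N) in
/-- The cohomology of `Hom(P, N)` in degree `n` has dimension at most `r`. -/
def HR (P : Cx S X) (n : ℤ) (r : ℕ) : Prop :=
  ∀ f : Fin (r + 1) → X →ₗ[S] N, (∀ j, P.Coc n (f j)) →
    ∃ c : Fin (r + 1) → K, c ≠ 0 ∧ P.Cob n (∑ j, c j • f j)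

theorem Cob.smul {P : Cx S X} {n : ℤ} {f : X →ₗ[S] N} (hf : P.Cob n f) (c : K) :
    P.Cob n (c • f) := by
  obtain ⟨g, hg⟩ := hf
  exact ⟨c • g, fun x => by simp [hg]⟩

theorem HR.hz {P : Cx S X} {n : ℤ} (h : P.HR K N n 0) : P.HZ N n := by
  intro f hf
  obtain ⟨c, hc, hb⟩ := h (fun _ => f) (fun _ => hf)
  have h0 : c 0 ≠ 0 := fun h0 => hc (funext fun i => by fin_cases i; exact h0)
  exact (hb.smul (c 0)⁻¹).congr fun x => by simp [smul_smul, h0]

theorem HZ.hr {P : Cx S X} {n : ℤ} (h : P.HZ N n) (r : ℕ) : P.HR K N n r := by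
  intro f hf
  refine ⟨fun _ => 1, fun h0 => one_ne_zero (congrFun h0 0), h _ ⟨fun x => ?_, fun x => ?_⟩⟩
  · simp [(hf _).he]
  · simp [(hf _).hd]

theorem HR.span {P : Cx S X} {n : ℤ} (h : P.HR K N n 1) {γ f : X →ₗ[S] N} (hγ : P.Coc n γ)
    (hγ' : ¬ P.Cob n γ) (hf : P.Coc n f) : ∃ c : K, P.Cob n (f - c • γ) := by
  obtain ⟨c, hc, hb⟩ := h ![γ, f] (fun j => by fin_cases j <;> assumption)
  by_cases h1 : c 1 = 0
  · have h0 : c 0 ≠ 0 := fun h0 => hc (funext fun i => by fin_cases i <;> assumption)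
    exact absurd ((hb.smul (c 0)⁻¹).congr fun x => by simp [smul_smul, h0, h1]) hγ'
  · refine ⟨-((c 1)⁻¹ * c 0), (hb.smul (c 1)⁻¹).congr fun x => ?_⟩
    simp [smul_smul, h1, add_comm]

/-- Degreewise retraction in a short exact sequence of complexes. -/
theorem exists_retr {P' : Cx S X} {P : Cx S Y} {P'' : Cx S Z} {i : X →ₗ[S] Y} {j : Y →ₗ[S] Z}
    (hs : SES i j) (hi : Hom P' P i) (hj : Hom P P'' j) (hfp : P''.IsFP) (n : ℤ) :
    ∃ r : Y →ₗ[S] X, (∀ x, r (i x) = P'.e n x) ∧ ∀ y, r (P.e n y) = r y := by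
  obtain ⟨s, hs'⟩ := (hfp n).lift j hs.surj
  obtain ⟨r, hr⟩ := exists_fac i hs.inj (P.e n - s ∘ₗ j ∘ₗ P.e n)
    (fun y => hs.ex _ (by simp [hs', hj.he, P''.ee]))
  refine ⟨r, fun x => hs.inj ?_, fun y => hs.inj ?_⟩
  · simp [hr, ← hi.he, hs.ji]
  · simp [hr, P.ee]

/-- Extension of homogeneous cochains. -/
theorem exists_ext {P' : Cx S X} {P : Cx S Y} {P'' : Cx S Z} {i : X →ₗ[S] Y} {j : Y →ₗ[S] Z}
    (hs : SES i j) (hi : Hom P' P i) (hj : Hom P P'' j) (hfp : P''.IsFP) (n : ℤ)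
    {M : Type*} [AddCommGroup M] [Module S M] (f : X →ₗ[S] M) (hf : ∀ x, f (P'.e n x) = f x) :
    ∃ g : Y →ₗ[S] M, (∀ x, g (i x) = f x) ∧ ∀ y, g (P.e n y) = g y := by
  obtain ⟨r, h1, h2⟩ := exists_retr hs hi hj hfp n
  exact ⟨f ∘ₗ r, fun x => by simp [h1, hf], fun y => by simp [h2]⟩

theorem HR.ses_sub {P' : Cx S X} {P : Cx S Y} {P'' : Cx S Z} {i : X →ₗ[S] Y} {j : Y →ₗ[S] Z}
    (hs : SES i j) (hi : Hom P' P i) (hj : Hom P P'' j) (hfp : P''.IsFP) {n : ℤ} {r : ℕ}
    (h : P.HZ N n) (h'' : P''.HR K N (n + 1) r) : P'.HR K N n r := by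
  intro f hf
  choose g hg hge using fun k => exists_ext hs hi hj hfp n (f k) (hf k).he
  have hdesc : ∀ k, ∃ a : Z →ₗ[S] N, ∀ y, a (j y) = g k (P.d n y) := fun k =>
    exists_desc j hs.surj (g k ∘ₗ P.d n) fun y hy => by
      obtain ⟨x, rfl⟩ := hs.ex y hy
      simp [← hi.hd, hg, (hf k).hd]
  choose a ha using hdesc
  have hac : ∀ k, P''.Coc (n + 1) (a k) := fun k =>
    ⟨fun z => by obtain ⟨y, rfl⟩ := hs.surj z; rw [← hj.he, ha, ha, P.de],
     fun z => by obtain ⟨y, rfl⟩ := hs.surj z; rw [← hj.hd, ha, P.dd, map_zero]⟩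
  obtain ⟨c, hc, hb⟩ := h'' a hac
  obtain ⟨b, hbe, hb⟩ := hb.exists_homog
  simp only [add_sub_cancel_right] at hbe hb
  refine ⟨c, hc, ?_⟩
  have hcoc : P.Coc n (∑ k, c k • g k - b ∘ₗ j) :=
    ⟨fun y => by simp [hge, hj.he, hbe], fun y => by simp [hj.hd, hb, ha]⟩
  exact ((h _ hcoc).pull hi).congr fun x => by simp [hg, hs.ji]

theorem HR.ses_mid {P' : Cx S X} {P : Cx S Y} {P'' : Cx S Z} {i : X →ₗ[S] Y} {j : Y →ₗ[S] Z}
    (hs : SES i j) (hi : Hom P' P i) (hj : Hom P P'' j) (hfp : P''.IsFP) {n : ℤ} {r : ℕ}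
    (h' : P'.HZ N n) (h'' : P''.HR K N n r) : P.HR K N n r := by
  intro f hf
  choose b hbe hb using fun k => (h' _ ((hf k).pull hi)).exists_homog
  choose g hg hge using fun k => exists_ext hs hi hj hfp (n - 1) (b k) (hbe k)
  have hdesc : ∀ k, ∃ a : Z →ₗ[S] N, ∀ y, a (j y) = (f k - g k ∘ₗ P.d (n - 1)) y := fun k =>
    exists_desc j hs.surj _ fun y hy => by
      obtain ⟨x, rfl⟩ := hs.ex y hy
      simp [← hi.hd, hg, hb]
  choose a ha using hdesc
  have hac : ∀ k, P''.Coc n (a k) := fun k =>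
    ⟨fun z => by obtain ⟨y, rfl⟩ := hs.surj z; rw [← hj.he, ha, ha]; simp [P.de', (hf k).he],
     fun z => by obtain ⟨y, rfl⟩ := hs.surj z; rw [← hj.hd, ha]; simp [P.dd', (hf k).hd]⟩
  obtain ⟨c, hc, hb'⟩ := h'' a hac
  refine ⟨c, hc, ?_⟩
  have h2 : P.Cob n ((∑ k, c k • g k) ∘ₗ P.d (n - 1)) := ⟨_, fun _ => rfl⟩
  exact ((hb'.pull hj).add h2).congr fun y => by
    simp [ha, smul_sub, Finset.sum_sub_distrib]

end Cx

/-! ### The tensor product over `S` -/

section BT

variable {K S T : Type*} [Field K] [Ring S] [Ring T] [Algebra K S] [Algebra K T] (E : Env K S T)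
variable (N X : Type*) [AddCommGroup N] [Module K N] [Module T N] [IsScalarTower K T N]
  [AddCommGroup X] [Module K X] [Module S X] [IsScalarTower K S X]

/-- The balancing relations. -/
def BT.rel : Submodule K (N ⊗[K] X) :=
  Submodule.span K {z | ∃ (b : S) (n : N) (x : X), (E.r (op b) • n) ⊗ₜ[K] x - n ⊗ₜ[K] (b • x) = z}

/-- `N ⊗_S X`. -/
def BT : Type _ := (N ⊗[K] X) ⧸ BT.rel E N X

namespace BT

noncomputable instance : AddCommGroup (BT E N X) :=
  inferInstanceAs (AddCommGroup ((N ⊗[K] X) ⧸ BT.rel E N X))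
noncomputable instance : Module K (BT E N X) :=
  inferInstanceAs (Module K ((N ⊗[K] X) ⧸ BT.rel E N X))

variable {N X}

/-- Pure tensors. -/
noncomputable def mk : N →ₗ[K] X →ₗ[K] BT E N X :=
  (TensorProduct.mk K N X).compr₂ (BT.rel E N X).mkQ

theorem mk_r (b : S) (n : N) (x : X) : mk E (E.r (op b) • n) x = mk E n (b • x) :=
  (Submodule.Quotient.eq _).2 (Submodule.subset_span ⟨b, n, x, rfl⟩)

variable {E}

@[elab_as_elim]
theorem induction_on {p : BT E N X → Prop} (z : BT E N X) (h0 : p 0)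
    (h1 : ∀ n x, p (mk E n x)) (h2 : ∀ z w, p z → p w → p (z + w)) : p z := by
  obtain ⟨z, rfl⟩ := (BT.rel E N X).mkQ_surjective z
  induction z using TensorProduct.induction_on with
  | zero => exact h0
  | tmul n x => exact h1 n x
  | add a b ha hb => exact h2 _ _ ha hb

theorem ext_add {V F G : Type*} [AddCommGroup V] [FunLike F (BT E N X) V]
    [AddMonoidHomClass F (BT E N X) V] [FunLike G (BT E N X) V]
    [AddMonoidHomClass G (BT E N X) V] (f : F) (g : G)
    (h : ∀ n x, f (mk E n x) = g (mk E n x)) (z : BT E N X) : f z = g z := by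
  induction z using BT.induction_on with
  | h0 => simp
  | h1 x y => exact h x y
  | h2 z w hz hw => simp [hz, hw]

/-- Universal property. -/
noncomputable def lift {V : Type*} [AddCommGroup V] [Module K V] (φ : N →ₗ[K] X →ₗ[K] V)
    (h : ∀ b n x, φ (E.r (op b) • n) x = φ n (b • x)) : BT E N X →ₗ[K] V :=
  (BT.rel E N X).liftQ (TensorProduct.lift φ) (Submodule.span_le.2 (by
    rintro _ ⟨b, n, x, rfl⟩
    simp [h]))

@[simp] theorem lift_mk {V : Type*} [AddCommGroup V] [Module K V] (φ : N →ₗ[K] X →ₗ[K] V)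
    (h : ∀ b n x, φ (E.r (op b) • n) x = φ n (b • x)) (n : N) (x : X) :
    lift φ h (mk E n x) = φ n x := rfl

variable {N' : Type*} [AddCommGroup N'] [Module K N'] [Module T N'] [IsScalarTower K T N']

/-- Functoriality for right-linear maps. -/
noncomputable def kmapL (φ : N →ₗ[K] N') (h : ∀ b n, φ (E.r (op b) • n) = E.r (op b) • φ n) :
    BT E N X →ₗ[K] BT E N' X :=
  lift (mk E ∘ₗ φ) fun b n x => by simp [h, mk_r]

@[simp] theorem kmapL_mk (φ : N →ₗ[K] N') (h) (n : N) (x : X) :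
    kmapL φ h (mk E n x) = mk E (φ n) x := rfl

variable (E N X) in
/-- The left action. -/
noncomputable def act : S →ₐ[K] Module.End K (BT E N X) :=
  AlgHom.ofLinearMap
    { toFun := fun a => kmapL (Algebra.lsmul K K N (E.l a)) fun b n => E.smul_comm a _ n
      map_add' := fun a b => LinearMap.ext (ext_add _ _ fun n x => by simp)
      map_smul' := fun a b => LinearMap.ext (ext_add _ _ fun n x => by simp) }
    (LinearMap.ext (ext_add _ _ fun n x => by simp))
    (fun a b => LinearMap.ext (ext_add _ _ fun n x => by simp))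

noncomputable instance : Module S (BT E N X) := Module.compHom _ (act E N X).toRingHom

@[simp] theorem smul_mk (a : S) (n : N) (x : X) : a • mk E n x = mk E (E.l a • n) x := rfl

instance : IsScalarTower K S (BT E N X) :=
  ⟨fun k s n => by
    change (act E N X (k • s)) n = k • (act E N X s n)
    rw [map_smul]; rfl⟩

/-- `S`-linear maps out of the tensor product. -/
noncomputable def liftS {V : Type*} [AddCommGroup V] [Module K V] [Module S V]
    (φ : N →ₗ[K] X →ₗ[K] V) (h : ∀ b n x, φ (E.r (op b) • n) x = φ n (b • x))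
    (hl : ∀ a n x, φ (E.l a • n) x = a • φ n x) : BT E N X →ₗ[S] V :=
  mkLin (lift φ h) fun s z => by
    induction z using BT.induction_on with
    | h0 => simp
    | h1 n x => simp [hl]
    | h2 z w hz hw => simp only [smul_add, map_add, hz, hw]

@[simp] theorem liftS_mk {V : Type*} [AddCommGroup V] [Module K V] [Module S V]
    (φ : N →ₗ[K] X →ₗ[K] V) (h hl) (n : N) (x : X) : liftS (E := E) φ h hl (mk E n x) = φ n x := rfl

/-- Functoriality in the bimodule. -/
noncomputable def mapL (φ : N →ₗ[T] N') : BT E N X →ₗ[S] BT E N' X :=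
  liftS (mk E ∘ₗ φ.restrictScalars K) (fun b n x => by simp [mk_r]) (fun a n x => by simp)

@[simp] theorem mapL_mk (φ : N →ₗ[T] N') (n : N) (x : X) : mapL φ (mk E n x) = mk E (φ n) x := rfl

variable {X' : Type*} [AddCommGroup X'] [Module K X'] [Module S X'] [IsScalarTower K S X']

/-- Functoriality in the module. -/
noncomputable def mapR (g : X →ₗ[S] X') : BT E N X →ₗ[S] BT E N X' :=
  liftS ((mk E).compl₂ (g.restrictScalars K)) (fun b n x => by simp [mk_r]) (fun a n x => by simp)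

@[simp] theorem mapR_mk (g : X →ₗ[S] X') (n : N) (x : X) : mapR g (mk E n x) = mk E n (g x) := rfl

theorem fp_mapR (hN : FPvia N E.l) {a : X →ₗ[S] X'} (ha : FP a) :
    FP (mapR (E := E) (N := N) a) := by
  induction ha with
  | zero => exact FP.zero.congr (ext_add _ _ (by simp))
  | add _ _ h1 h2 => exact (h1.add h2).congr (ext_add _ _ (by simp))
  | one φ y =>
    let α : BT E N X →ₗ[S] Res E.l N := liftS
      (LinearMap.mk₂ K (fun n x => Res.of E.l N (E.r (op (φ x)) • n))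
        (fun n n' x => by simp) (fun c n x => by rw [smul_comm, map_smul])
        (fun n x x' => by simp [add_smul]) (fun c n x => by simp))
      (fun b n x => by simp [mul_smul])
      (fun a n x => by simp [Res.smul_of, E.smul_comm])
    let β : Res E.l N →ₗ[S] BT E N X' :=
      mkLin ((mk E).flip y ∘ₗ (Res.of E.l N).symm.toLinearMap) fun s n => rfl
    exact ((hN.comp_left β).comp_right α).congr (ext_add _ _ fun n x => by simp [α, β, mk_r])

theorem ses_mapL {N'' : Type*} [AddCommGroup N''] [Module K N''] [Module T N'']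
    [IsScalarTower K T N''] {i : N' →ₗ[T] N} {j : N →ₗ[T] N''} (hs : SES i j)
    (hr : FPvia N'' E.r) : SES (mapL (E := E) (X := X) i) (mapL j) := by
  obtain ⟨r, s, h1, h2, h3⟩ := (hs.res E.r).split hr
  let r' : BT E N X →ₗ[K] BT E N' X :=
    kmapL (N := N) (N' := N') (r.restrictScalars K) fun b n => r.map_smul (op b) n
  let s' : BT E N'' X →ₗ[K] BT E N X :=
    kmapL (N := N'') (N' := N) (s.restrictScalars K) fun b n => s.map_smul (op b) n
  have e1 : ∀ z, r' (mapL i z) = z := ext_add (r' ∘ₗ (mapL i).restrictScalars K)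
    (LinearMap.id (R := K)) fun n x => congrArg (fun m => mk E m x) (h1 n)
  have e2 : ∀ z, mapL j (s' z) = z := ext_add ((mapL j).restrictScalars K ∘ₗ s')
    (LinearMap.id (R := K)) fun n x => congrArg (fun m => mk E m x) (h2 n)
  have e3 : ∀ z, mapL i (r' z) + s' (mapL j z) = z :=
    ext_add ((mapL i).restrictScalars K ∘ₗ r' + s' ∘ₗ (mapL j).restrictScalars K)
      (LinearMap.id (R := K)) fun n x => by
        have : mk E (i (r n) + (Res.of E.r N).symm (s (j n))) x = mk E n x :=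
          congrArg (fun m : N => mk E m x) (h3 n)
        rw [map_add, LinearMap.add_apply] at this
        exact this
  refine ⟨fun a b h => by rw [← e1 a, h, e1], fun z => ⟨_, e2 z⟩,
    ext_add (mapL j ∘ₗ mapL i) (0 : _ →ₗ[S] _) fun n x => by simp [hs.ji], fun y hy => ⟨r' y, ?_⟩⟩
  simpa [hy] using e3 y

end BT

variable {X}

/-- The complex `N ⊗_S P`. -/
noncomputable def Cx.bt (P : Cx S X) : Cx S (BT E N X) where
  e n := BT.mapR (P.e n)
  d n := BT.mapR (P.d n)
  ee n := BT.ext_add (BT.mapR (P.e n) ∘ₗ BT.mapR (P.e n)) _ fun a x => by simp [P.ee]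
  ed n := BT.ext_add (BT.mapR (P.e n) ∘ₗ BT.mapR (P.d n)) _ fun a x => by simp [P.ed]
  de n := BT.ext_add (BT.mapR (P.d n) ∘ₗ BT.mapR (P.e (n + 1))) _ fun a x => by simp [P.de]
  dd n := BT.ext_add (BT.mapR (P.d n) ∘ₗ BT.mapR (P.d (n + 1))) (0 : _ →ₗ[S] _)
    fun a x => by simp [P.dd]

namespace Cx

variable {E N} {P : Cx S X}

@[simp] theorem bt_e_mk (n : ℤ) (a : N) (x : X) :
    (P.bt E N).e n (BT.mk E a x) = BT.mk E a (P.e n x) := rfl

@[simp] theorem bt_d_mk (n : ℤ) (a : N) (x : X) :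
    (P.bt E N).d n (BT.mk E a x) = BT.mk E a (P.d n x) := rfl

theorem bt_fp (hN : FPvia N E.l) (hP : P.IsFP) : (P.bt E N).IsFP :=
  fun n => BT.fp_mapR hN (hP n)

variable {N' : Type*} [AddCommGroup N'] [Module K N'] [Module T N'] [IsScalarTower K T N']

theorem bt_hom (φ : N →ₗ[T] N') : Hom (P.bt E N) (P.bt E N') (BT.mapL φ) :=
  ⟨fun n => BT.ext_add (BT.mapL φ ∘ₗ (P.bt E N).e n) ((P.bt E N').e n ∘ₗ BT.mapL φ)
    fun _ _ => rfl,
   fun n => BT.ext_add (BT.mapL φ ∘ₗ (P.bt E N).d n) ((P.bt E N').d n ∘ₗ BT.mapL φ)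
    fun _ _ => rfl⟩

theorem bt_exactAt (hN : FPvia N E.r) {n : ℤ} (h : P.ExactAt n) : (P.bt E N).ExactAt n := by
  obtain ⟨m, ψ, y, h1, h2⟩ := hN.exists_fin
  let a : Fin m → BT E N X →ₗ[K] X := fun k => BT.lift
    (LinearMap.mk₂ K (fun u x => unop (ψ k u) • x) (fun u u' x => by simp [add_smul])
      (fun c u x => by simp) (fun u x x' => by simp) (fun c u x => by rw [smul_comm]))
    (fun b u x => by simp [h1, mul_smul])
  have ha : ∀ k (g : X →ₗ[S] X) z, a k (BT.mapR g z) = g (a k z) := fun k g =>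
    BT.ext_add (a k ∘ₗ (BT.mapR g).restrictScalars K) (g.restrictScalars K ∘ₗ a k)
      fun u x => by simp [a]
  have hsum : ∀ z, (∑ k, BT.mk E (y k) ∘ₗ a k) z = z :=
    BT.ext_add _ (LinearMap.id (R := K)) fun u x => by
      conv_rhs => rw [LinearMap.id_apply, ← h2 u, map_sum, LinearMap.sum_apply]
      simp [a, ← BT.mk_r]
  intro z hz hd
  have : ∀ k, ∃ w, P.d n w = a k z := fun k =>
    h _ (by rw [← ha]; exact congrArg _ hz) (by rw [← ha]; exact (congrArg _ hd).trans (map_zero _))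
  choose w hw using this
  refine ⟨∑ k, BT.mk E (y k) (w k), ?_⟩
  rw [← hsum z]
  simp [hw]

variable {M : Type*} [AddCommGroup M] [Module K M] [Module S M] [IsScalarTower K S M]

/-- Over the ground field, functionals on an exact complex are coboundaries. -/
theorem exists_kcob {n : ℤ} (h : P.ExactAt n) (f : X →ₗ[K] M) (he : ∀ x, f (P.e n x) = f x)
    (hd : ∀ x, f (P.d n x) = 0) : ∃ g : X →ₗ[K] M, ∀ x, g (P.d (n - 1) x) = f x := by
  obtain ⟨σ, hσ⟩ := exists_geninv ((P.d (n - 1)).restrictScalars K)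
  refine ⟨f ∘ₗ σ, fun x => ?_⟩
  obtain ⟨w, hw⟩ := h (P.e n (σ (P.d (n - 1) x) - x)) (P.ee _ _)
    (by rw [P.de', map_sub]; exact sub_eq_zero.2 (hσ x))
  have := hd w
  rw [hw, he, map_sub, sub_eq_zero] at this
  exact this

theorem bt_hz_free {n : ℤ} (h : P.ExactAt n) : (P.bt E T).HZ M n := by
  intro f hf
  obtain ⟨g, hg⟩ := exists_kcob h (f.restrictScalars K ∘ₗ BT.mk E (1 : T))
    (fun x => hf.he (BT.mk E 1 x)) (fun x => hf.hd (BT.mk E 1 x))
  let φ : T →ₗ[K] X →ₗ[K] M := E.lift (LinearMap.mk₂ K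
    (fun a b => Algebra.lsmul K K M a ∘ₗ g ∘ₗ Algebra.lsmul K K X b)
    (fun a a' b => by ext; simp) (fun c a b => by ext; simp)
    (fun a b b' => by ext; simp) (fun c a b => by ext; simp [smul_comm a c]))
  have hφ : ∀ a b x, φ (E.l a * E.r (op b)) x = a • g (b • x) := fun a b x => by simp [φ]
  have h1 : ∀ b t x, φ (E.r (op b) • t) x = φ t (b • x) := fun b t x => by
    induction t using E.induction_on with
    | h0 => simp
    | h1 a c => rw [smul_eq_mul, E.r_mul, hφ, hφ, mul_smul]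
    | h2 s t hs ht => simp only [smul_add, map_add, LinearMap.add_apply, hs, ht]
  have h2 : ∀ a t x, φ (E.l a • t) x = a • φ t x := fun a t x => by
    induction t using E.induction_on with
    | h0 => simp
    | h1 c b => rw [smul_eq_mul, E.l_mul, hφ, hφ, mul_smul]
    | h2 s t hs ht => simp only [smul_add, map_add, LinearMap.add_apply, hs, ht]
  refine ⟨BT.liftS φ h1 h2,
    BT.ext_add (BT.liftS φ h1 h2 ∘ₗ (P.bt E T).d (n - 1)) f fun t x => ?_⟩
  induction t using E.induction_on with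
  | h0 => simp
  | h1 a b =>
    have : BT.mk E (E.l a * E.r (op b)) x = a • BT.mk E (1 : T) (b • x) := by
      rw [← BT.mk_r, BT.smul_mk]; simp
    rw [LinearMap.comp_apply, bt_d_mk, BT.liftS_mk, hφ, this, f.map_smul, ← (P.d (n - 1)).map_smul, hg]
    rfl
  | h2 s t hs ht => simp only [map_add, LinearMap.add_apply, hs, ht]

theorem bt_cob_fp {n : ℤ} (h : P.ExactAt n) {a : N →ₗ[T] N'} (ha : FP a)
    {f : BT E N' X →ₗ[S] M} (hf : (P.bt E N').Coc n f) : (P.bt E N).Cob n (f ∘ₗ BT.mapL a) := by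
  induction ha with
  | zero => exact (Cob.zero n).congr (BT.ext_add _ _ (by simp))
  | add _ _ h1 h2 => exact (h1.add h2).congr (BT.ext_add _ _ (by simp))
  | one φ y =>
    exact ((bt_hz_free h _ (hf.pull (bt_hom (LinearMap.toSpanSingleton T N' y)))).pull
      (bt_hom φ)).congr (BT.ext_add _ _ (by simp))

/-- Tensoring with a projective bimodule gives a contractible complex. -/
theorem bt_hz_proj {n : ℤ} (h : P.ExactAt n) (hN : FP (LinearMap.id : N →ₗ[T] N)) :
    (P.bt E N).HZ M n :=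
  fun _ hf => (bt_cob_fp h hN hf).congr (BT.ext_add _ _ (by simp))

variable {N'' : Type*} [AddCommGroup N''] [Module K N''] [Module T N''] [IsScalarTower K T N'']

theorem bt_hr_sub (hP : P.IsFP) {i : N' →ₗ[T] N} {j : N →ₗ[T] N''} (hs : SES i j)
    (hl : FPvia N'' E.l) (hr : FPvia N'' E.r) (hN : FP (LinearMap.id : N →ₗ[T] N)) {n : ℤ}
    (h : P.ExactAt n) {r : ℕ} (h'' : (P.bt E N'').HR K M (n + 1) r) : (P.bt E N').HR K M n r :=
  HR.ses_sub (BT.ses_mapL hs hr) (bt_hom i) (bt_hom j) (bt_fp hl hP) (bt_hz_proj h hN) h''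

theorem bt_hr_mid (hP : P.IsFP) {i : N' →ₗ[T] N} {j : N →ₗ[T] N''} (hs : SES i j)
    (hl : FPvia N'' E.l) (hr : FPvia N'' E.r) (hN : FP (LinearMap.id : N' →ₗ[T] N')) {n : ℤ}
    (h : P.ExactAt n) {r : ℕ} (h'' : (P.bt E N'').HR K M n r) : (P.bt E N).HR K M n r :=
  HR.ses_mid (BT.ses_mapL hs hr) (bt_hom i) (bt_hom j) (bt_fp hl hP) (bt_hz_proj h hN) h''

end Cx

end BT

end Crest.Agent.R186
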