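import Crest.Agent.R186.Dat

/-! The truncated bar resolution of an algebra over its enveloping algebra. -/

set_option autoImplicit false
set_option linter.unusedSectionVars false

namespace Crest.Agent.R186

open scoped TensorProduct
open MulOpposite

variable {K S T : Type*} [Field K] [Ring S] [Ring T] [Algebra K S] [Algebra K T]

section Ext

variable {M N : Type*} [AddCommGroup M] [Module K M] [AddCommGroup N] [Module K N] [Module T N]
  [IsScalarTower K T N]

variable (T) in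
/-- The `T`-linear extension of a `K`-linear map. -/
noncomputable def barExt (g : M →ₗ[K] N) : T ⊗[K] M →ₗ[T] N :=
  TensorProduct.AlgebraTensorModule.lift (LinearMap.toSpanSingleton T (M →ₗ[K] N) g)

@[simp] theorem barExt_tmul (g : M →ₗ[K] N) (t : T) (m : M) :
    barExt T g (t ⊗ₜ[K] m) = t • g m := by simp [barExt]

theorem barFree_fp [Module.Finite K M] : FP (LinearMap.id : T ⊗[K] M →ₗ[T] T ⊗[K] M) := by
  let b := Module.finBasis K M
  refine FP.of_fin (fun k => barExt T ((b.coord k).smulRight (1 : T)))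
    (fun k => (1 : T) ⊗ₜ[K] b k) fun x => ?_
  induction x using TensorProduct.induction_on with
  | zero => simp
  | tmul t m =>
    conv_lhs => rw [LinearMap.id_apply, ← b.sum_repr m, TensorProduct.tmul_sum]
    refine Finset.sum_congr rfl fun k _ => ?_
    rw [barExt_tmul, TensorProduct.smul_tmul', TensorProduct.tmul_smul, TensorProduct.smul_tmul']
    simp
  | add x y hx hy =>
    rw [map_add, hx, hy, ← Finset.sum_add_distrib]
    simp only [map_add, add_smul]

end Ext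

namespace Env

variable (E : Env K S T)

theorem r_mul_r (a b : S) : E.r (op a) * E.r (op b) = E.r (op (b * a)) := by
  rw [← map_mul, op_mul]

theorem lift_l {V : Type*} [AddCommGroup V] [Module K V] (φ : S →ₗ[K] S →ₗ[K] V) (a : S) :
    E.lift φ (E.l a) = φ a 1 := by simpa using E.lift_apply φ a 1

theorem lift_r {V : Type*} [AddCommGroup V] [Module K V] (φ : S →ₗ[K] S →ₗ[K] V) (b : S) :
    E.lift φ (E.r (op b)) = φ 1 b := by simpa using E.lift_apply φ 1 b

theorem lr_mul (a b c d : S) :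
    E.l a * E.r (op b) * (E.l c * E.r (op d)) = E.l (a * c) * E.r (op (d * b)) := by
  rw [mul_assoc, E.r_mul, E.l_mul]

theorem lr_mul_l (a b c : S) : E.l a * E.r (op b) * E.l c = E.l (a * c) * E.r (op b) := by
  simpa using E.lr_mul a b c 1

theorem lr_mul_r (a b c : S) : E.l a * E.r (op b) * E.r (op c) = E.l a * E.r (op (c * b)) := by
  rw [mul_assoc, E.r_mul_r]

/-- The right action as a linear map. -/
noncomputable def rl : S →ₗ[K] T := E.r.toLinearMap ∘ₗ (opLinearEquiv K : S ≃ₗ[K] Sᵐᵒᵖ).toLinearMap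

@[simp] theorem rl_apply (a : S) : E.rl a = E.r (op a) := rfl

/-- Multiplication. -/
noncomputable def mu : T →ₗ[K] S := E.lift (LinearMap.mul K S)

@[simp] theorem mu_apply (a b : S) : E.mu (E.l a * E.r (op b)) = a * b := by simp [mu]

theorem mu_l' (a : S) : E.mu (E.l a) = a := by simp [mu, lift_l]

theorem mu_r' (a : S) : E.mu (E.r (op a)) = a := by simp [mu, lift_r]

theorem mu_l (a : S) (x : T) : E.mu (E.l a • x) = a * E.mu x := by
  induction x using E.induction_on with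
  | h0 => simp
  | h1 b c => rw [smul_eq_mul, E.l_mul, mu_apply, mu_apply, mul_assoc]
  | h2 x y hx hy => simp only [smul_add, map_add, hx, hy, mul_add]

theorem mu_r (a : S) (x : T) : E.mu (E.r (op a) • x) = E.mu x * a := by
  induction x using E.induction_on with
  | h0 => simp
  | h1 b c => rw [smul_eq_mul, E.r_mul, mu_apply, mu_apply, mul_assoc]
  | h2 x y hx hy => simp only [smul_add, map_add, hx, hy, add_mul]

theorem mu_mul_eq_zero (t : T) {x : T} (hx : E.mu x = 0) : E.mu (t * x) = 0 := by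
  induction t using E.induction_on with
  | h0 => simp
  | h1 a b =>
    rw [mul_assoc, ← smul_eq_mul, E.mu_l, ← smul_eq_mul (E.r _), E.mu_r, hx]; simp
  | h2 x y hx hy => simp only [add_mul, map_add, hx, hy, add_zero]

/-- The action of `T` on `S`, as a linear map. -/
noncomputable def actL : T →ₗ[K] Module.End K S :=
  E.lift (LinearMap.mk₂ K (fun a b => LinearMap.mulLeft K a ∘ₗ LinearMap.mulRight K b)
    (fun _ _ _ => by ext; simp [add_mul]) (fun _ _ _ => by ext; simp)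
    (fun _ _ _ => by ext; simp [mul_add]) (fun _ _ _ => by ext; simp))

theorem actL_apply (a b x : S) : E.actL (E.l a * E.r (op b)) x = a * (x * b) := by simp [actL]

/-- The action of `T` on `S`. -/
noncomputable def act : T →ₐ[K] Module.End K S :=
  AlgHom.ofLinearMap E.actL
    (LinearMap.ext fun x => by simpa using E.actL_apply 1 1 x)
    (fun s t => by
      induction s using E.induction_on with
      | h0 => simp
      | h2 x y hx hy => simp only [add_mul, map_add, hx, hy]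
      | h1 a b =>
        induction t using E.induction_on with
        | h0 => simp
        | h2 x y hx hy => simp only [mul_add, map_add, hx, hy]
        | h1 c d =>
          refine LinearMap.ext fun x => ?_
          rw [E.lr_mul, Module.End.mul_apply, actL_apply, actL_apply, actL_apply]
          simp only [mul_assoc])

theorem act_l (a x : S) : E.act (E.l a) x = a * x := by simpa [act] using E.actL_apply a 1 x

theorem act_r (b x : S) : E.act (E.r (op b)) x = x * b := by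
  simpa [act] using E.actL_apply 1 b x

/-- `S` as a bimodule. -/
abbrev Reg : Type _ := Res E.act S

/-- The identity map `S → Reg`. -/
noncomputable abbrev toReg : S ≃ₗ[K] E.Reg := Res.of E.act S

theorem l_smul_toReg (a x : S) : E.l a • E.toReg x = E.toReg (a * x) := by
  rw [Res.smul_of, Module.End.smul_def, act_l]

theorem r_smul_toReg (b x : S) : E.r (op b) • E.toReg x = E.toReg (x * b) := by
  rw [Res.smul_of, Module.End.smul_def, act_r]

theorem reg_l : FPvia E.Reg E.l :=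
  FPvia.of_fin (ι := Unit) (fun _ => E.toReg.symm.toLinearMap) (fun _ => E.toReg 1)
    (fun _ s n => by
      obtain ⟨n, rfl⟩ := E.toReg.surjective n
      simp [l_smul_toReg])
    (fun n => by
      obtain ⟨n, rfl⟩ := E.toReg.surjective n
      simp [l_smul_toReg])

theorem reg_r : FPvia E.Reg E.r :=
  FPvia.of_fin (ι := Unit)
    (fun _ => (opLinearEquiv K : S ≃ₗ[K] Sᵐᵒᵖ).toLinearMap ∘ₗ E.toReg.symm.toLinearMap)
    (fun _ => E.toReg 1)
    (fun _ s n => by
      obtain ⟨n, rfl⟩ := E.toReg.surjective n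
      obtain ⟨s, rfl⟩ := op_surjective s
      simp [r_smul_toReg])
    (fun n => by
      obtain ⟨n, rfl⟩ := E.toReg.surjective n
      simp [r_smul_toReg])

/-- Multiplication as a bimodule map. -/
noncomputable def muT : T →ₗ[T] E.Reg :=
  mkLin (E.toReg.toLinearMap ∘ₗ E.mu) fun t x =>
    E.smul_eqv (E.toReg.toLinearMap ∘ₗ E.mu)
      (fun a n => by simp only [LinearMap.comp_apply, E.mu_l, LinearEquiv.coe_coe, l_smul_toReg])
      (fun a n => by simp only [LinearMap.comp_apply, E.mu_r, LinearEquiv.coe_coe, r_smul_toReg])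
      t x

@[simp] theorem muT_apply (x : T) : E.muT x = E.toReg (E.mu x) := rfl

noncomputable def d1 : T ⊗[K] S →ₗ[T] T := barExt T (E.l.toLinearMap - E.rl)

theorem d1_tmul (t : T) (a : S) : E.d1 (t ⊗ₜ[K] a) = t * E.l a - t * E.r (op a) := by
  simp [d1, mul_sub]

noncomputable def d2 : T ⊗[K] (S ⊗[K] S) →ₗ[T] T ⊗[K] S :=
  barExt T (TensorProduct.map E.l.toLinearMap LinearMap.id -
    TensorProduct.mk K T S 1 ∘ₗ LinearMap.mul' K S +
    TensorProduct.map E.rl LinearMap.id ∘ₗ (TensorProduct.comm K S S).toLinearMap)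

theorem d2_tmul (t : T) (a b : S) : E.d2 (t ⊗ₜ[K] (a ⊗ₜ[K] b)) =
    (t * E.l a) ⊗ₜ[K] b - t ⊗ₜ[K] (a * b) + (t * E.r (op b)) ⊗ₜ[K] a := by
  simp [d2, smul_sub, TensorProduct.smul_tmul']

@[elab_as_elim]
theorem ind1 {p : T ⊗[K] S → Prop} (x : T ⊗[K] S) (h0 : p 0)
    (h1 : ∀ a c b, p ((E.l a * E.r (op c)) ⊗ₜ[K] b)) (h2 : ∀ s t, p s → p t → p (s + t)) :
    p x := by
  induction x using TensorProduct.induction_on with
  | zero => exact h0
  | add x y hx hy => exact h2 _ _ hx hy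
  | tmul t b =>
    induction t using E.induction_on with
    | h0 => simpa using h0
    | h1 a c => exact h1 a c b
    | h2 x y hx hy => rw [TensorProduct.add_tmul]; exact h2 _ _ hx hy

@[elab_as_elim]
theorem ind2 {p : T ⊗[K] (S ⊗[K] S) → Prop} (x : T ⊗[K] (S ⊗[K] S)) (h0 : p 0)
    (h1 : ∀ a d b c, p ((E.l a * E.r (op d)) ⊗ₜ[K] (b ⊗ₜ[K] c)))
    (h2 : ∀ s t, p s → p t → p (s + t)) : p x := by
  induction x using TensorProduct.induction_on with
  | zero => exact h0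
  | add x y hx hy => exact h2 _ _ hx hy
  | tmul t z =>
    induction z using TensorProduct.induction_on with
    | zero => simpa using h0
    | add x y hx hy => rw [TensorProduct.tmul_add]; exact h2 _ _ hx hy
    | tmul b c =>
      induction t using E.induction_on with
      | h0 => simpa using h0
      | h1 a d => exact h1 a d b c
      | h2 x y hx hy => rw [TensorProduct.add_tmul]; exact h2 _ _ hx hy

theorem mu_d1 (x : T ⊗[K] S) : E.mu (E.d1 x) = 0 := by
  induction x using E.ind1 with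
  | h0 => simp
  | h1 a c b => rw [d1_tmul, lr_mul_l, lr_mul_r, map_sub, mu_apply, mu_apply, mul_assoc, sub_self]
  | h2 x y hx hy => simp only [map_add, hx, hy, add_zero]

theorem d1_d2 (x : T ⊗[K] (S ⊗[K] S)) : E.d1 (E.d2 x) = 0 := by
  induction x using E.ind2 with
  | h0 => simp
  | h1 a d b c =>
    simp only [d2_tmul, map_add, map_sub, d1_tmul, lr_mul_l, lr_mul_r]
    simp only [mul_assoc]
    abel
  | h2 x y hx hy => simp only [map_add, hx, hy, add_zero]

noncomputable def s0 : T →ₗ[K] T ⊗[K] S :=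
  E.lift ((TensorProduct.mk K T S).compl₁₂ E.rl LinearMap.id).flip

theorem s0_apply (a b : S) : E.s0 (E.l a * E.r (op b)) = E.r (op b) ⊗ₜ[K] a := by simp [s0]

noncomputable def s1 : T ⊗[K] S →ₗ[K] T ⊗[K] (S ⊗[K] S) :=
  (TensorProduct.assoc K T S S).toLinearMap ∘ₗ TensorProduct.map E.s0 LinearMap.id

theorem s1_apply (a c b : S) :
    E.s1 ((E.l a * E.r (op c)) ⊗ₜ[K] b) = E.r (op c) ⊗ₜ[K] (a ⊗ₜ[K] b) := by
  simp [s1, s0_apply]

theorem htpy0 (x : T) : E.d1 (E.s0 x) + E.r (op (E.mu x)) = x := by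
  induction x using E.induction_on with
  | h0 => simp
  | h1 a b => rw [s0_apply, d1_tmul, mu_apply, r_mul_r, E.comm, sub_add_cancel]
  | h2 x y hx hy =>
    simp only [map_add, op_add]
    linear_combination (norm := abel) hx + hy

theorem htpy1 (x : T ⊗[K] S) : E.d2 (E.s1 x) + E.s0 (E.d1 x) = x := by
  induction x using E.ind1 with
  | h0 => simp
  | h1 a c b =>
    rw [s1_apply, d2_tmul, d1_tmul, lr_mul_l, lr_mul_r, map_sub, s0_apply, s0_apply, r_mul_r,
      E.comm]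
    abel
  | h2 x y hx hy =>
    simp only [map_add]
    linear_combination (norm := abel) hx + hy

/-- The underlying module of the truncated bar resolution. -/
abbrev BarY : Type _ := T × (T ⊗[K] S) × (T ⊗[K] (S ⊗[K] S)) × LinearMap.ker E.d2

noncomputable def barE (n : ℤ) : E.BarY →ₗ[T] E.BarY where
  toFun y := (if n = 0 then y.1 else 0, if n = 1 then y.2.1 else 0,
    if n = 2 then y.2.2.1 else 0, if n = 3 then y.2.2.2 else 0)
  map_add' x y := by ext <;> simp only [Prod.fst_add, Prod.snd_add] <;> split_ifs <;> simp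
  map_smul' t y := by
    ext <;> simp only [Prod.smul_fst, Prod.smul_snd, RingHom.id_apply] <;> split_ifs <;> simp

theorem barE_apply (n : ℤ) (y : E.BarY) : E.barE n y =
    (if n = 0 then y.1 else 0, if n = 1 then y.2.1 else 0,
      if n = 2 then y.2.2.1 else 0, if n = 3 then y.2.2.2 else 0) := rfl

noncomputable def barD : E.BarY →ₗ[T] E.BarY where
  toFun y := (E.d1 y.2.1, E.d2 y.2.2.1, y.2.2.2, 0)
  map_add' x y := by ext <;> simp
  map_smul' t y := by ext <;> simp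

theorem barD_apply (y : E.BarY) :
    E.barD y = (E.d1 y.2.1, E.d2 y.2.2.1, (y.2.2.2 : T ⊗[K] (S ⊗[K] S)), 0) := rfl

/-- The truncated bar resolution. -/
noncomputable def bar : GCx T E.BarY where
  e := E.barE
  d := E.barD
  ee n x := by simp only [barE_apply]; split_ifs <;> rfl
  eo m n hmn x := by
    simp only [barE_apply]
    refine Prod.ext ?_ (Prod.ext ?_ (Prod.ext ?_ ?_)) <;> simp only [Prod.fst_zero, Prod.snd_zero] <;>
      split_ifs <;> first | rfl | omega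
  de n x := by
    simp only [barE_apply, barD_apply]
    refine Prod.ext ?_ (Prod.ext ?_ (Prod.ext ?_ ?_)) <;> simp only [] <;>
      split_ifs <;> first | rfl | omega
  dd x := by
    simp only [barD_apply, d1_d2]
    refine Prod.ext rfl (Prod.ext x.2.2.2.2 rfl)

theorem bar_lo (n : ℤ) (hn : n < 0) : E.bar.e n = 0 := by
  refine LinearMap.ext fun y => ?_
  change E.barE n y = 0
  rw [barE_apply, if_neg (by omega), if_neg (by omega), if_neg (by omega), if_neg (by omega)]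
  rfl

theorem bar_fp [Module.Finite K S] (n : ℤ) (hn : n ≤ 2) :
    FP (S := T) (X := E.BarY) (Y := E.BarY) (E.bar.e n) := by
  rcases lt_or_ge n 0 with h | h
  · rw [E.bar_lo n h]; exact FP.zero
  interval_cases n
  · exact ((FP.id_self.comp_left (LinearMap.inl T _ _)).comp_right (LinearMap.fst T _ _)).congr
      fun _ => rfl
  · exact ((barFree_fp.comp_left (LinearMap.inr T _ _ ∘ₗ LinearMap.inl T _ _)).comp_right
      (LinearMap.fst T _ _ ∘ₗ LinearMap.snd T _ _)).congr fun _ => rfl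
  · exact ((barFree_fp.comp_left
      (LinearMap.inr T _ _ ∘ₗ LinearMap.inr T _ _ ∘ₗ LinearMap.inl T _ _)).comp_right
      (LinearMap.fst T _ _ ∘ₗ LinearMap.snd T _ _ ∘ₗ LinearMap.snd T _ _)).congr fun _ => rfl

noncomputable def barι : E.Reg →ₗ[K] E.BarY :=
  LinearMap.inl K _ _ ∘ₗ E.rl ∘ₗ E.toReg.symm.toLinearMap

noncomputable def barπ : E.BarY →ₗ[T] E.Reg := E.muT ∘ₗ LinearMap.fst T _ _

theorem barπ_e (y : E.BarY) : E.barπ (E.bar.e 0 y) = E.barπ y := rfl

theorem bar_kp : KP (K := K) (X := E.BarY) (H := E.Reg) (E.bar.d.restrictScalars K) E.barι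
    (E.barπ.restrictScalars K) where
  dd := E.bar.dd
  dι h := by
    change E.barD _ = 0
    simp [barD_apply, barι]
  πd x := by
    change E.toReg (E.mu (E.d1 x.2.1)) = 0
    rw [mu_d1, map_zero]
  πι h := by
    change E.toReg (E.mu (E.r (op (E.toReg.symm h)))) = h
    rw [mu_r', LinearEquiv.apply_symm_apply]
  ex x hd hπ := by
    have h0 : E.mu x.1 = 0 := E.toReg.injective (hπ.trans (map_zero _).symm)
    have h1 : E.d1 x.2.1 = 0 := congrArg Prod.fst hd
    have h2 : E.d2 x.2.2.1 = 0 := congrArg (fun y => y.2.1) hd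
    have h3 : x.2.2.2 = 0 := Subtype.ext (congrArg (fun y => y.2.2.1) hd)
    refine ⟨(0, E.s0 x.1, E.s1 x.2.1, ⟨x.2.2.1, h2⟩), ?_⟩
    refine Prod.ext ?_ (Prod.ext ?_ (Prod.ext rfl h3.symm))
    · change E.d1 (E.s0 x.1) = x.1
      simpa [h0] using E.htpy0 x.1
    · change E.d2 (E.s1 x.2.1) = x.2.1
      simpa [h1] using E.htpy1 x.2.1

/-- The cochain attached to a bilinear map. -/
noncomputable def coc2 (F : S →ₗ[K] S →ₗ[K] T) : T ⊗[K] (S ⊗[K] S) →ₗ[T] T :=
  barExt T (TensorProduct.lift F)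

theorem coc2_tmul (F : S →ₗ[K] S →ₗ[K] T) (t : T) (a b : S) :
    coc2 F (t ⊗ₜ[K] (a ⊗ₜ[K] b)) = t * F a b := by simp [coc2]

theorem coc2_eq (F : S →ₗ[K] S →ₗ[K] T)
    (hF : ∀ a b c, E.l a * F b c - F (a * b) c + F a (b * c) - E.r (op c) * F a b = 0)
    (x : T ⊗[K] (S ⊗[K] S)) : coc2 F (E.s1 (E.d2 x)) = coc2 F x := by
  induction x using E.ind2 with
  | h0 => simp
  | h1 a d b c =>
    simp only [d2_tmul, map_add, map_sub, lr_mul_l, lr_mul_r, s1_apply, coc2_tmul]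
    have h := congrArg (E.r (op d) * ·) (hF a b c)
    simp only [mul_sub, mul_add, mul_zero, ← mul_assoc, r_mul_r, ← E.comm] at h
    linear_combination (norm := abel) -h
  | h2 x y hx hy => simp only [map_add, hx, hy]

noncomputable def barF (F : S →ₗ[K] S →ₗ[K] T) : E.BarY →ₗ[T] T :=
  coc2 F ∘ₗ LinearMap.fst T _ _ ∘ₗ LinearMap.snd T _ _ ∘ₗ LinearMap.snd T _ _

theorem barF_e (F : S →ₗ[K] S →ₗ[K] T) (y : E.BarY) : E.barF F (E.bar.e 2 y) = E.barF F y := rfl

theorem barF_d (F : S →ₗ[K] S →ₗ[K] T)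
    (hF : ∀ a b c, E.l a * F b c - F (a * b) c + F a (b * c) - E.r (op c) * F a b = 0)
    (y : E.BarY) : E.barF F (E.bar.d y) = 0 := by
  change coc2 F (y.2.2.2 : T ⊗[K] (S ⊗[K] S)) = 0
  rw [← E.coc2_eq F hF, show E.d2 y.2.2.2 = 0 from y.2.2.2.2, map_zero, map_zero]

theorem mu_barF (F : S →ₗ[K] S →ₗ[K] T) (hF : ∀ a b, E.mu (F a b) = 0) (y : E.BarY) :
    E.mu (E.barF F y) = 0 := by
  change E.mu (coc2 F y.2.2.1) = 0
  induction y.2.2.1 using E.ind2 with
  | h0 => simp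
  | h1 a d b c => rw [coc2_tmul]; exact E.mu_mul_eq_zero _ (hF _ _)
  | h2 x y hx hy => simp only [map_add, hx, hy, add_zero]

/-- The cycle in degree three. -/
noncomputable def om3 (a₀ a₁ a₂ : S) (h₁ : a₁ * a₀ = 0) (h₂ : a₂ * a₁ = 0) :
    LinearMap.ker E.d2 :=
  ⟨E.l a₂ ⊗ₜ[K] (a₁ ⊗ₜ[K] a₀) - E.r (op a₀) ⊗ₜ[K] (a₂ ⊗ₜ[K] a₁), by
    simp only [LinearMap.mem_ker, map_sub, d2_tmul, ← map_mul, h₁, h₂, ← op_mul, E.comm]
    simp⟩

/-- The comparison map. -/
noncomputable def barα (a₀ a₁ a₂ : S) (h₁ : a₁ * a₀ = 0) (h₂ : a₂ * a₁ = 0) :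
    (ℤ → S) →ₗ[K] E.BarY where
  toFun x := (E.l (x 0), E.l (x 1) ⊗ₜ[K] a₀, E.l (x 2) ⊗ₜ[K] (a₁ ⊗ₜ[K] a₀),
    E.l (x 3) • E.om3 a₀ a₁ a₂ h₁ h₂)
  map_add' x y := by simp [TensorProduct.add_tmul, add_smul]
  map_smul' k x := by simp [TensorProduct.smul_tmul']

theorem barα_apply (a₀ a₁ a₂ : S) (h₁ : a₁ * a₀ = 0) (h₂ : a₂ * a₁ = 0) (x : ℤ → S) :
    E.barα a₀ a₁ a₂ h₁ h₂ x = (E.l (x 0), E.l (x 1) ⊗ₜ[K] a₀, E.l (x 2) ⊗ₜ[K] (a₁ ⊗ₜ[K] a₀),
      E.l (x 3) • E.om3 a₀ a₁ a₂ h₁ h₂) := rfl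

theorem barα_smul (a₀ a₁ a₂ : S) (h₁ : a₁ * a₀ = 0) (h₂ : a₂ * a₁ = 0) (s : S) (x y : ℤ → S)
    (h : ∀ n, y n = s * x n) :
    E.barα a₀ a₁ a₂ h₁ h₂ y = E.l s • E.barα a₀ a₁ a₂ h₁ h₂ x := by
  simp [barα_apply, h, TensorProduct.smul_tmul', mul_smul]

theorem barα_e (a₀ a₁ a₂ : S) (h₁ : a₁ * a₀ = 0) (h₂ : a₂ * a₁ = 0) (n : ℤ) (x y : ℤ → S)
    (h : ∀ m, y m = if m = n then x n else 0) :
    E.barα a₀ a₁ a₂ h₁ h₂ y = E.bar.e n (E.barα a₀ a₁ a₂ h₁ h₂ x) := by
  change _ = E.barE n _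
  simp only [barα_apply, barE_apply, h, eq_comm (b := n)]
  refine Prod.ext ?_ (Prod.ext ?_ (Prod.ext ?_ ?_)) <;> simp only [] <;> split_ifs with hn <;>
    simp [hn]

theorem barα_d (χ : S →ₐ[K] K) (a₀ a₁ a₂ a₃ : S) (h₁ : a₁ * a₀ = 0) (h₂ : a₂ * a₁ = 0)
    (h₃ : a₃ * a₂ = 0) (hχ : χ a₀ = 0) (x y : ℤ → S) (e₀ : y 0 = x 1 * a₀) (e₁ : y 1 = x 2 * a₁)
    (e₂ : y 2 = x 3 * a₂) (e₃ : y 3 = x 4 * a₃) :
    E.bar.d (E.barα a₀ a₁ a₂ h₁ h₂ x) - E.barα a₀ a₁ a₂ h₁ h₂ y ∈ MS K E.BarY (E.rker χ) := by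
  have key : E.bar.d (E.barα a₀ a₁ a₂ h₁ h₂ x) - E.barα a₀ a₁ a₂ h₁ h₂ y = E.r (op a₀) •
      ((-E.l (x 1), E.l (x 2) ⊗ₜ[K] a₁, -(E.l (x 3) ⊗ₜ[K] (a₂ ⊗ₜ[K] a₁)),
        E.l (x 4) • E.om3 a₁ a₂ a₃ h₂ h₃) : E.BarY) := by
    change E.barD _ - _ = _
    simp only [barα_apply, barD_apply, e₀, e₁, e₂, e₃]
    refine Prod.ext ?_ (Prod.ext ?_ (Prod.ext ?_ (Subtype.ext ?_)))
    · simp [d1_tmul, E.comm]
    · simp [d2_tmul, E.comm, h₁, TensorProduct.smul_tmul']
    · simp [om3, smul_sub, E.comm, TensorProduct.smul_tmul']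
    · change 0 - E.l (x 4 * a₃) • (E.l a₂ ⊗ₜ[K] (a₁ ⊗ₜ[K] a₀) - E.r (op a₀) ⊗ₜ[K] (a₂ ⊗ₜ[K] a₁)) =
        E.r (op a₀) • E.l (x 4) • (E.l a₃ ⊗ₜ[K] (a₂ ⊗ₜ[K] a₁) - E.r (op a₁) ⊗ₜ[K] (a₃ ⊗ₜ[K] a₂))
      simp only [smul_sub, TensorProduct.smul_tmul', smul_eq_mul]
      rw [← map_mul, mul_assoc, h₃, ← map_mul, ← E.comm, E.r_mul, h₁]
      simp
  rw [key]
  exact MS.mem (𝔪 := E.rker χ) ⟨a₀, hχ, rfl⟩ _

theorem barF_α (F : S →ₗ[K] S →ₗ[K] T) (a₀ a₁ a₂ : S) (h₁ : a₁ * a₀ = 0) (h₂ : a₂ * a₁ = 0)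
    (x : ℤ → S) : E.barF F (E.barα a₀ a₁ a₂ h₁ h₂ x) = E.l (x 2) * F a₁ a₀ :=
  coc2_tmul F _ _ _

end Env

end Crest.Agent.R186
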