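import Crest.Agent.R186.Ext
import Crest.Prelude.Def_GorProjVanishing

/-! Row 186: from `Core` data to `GorProjVanishingData`, and its persistence under extension of
the base field. -/

set_option autoImplicit false
set_option linter.unusedSectionVars false

namespace Crest.Agent.R186

universe u

open CategoryTheory Crest.AlgebraR
open scoped TensorProduct

/-! ### From `Core` to `GorProjVanishingData` -/

theorem ext_congr {R A A' B B' : Type u} [Ring R] [AddCommGroup A] [Module R A] [AddCommGroup A']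
    [Module R A'] [AddCommGroup B] [Module R B] [AddCommGroup B'] [Module R B']
    (e₁ : A ≃ₗ[R] A') (e₂ : B ≃ₗ[R] B') (n : ℕ)
    (h : Subsingleton (Abelian.Ext (ModuleCat.of R A) (ModuleCat.of R B) n)) :
    Subsingleton (Abelian.Ext (ModuleCat.of R A') (ModuleCat.of R B') n) := by
  refine subsingleton_of_forall_eq 0 fun x => ?_
  let a : ModuleCat.of R A ⟶ ModuleCat.of R A' := ModuleCat.ofHom e₁.toLinearMap
  let a' : ModuleCat.of R A' ⟶ ModuleCat.of R A := ModuleCat.ofHom e₁.symm.toLinearMap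
  let b : ModuleCat.of R B ⟶ ModuleCat.of R B' := ModuleCat.ofHom e₂.toLinearMap
  let b' : ModuleCat.of R B' ⟶ ModuleCat.of R B := ModuleCat.ofHom e₂.symm.toLinearMap
  have ha : a' ≫ a = 𝟙 _ := by ext z; simp [a, a']
  have hb : b' ≫ b = 𝟙 _ := by ext z; simp [b, b']
  have h0 : ((Abelian.Ext.mk₀ a).comp x (zero_add n)).comp (Abelian.Ext.mk₀ b') (add_zero n) = 0 :=
    Subsingleton.elim _ _
  have h1 : (Abelian.Ext.mk₀ a).comp x (zero_add n) = 0 := by
    have := congrArg (fun y => Abelian.Ext.comp y (Abelian.Ext.mk₀ b) (add_zero n)) h0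
    simpa [hb] using this
  have := congrArg (fun y => Abelian.Ext.comp (Abelian.Ext.mk₀ a') y (zero_add n)) h1
  simpa [ha] using this

theorem gorProj_congr {F : Type*} {R Z Z' : Type u} [Field F] [Ring R] [Algebra F R]
    [AddCommGroup Z] [Module R Z] [AddCommGroup Z'] [Module R Z'] (e : Z ≃ₗ[R] Z')
    (h : GorProjVanishingData F R Z) : GorProjVanishingData F R Z' := by
  obtain ⟨h1, h2, h3, h4, h5, ⟨P, i1, i2, d, g1, g2, g3, ⟨g4⟩⟩, h7, h8⟩ := h
  exact ⟨h1, h2, h3, Module.Finite.equiv e, fun hp => h5 (Module.Projective.of_equiv e.symm),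
    ⟨P, i1, i2, d, g1, g2, g3, ⟨e.symm.trans g4⟩⟩, fun i hi => ext_congr e e i (h7 i hi),
    fun i hi => ext_congr e (LinearEquiv.refl R R) i (h8 i hi)⟩

theorem jacobson_eq_ker {K Λ : Type*} [Field K] [Ring Λ] [Algebra K Λ] (φ : Λ →ₐ[K] (Fin 8 → K))
    (hs : Function.Surjective φ) (hk : ∀ x, φ x = 0 → x ∈ Ring.jacobson Λ) :
    Ring.jacobson Λ = RingHom.ker φ := by
  refine le_antisymm (fun x hx => ?_) hk
  have : RingHomSurjective (φ : Λ →+* (Fin 8 → K)) := ⟨hs⟩
  have h := Ring.le_comap_jacobson (φ : Λ →+* (Fin 8 → K)) hx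
  rw [IsSemisimpleRing.jacobson_eq_bot] at h
  exact h

theorem Core.gorProj {K Λ X : Type u} [Field K] [Ring Λ] [Algebra K Λ] [AddCommGroup X]
    [Module K X] [Module Λ X] [IsScalarTower K Λ X] {P : Cx Λ X} (h : Core K Λ X P) :
    Crest.AlgebraR.GorProjVanishingData K Λ (P.cok 0) := by
  obtain ⟨φ, hs, hk, a, b, c, d, ha, hb, hc, hd, habcd⟩ := h.rad
  refine ⟨h.fin, ⟨(Ideal.quotientEquivAlgOfEq K (jacobson_eq_ker φ hs hk)).trans
    (Ideal.quotientKerAlgEquivOfSurjective hs)⟩, fun h4 => habcd ?_, cok_finite h.tot.fp 0,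
    h.tot.not_projective h.nz, h.tot.gp, fun i hi => ?_, fun i hi => ?_⟩
  · have : a * b * c * d ∈ Ring.jacobson Λ ^ 4 := by
      rw [Submodule.pow_succ, Submodule.pow_succ, Submodule.pow_succ, Submodule.pow_one]
      exact Ideal.mul_mem_mul (Ideal.mul_mem_mul (Ideal.mul_mem_mul (hk a ha) (hk b hb)) (hk c hc))
        (hk d hd)
    rw [h4] at this
    exact this
  · obtain ⟨j, rfl⟩ : ∃ j, i = j + 1 := ⟨i - 1, by omega⟩
    exact ext_subsingleton h.tot.fp h.tot.ex 0 j (h.pos _ (by omega))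
  · obtain ⟨j, rfl⟩ : ∃ j, i = j + 1 := ⟨i - 1, by omega⟩
    exact ext_subsingleton h.tot.fp h.tot.ex 0 j (h.tot.hz _)

/-! ### Base change of modules -/

/-- `E ⊗[k] Y`, as a type synonym carrying the action of `E ⊗[k] Λ`. -/
def BC (k E Y : Type*) [Field k] [Field E] [Algebra k E] [AddCommGroup Y] [Module k Y] : Type _ :=
  E ⊗[k] Y

section BC

variable {k E Λ : Type*} [Field k] [Field E] [Algebra k E] [Ring Λ] [Algebra k Λ]
  {X Y Z : Type*} [AddCommGroup X] [Module k X] [Module Λ X] [IsScalarTower k Λ X]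
  [AddCommGroup Y] [Module k Y] [Module Λ Y] [IsScalarTower k Λ Y]
  [AddCommGroup Z] [Module k Z] [Module Λ Z] [IsScalarTower k Λ Z]

noncomputable instance : AddCommGroup (BC k E Y) := inferInstanceAs (AddCommGroup (E ⊗[k] Y))
noncomputable instance : Module E (BC k E Y) := inferInstanceAs (Module E (E ⊗[k] Y))

variable (k E Λ Y) in
/-- The action of `E ⊗ Λ` on `E ⊗ Y`. -/
noncomputable def bcHom : E ⊗[k] Λ →ₐ[E] Module.End E (E ⊗[k] Y) :=
  AlgHom.liftEquiv k E Λ _ ((Module.End.baseChangeHom k E Y).comp (Algebra.lsmul k k Y))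

theorem bcHom_tmul (a b : E) (r : Λ) (y : Y) :
    bcHom k E Λ Y (a ⊗ₜ[k] r) (b ⊗ₜ[k] y) = (a * b) ⊗ₜ[k] (r • y) := by
  change a • (b ⊗ₜ[k] (r • y)) = _
  rw [TensorProduct.smul_tmul', smul_eq_mul]

noncomputable instance : Module (E ⊗[k] Λ) (BC k E Y) :=
  Module.compHom (E ⊗[k] Y) (bcHom k E Λ Y : E ⊗[k] Λ →+* Module.End E (E ⊗[k] Y))

variable (k) in
/-- Pure tensors in `BC k E Y`. -/
noncomputable def BC.t (a : E) (y : Y) : BC k E Y := a ⊗ₜ[k] y

theorem BC.smul_t (a b : E) (r : Λ) (y : Y) :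
    (a ⊗ₜ[k] r) • BC.t k b y = BC.t k (a * b) (r • y) := bcHom_tmul a b r y

theorem BC.esmul_t (a b : E) (y : Y) : a • BC.t k b y = BC.t k (a * b) y :=
  TensorProduct.smul_tmul' a b y

theorem BC.t_add (a : E) (x y : Y) : BC.t k a (x + y) = BC.t k a x + BC.t k a y :=
  TensorProduct.tmul_add a x y

theorem BC.t_zero (a : E) : BC.t k a (0 : Y) = 0 := TensorProduct.tmul_zero Y a

theorem BC.t_sum {ι : Type*} (s : Finset ι) (a : E) (y : ι → Y) :
    BC.t k a (∑ i ∈ s, y i) = ∑ i ∈ s, BC.t k a (y i) := TensorProduct.tmul_sum a s y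

theorem BC.sum_t {ι : Type*} (s : Finset ι) (a : ι → E) (y : Y) :
    BC.t k (∑ i ∈ s, a i) y = ∑ i ∈ s, BC.t k (a i) y := TensorProduct.sum_tmul s a y

theorem BC.t_smul (c : k) (a : E) (y : Y) : BC.t k a (c • y) = BC.t k (c • a) y :=
  (TensorProduct.smul_tmul c a y).symm

@[elab_as_elim]
theorem BC.ind {p : BC k E Y → Prop} (z : BC k E Y) (h0 : p 0) (ht : ∀ a y, p (BC.t k a y))
    (ha : ∀ x y, p x → p y → p (x + y)) : p z :=
  TensorProduct.induction_on (motive := p) z h0 ht ha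

instance : IsScalarTower E (E ⊗[k] Λ) (BC k E Y) :=
  ⟨fun a s z => by
    change bcHom k E Λ Y (a • s) z = a • bcHom k E Λ Y s z
    rw [map_smul]; rfl⟩

instance : SMulCommClass (E ⊗[k] Λ) E (BC k E Y) :=
  ⟨fun s a z => map_smul (bcHom k E Λ Y s) a z⟩

variable (k E) in
/-- Base change of a `Λ`-linear map, additive version. -/
noncomputable def bc₀ (f : X →ₗ[Λ] Y) : BC k E X →+ BC k E Y :=
  (LinearMap.lTensor E (f.restrictScalars k)).toAddMonoidHom

theorem bc₀_t (f : X →ₗ[Λ] Y) (a : E) (x : X) : bc₀ k E f (BC.t k a x) = BC.t k a (f x) := rfl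

variable (k E) in
/-- Base change of a `Λ`-linear map. -/
noncomputable def bc (f : X →ₗ[Λ] Y) : BC k E X →ₗ[E ⊗[k] Λ] BC k E Y where
  toFun := bc₀ k E f
  map_add' := map_add _
  map_smul' s z := by
    induction s with
    | zero => simp
    | add s t hs ht => simp only [add_smul, RingHom.id_apply] at *; rw [map_add, hs, ht]
    | tmul a r =>
      induction z using BC.ind with
      | h0 => simp
      | ha x y hx hy => simp only [smul_add, RingHom.id_apply, map_add] at *; rw [hx, hy]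
      | ht b x => rw [BC.smul_t, RingHom.id_apply, bc₀_t, bc₀_t, BC.smul_t, map_smul]

@[simp] theorem bc_t (f : X →ₗ[Λ] Y) (a : E) (x : X) : bc k E f (BC.t k a x) = BC.t k a (f x) :=
  rfl

theorem bc_congr {W : Type*} [AddCommGroup W] {f g : BC k E X →+ W}
    (h : ∀ a x, f (BC.t k a x) = g (BC.t k a x)) (z : BC k E X) : f z = g z := by
  induction z using BC.ind with
  | h0 => simp
  | ha x y hx hy => simp [hx, hy]
  | ht a x => exact h a x

theorem bc_bc {f : X →ₗ[Λ] Y} {g : Y →ₗ[Λ] Z} {h : X →ₗ[Λ] Z} (hh : ∀ x, g (f x) = h x)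
    (z : BC k E X) : bc k E g (bc k E f z) = bc k E h z := by
  induction z using BC.ind with
  | h0 => simp
  | ha x y hx hy => simp [hx, hy]
  | ht a x => simp [hh]

theorem bc_zero (z : BC k E X) : bc k E (0 : X →ₗ[Λ] Y) z = 0 := by
  induction z using BC.ind with
  | h0 => simp
  | ha x y hx hy => simp [hx, hy]
  | ht a x => simp [BC.t_zero]

/-- Contraction with a `k`-linear form on `E`. -/
noncomputable def ctr (l : E →ₗ[k] k) : BC k E Y →+ Y :=
  (TensorProduct.lift ((LinearMap.lsmul k Y).comp l)).toAddMonoidHom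

@[simp] theorem ctr_t (l : E →ₗ[k] k) (a : E) (y : Y) : ctr l (BC.t k a y) = l a • y := rfl

theorem ctr_smul (l : E →ₗ[k] k) (r : Λ) (z : BC k E Y) :
    ctr l (((1 : E) ⊗ₜ[k] r) • z) = r • ctr l z := by
  induction z using BC.ind with
  | h0 => simp
  | ha x y hx hy => simp [hx, hy]
  | ht a x => rw [BC.smul_t, ctr_t, ctr_t, one_mul, smul_comm]

theorem ctr_bc (l : E →ₗ[k] k) (f : X →ₗ[Λ] Y) (z : BC k E X) :
    ctr l (bc k E f z) = f (ctr l z) := by
  induction z using BC.ind with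
  | h0 => simp
  | ha x y hx hy => simp [hx, hy]
  | ht a x => simp

/-- Expansion along a basis of `E`. -/
theorem BC.expand {ι : Type*} (b : Module.Basis ι k E) (z : BC k E Y) :
    ∃ s : Finset ι, ∀ t : Finset ι, s ⊆ t → ∑ i ∈ t, BC.t k (b i) (ctr (b.coord i) z) = z := by
  classical
  induction z using BC.ind with
  | h0 => exact ⟨∅, fun t _ => by simp [BC.t_zero]⟩
  | ha x y hx hy =>
    obtain ⟨s, hs⟩ := hx
    obtain ⟨s', hs'⟩ := hy
    refine ⟨s ∪ s', fun t ht => ?_⟩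
    simp only [map_add, BC.t_add, Finset.sum_add_distrib]
    rw [hs t (Finset.subset_union_left.trans ht), hs' t (Finset.subset_union_right.trans ht)]
  | ht a x =>
    refine ⟨(b.repr a).support, fun t ht => ?_⟩
    simp only [ctr_t, BC.t_smul, ← BC.sum_t]
    congr 1
    conv_rhs => rw [← b.linearCombination_repr a, Finsupp.linearCombination_apply,
      Finsupp.sum_of_support_subset _ ht _ (by simp)]
    simp

theorem BC.t_eq_smul (a : E) (y : Y) :
    BC.t k a y = (a ⊗ₜ[k] (1 : Λ)) • BC.t k 1 y := by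
  rw [BC.smul_t, mul_one, one_smul]

/-- Linear maps out of a base change are determined by their values on `1 ⊗ x`. -/
theorem bc_ext {W : Type*} [AddCommGroup W] [Module (E ⊗[k] Λ) W]
    {f g : BC k E X →ₗ[E ⊗[k] Λ] W} (h : ∀ x, f (BC.t k 1 x) = g (BC.t k 1 x)) (z : BC k E X) :
    f z = g z := by
  induction z using BC.ind with
  | h0 => simp
  | ha x y hx hy => simp [hx, hy]
  | ht a x => rw [BC.t_eq_smul (Λ := Λ), map_smul, map_smul, h]

/-- A coordinate of a linear map between base changes. -/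
noncomputable def co (l : E →ₗ[k] k) (g : BC k E X →ₗ[E ⊗[k] Λ] BC k E Y) : X →ₗ[Λ] Y where
  toFun x := ctr l (g (BC.t k 1 x))
  map_add' x y := by rw [BC.t_add, map_add, map_add]
  map_smul' r x := by
    rw [RingHom.id_apply, ← ctr_smul, ← map_smul, BC.smul_t, mul_one]

theorem co_apply (l : E →ₗ[k] k) (g : BC k E X →ₗ[E ⊗[k] Λ] BC k E Y) (x : X) :
    co l g x = ctr l (g (BC.t k 1 x)) := rfl

variable (k E Λ) in
/-- The base change of the regular module is the regular module. -/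
noncomputable def bcRing : BC k E Λ ≃ₗ[E ⊗[k] Λ] E ⊗[k] Λ where
  toAddEquiv := AddEquiv.refl (E ⊗[k] Λ)
  map_smul' s z := by
    change bcHom k E Λ Λ s z = s * (show E ⊗[k] Λ from z)
    induction s with
    | zero => simp
    | add s t hs ht => rw [map_add, add_mul, LinearMap.add_apply, hs, ht]
    | tmul a r =>
      induction (show E ⊗[k] Λ from z) with
      | zero => simp
      | add x y hx hy => rw [map_add, mul_add, hx, hy]
      | tmul b x => rw [bcHom_tmul, Algebra.TensorProduct.tmul_mul_tmul, smul_eq_mul]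

theorem bcRing_t (a : E) (r : Λ) : bcRing k E Λ (BC.t k a r) = a ⊗ₜ[k] r := rfl

theorem FP.bc {f : X →ₗ[Λ] Y} (h : FP f) : FP (bc k E f) := by
  induction h with
  | zero => exact FP.zero.congr fun z => (bc_zero z).symm
  | one φ y =>
    refine (FP.one ((bcRing k E Λ).toLinearMap ∘ₗ R186.bc k E φ) (BC.t k 1 y)).congr
      (bc_ext fun x => ?_)
    simp [bcRing_t, BC.smul_t]
  | add _ _ ha hb => exact (ha.add hb).congr (bc_ext fun x => by simp [BC.t_add])

variable (k E) in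
/-- Base change of a complex. -/
noncomputable def Cx.bc (P : Cx Λ X) : Cx (E ⊗[k] Λ) (BC k E X) where
  e n := R186.bc k E (P.e n)
  d n := R186.bc k E (P.d n)
  ee n := bc_bc (P.ee n)
  ed n := bc_bc (P.ed n)
  de n := bc_bc (P.de n)
  dd n z := (bc_bc (h := 0) (P.dd n) z).trans (bc_zero z)

variable {P : Cx Λ X}

theorem Cx.bc_e (n : ℤ) : (P.bc k E).e n = R186.bc k E (P.e n) := rfl
theorem Cx.bc_d (n : ℤ) : (P.bc k E).d n = R186.bc k E (P.d n) := rfl

theorem Cx.IsFP.bc (h : P.IsFP) : (P.bc k E).IsFP := fun n => (h n).bc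

/-- If every contraction of `z` is in the range of `f` then `z` is in the range of `bc f`. -/
theorem bc_range (f : X →ₗ[Λ] Y) (z : BC k E Y) (h : ∀ l : E →ₗ[k] k, ∃ w, f w = ctr l z) :
    ∃ w, bc k E f w = z := by
  let b := Module.Basis.ofVectorSpace k E
  obtain ⟨s, hs⟩ := BC.expand b z
  choose w hw using h
  refine ⟨∑ i ∈ s, BC.t k (b i) (w (b.coord i)), ?_⟩
  simp only [map_sum, bc_t, hw]
  exact hs s subset_rfl

theorem Cx.ExactAt.bc {n : ℤ} (h : P.ExactAt n) : (P.bc k E).ExactAt n := by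
  intro z he hd
  refine bc_range _ z fun l => h _ ?_ ?_
  · rw [← ctr_bc, ← Cx.bc_e, he]
  · rw [← ctr_bc, ← Cx.bc_d, hd, map_zero]

theorem Cx.Coc.co {n : ℤ} {f : BC k E X →ₗ[E ⊗[k] Λ] BC k E Y} (hf : (P.bc k E).Coc n f)
    (l : E →ₗ[k] k) : P.Coc n (co l f) :=
  ⟨fun x => by rw [co_apply, co_apply, ← bc_t, ← Cx.bc_e, hf.he],
   fun x => by rw [co_apply, ← bc_t, ← Cx.bc_d, hf.hd, map_zero]⟩

theorem Cx.HZ.bc (hP : P.IsFP) {n : ℤ} (h : P.HZ Y n) : (P.bc k E).HZ (BC k E Y) n := by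
  classical
  intro f hf
  let b := Module.Basis.ofVectorSpace k E
  choose g hg using fun i => h _ (hf.co (b.coord i))
  obtain ⟨m, φ, y, hy⟩ := (hP n).exists_fin
  choose s hs using fun j => BC.expand b (f (BC.t k 1 (y j)))
  refine ⟨∑ i ∈ Finset.univ.biUnion s, b i • R186.bc k E (g i), ?_⟩
  refine bc_ext (f := (∑ i ∈ Finset.univ.biUnion s, b i • R186.bc k E (g i)) ∘ₗ
    (P.bc k E).d (n - 1)) fun x => ?_
  have h1 : ∀ x, f (BC.t k 1 x) = ∑ j, ((1 : E) ⊗ₜ[k] φ j x) • f (BC.t k 1 (y j)) := fun x => by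
    rw [← hf.he, Cx.bc_e, bc_t, hy, BC.t_sum, map_sum]
    refine Finset.sum_congr rfl fun j _ => ?_
    rw [← map_smul, BC.smul_t, mul_one]
  simp only [LinearMap.comp_apply, Cx.bc_d, bc_t, LinearMap.sum_apply, LinearMap.smul_apply, hg,
    BC.esmul_t, mul_one, co_apply]
  rw [h1 x]
  simp only [map_sum, ctr_smul, BC.t_sum]
  rw [Finset.sum_comm]
  refine Finset.sum_congr rfl fun j _ => ?_
  conv_rhs => rw [← hs j (Finset.univ.biUnion s) (Finset.subset_biUnion_of_mem s (Finset.mem_univ j))]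
  rw [Finset.smul_sum]
  refine Finset.sum_congr rfl fun i _ => ?_
  rw [BC.smul_t, one_mul]

theorem Cx.HZ.of_bc {n : ℤ} (h : (P.bc k E).HZ (BC k E Y) n) : P.HZ Y n := by
  intro f hf
  obtain ⟨l, hl⟩ : ∃ l : E →ₗ[k] k, l 1 = 1 := by
    obtain ⟨l, hl⟩ := (Algebra.linearMap k E).exists_leftInverse_of_injective
      (LinearMap.ker_eq_bot.2 (algebraMap k E).injective)
    exact ⟨l, by simpa using LinearMap.congr_fun hl 1⟩
  obtain ⟨g, hg⟩ := h (R186.bc k E f)
    ⟨bc_bc hf.he, fun z => (bc_bc (h := 0) hf.hd z).trans (bc_zero z)⟩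
  refine ⟨co l g, fun x => ?_⟩
  rw [co_apply, ← bc_t, ← Cx.bc_d, hg, bc_t, ctr_t, hl, one_smul]

variable (k E P) in
/-- The cokernel commutes with base change. -/
theorem Cx.bc_cok (n : ℤ) :
    Nonempty ((P.bc k E).cok n ≃ₗ[E ⊗[k] Λ] BC k E (P.cok n)) := by
  have hs : Function.Surjective (R186.bc k E (P.pr n)) := fun z =>
    bc_range _ z fun l => P.pr_surj n _
  refine ⟨(Submodule.quotEquivOfEq _ _ ?_).trans (LinearMap.quotKerEquivOfSurjective _ hs)⟩
  ext z
  rw [Cx.mem_rel, LinearMap.mem_ker]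
  constructor
  · rintro ⟨w, hw⟩
    rw [← bc_bc (P.pr_e n) z, ← Cx.bc_e, ← hw, Cx.bc_d, bc_bc (h := 0) (P.pr_d n), bc_zero]
  · intro hz
    refine bc_range _ _ fun l => ?_
    rw [Cx.bc_e, ctr_bc, ← P.pr_eq_zero, ← ctr_bc, hz, map_zero]

theorem TotAc.bc (h : TotAc P) : TotAc (P.bc k E) :=
  ⟨h.fp.bc, fun n => (h.ex n).bc, fun n => ((h.hz n).bc h.fp).equiv (bcRing k E Λ).symm⟩

/-! ### The radical after base change -/

theorem tmul_mem_jacobson [Module.Finite k Λ] (a : E) {x : Λ} (hx : x ∈ Ring.jacobson Λ) :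
    a ⊗ₜ[k] x ∈ Ring.jacobson (E ⊗[k] Λ) := by
  have := IsArtinianRing.of_finite k Λ
  obtain ⟨m, hm⟩ : IsNilpotent (Ring.jacobson Λ) := IsSemiprimaryRing.isNilpotent
  let T : ℕ → AddSubmonoid (E ⊗[k] Λ) := fun n =>
    AddSubmonoid.closure {z | ∃ a : E, ∃ x ∈ Ring.jacobson Λ ^ n, z = a ⊗ₜ[k] x}
  have hT : ∀ n, ∀ w ∈ T n, ∀ z ∈ T 1, w * z ∈ T (n + 1) := by
    intro n w hw z hz
    induction hw using AddSubmonoid.closure_induction with
    | zero => simp
    | add _ _ _ _ h1 h2 => rw [add_mul]; exact add_mem h1 h2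
    | mem w hw =>
      induction hz using AddSubmonoid.closure_induction with
      | zero => simp
      | add _ _ _ _ h1 h2 => rw [mul_add]; exact add_mem h1 h2
      | mem z hz =>
        obtain ⟨a, x, hx, rfl⟩ := hw
        obtain ⟨b, y, hy, rfl⟩ := hz
        rw [Submodule.pow_one] at hy
        refine AddSubmonoid.subset_closure ⟨a * b, x * y, ?_, by simp⟩
        rw [Submodule.pow_succ]
        exact Ideal.mul_mem_mul hx hy
  have hpow : ∀ z ∈ T 1, ∀ n, z ^ n ∈ T n := by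
    intro z hz n
    induction n with
    | zero =>
      refine AddSubmonoid.subset_closure ⟨1, 1, ?_, rfl⟩
      rw [Submodule.pow_zero, Ideal.one_eq_top]; trivial
    | succ n ih => rw [pow_succ]; exact hT n _ ih z hz
  have hTm : ∀ w ∈ T m, w = 0 := by
    intro w hw
    induction hw using AddSubmonoid.closure_induction with
    | zero => rfl
    | add _ _ _ _ h1 h2 => rw [h1, h2, add_zero]
    | mem w hw =>
      obtain ⟨a, x, hx, rfl⟩ := hw
      rw [hm] at hx
      have : x = 0 := hx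
      simp [this]
  rw [← Ideal.jacobson_bot, Ideal.mem_jacobson_iff]
  intro y
  have hy : y * a ⊗ₜ[k] x ∈ T 1 := by
    induction y with
    | zero => simp
    | add _ _ h1 h2 => rw [add_mul]; exact add_mem h1 h2
    | tmul b r =>
      refine AddSubmonoid.subset_closure ⟨b * a, r * x, ?_, by simp⟩
      rw [Submodule.pow_one]
      exact Ideal.mul_mem_left _ r hx
  obtain ⟨v, hv⟩ := IsNilpotent.isUnit_add_one ⟨m, hTm _ (hpow _ hy m)⟩
  refine ⟨↑v⁻¹, ?_⟩
  rw [Ideal.mem_bot, mul_assoc, ← mul_add_one, ← hv, Units.inv_mul, sub_self]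

variable (E) in
/-- Base change of the map onto the semisimple quotient. -/
noncomputable def bcφ (φ : Λ →ₐ[k] (Fin 8 → k)) : E ⊗[k] Λ →ₐ[E] (Fin 8 → E) :=
  AlgHom.liftEquiv k E Λ _ (((Algebra.ofId k E).compLeft (Fin 8)).comp φ)

theorem bcφ_tmul (φ : Λ →ₐ[k] (Fin 8 → k)) (a : E) (r : Λ) (j : Fin 8) :
    bcφ E φ (a ⊗ₜ[k] r) j = φ r j • a := by
  change a * algebraMap k E (φ r j) = _
  rw [Algebra.smul_def, mul_comm]

theorem bcφ_surj {φ : Λ →ₐ[k] (Fin 8 → k)} (hs : Function.Surjective φ) :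
    Function.Surjective (bcφ E φ) := by
  intro v
  choose r hr using fun j : Fin 8 => hs (Pi.single j 1)
  refine ⟨∑ j, v j ⊗ₜ[k] r j, ?_⟩
  ext i
  simp [bcφ_tmul, hr, Pi.single_apply]

theorem bcφ_ctr (φ : Λ →ₐ[k] (Fin 8 → k)) (l : E →ₗ[k] k) (z : BC k E Λ) (j : Fin 8) :
    φ (ctr l z) j = l (bcφ E φ (bcRing k E Λ z) j) := by
  induction z using BC.ind with
  | h0 => simp
  | ha x y hx hy => simp [hx, hy]
  | ht a x => simp [bcRing_t, bcφ_tmul, mul_comm]

theorem bcφ_ker [Module.Finite k Λ] {φ : Λ →ₐ[k] (Fin 8 → k)}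
    (hk : ∀ x, φ x = 0 → x ∈ Ring.jacobson Λ) (z : E ⊗[k] Λ) (hz : bcφ E φ z = 0) :
    z ∈ Ring.jacobson (E ⊗[k] Λ) := by
  obtain ⟨z, rfl⟩ := (bcRing k E Λ).surjective z
  let b := Module.Basis.ofVectorSpace k E
  obtain ⟨s, hs⟩ := BC.expand b z
  rw [← hs s subset_rfl, map_sum]
  refine Submodule.sum_mem _ fun i _ => tmul_mem_jacobson _ (hk _ ?_)
  ext j
  rw [bcφ_ctr, hz]; simp

end BC

theorem Core.bc {k Λ X : Type} [Field k] [Ring Λ] [Algebra k Λ] [AddCommGroup X] [Module k X]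
    [Module Λ X] [IsScalarTower k Λ X] {P : Cx Λ X} (h : Core k Λ X P) (E : Type u) [Field E]
    [Algebra k E] : Core E (E ⊗[k] Λ) (BC k E X) (P.bc k E) := by
  have := h.fin
  obtain ⟨e⟩ := P.bc_cok k E 0
  refine ⟨inferInstance, h.tot.bc, fun i hi => ((h.pos i hi).bc h.tot.fp).equiv e,
    fun i hi => ((h.neg i hi).bc h.tot.fp).equiv e, fun hz => h.nz (hz.equiv e.symm).of_bc, ?_⟩
  obtain ⟨φ, hs, hk, a, b, c, d, ha, hb, hc, hd, habcd⟩ := h.rad
  have h0 : ∀ x, φ x = 0 → bcφ E φ (1 ⊗ₜ[k] x) = 0 := fun x hx => by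
    ext j; simp [bcφ_tmul, hx]
  refine ⟨bcφ E φ, bcφ_surj hs, bcφ_ker hk, 1 ⊗ₜ a, 1 ⊗ₜ b, 1 ⊗ₜ c, 1 ⊗ₜ d, h0 a ha, h0 b hb,
    h0 c hc, h0 d hd, fun h4 => habcd ?_⟩
  simp only [Algebra.TensorProduct.tmul_mul_tmul, mul_one] at h4
  refine Algebra.TensorProduct.includeRight_injective (A := E) (algebraMap k E).injective ?_
  simpa using h4

theorem s0281_of_core (k : Type) [Field k] (h : CoreExists k) :
    ∃ (Λ : Type) (_ : Ring Λ) (_ : Algebra k Λ) (Z : Type) (_ : AddCommGroup Z)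
      (_ : Module Λ Z) (_ : Module k Z) (_ : IsScalarTower k Λ Z),
      GorProjVanishingData k Λ Z ∧
      ∀ (E : Type u) [Field E] [Algebra k E],
        ∃ (_ : Module (E ⊗[k] Λ) (E ⊗[k] Z)),
          (∀ (a b : E) (r : Λ) (z : Z),
            (a ⊗ₜ[k] r) • (b ⊗ₜ[k] z) = (a * b) ⊗ₜ[k] (r • z)) ∧
          GorProjVanishingData E (E ⊗[k] Λ) (E ⊗[k] Z) := by
  obtain ⟨Λ, _, _, X, _, _, _, _, P, h⟩ := h
  refine ⟨Λ, inferInstance, inferInstance, P.cok 0, inferInstance, inferInstance, inferInstance,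
    inferInstance, h.gorProj, fun E _ _ => ?_⟩
  obtain ⟨e⟩ := P.bc_cok k E 0
  have hg := gorProj_congr e (h.bc E).gorProj
  exact ⟨(inferInstance : Module (E ⊗[k] Λ) (BC k E (P.cok 0))), fun a b r z => BC.smul_t a b r z,
    hg⟩

end Crest.Agent.R186
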