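import Mathlib

/-! Row 186 toolkit: finite-rank maps, complexes on a fixed ambient module, Hom-exactness. -/

set_option autoImplicit false
set_option linter.unusedSectionVars false

namespace Crest.Agent.R186

universe u

/-! ### Restriction of scalars as a type synonym -/

section Res

variable {K S T : Type*} [Field K] [Ring S] [Ring T] [Algebra K S] [Algebra K T]

/-- `N` regarded as an `S`-module through `φ : S →ₐ T`. -/
def Res (_φ : S →ₐ[K] T) (N : Type*) : Type _ := N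

variable (φ : S →ₐ[K] T) (N : Type*) [AddCommGroup N] [Module K N] [Module T N]
  [IsScalarTower K T N]

instance : AddCommGroup (Res φ N) := inferInstanceAs (AddCommGroup N)
instance : Module K (Res φ N) := inferInstanceAs (Module K N)
instance : Module S (Res φ N) := Module.compHom N (φ : S →+* T)

/-- The identity map `N → Res φ N`. -/
def Res.of : N ≃ₗ[K] Res φ N := LinearEquiv.refl K N

variable {N}

theorem Res.smul_of (s : S) (n : N) : s • Res.of φ N n = Res.of φ N (φ s • n) := rfl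

theorem Res.symm_smul (s : S) (n : Res φ N) :
    (Res.of φ N).symm (s • n) = φ s • (Res.of φ N).symm n := rfl

instance : IsScalarTower K S (Res φ N) :=
  ⟨fun k s n => by
    change (φ (k • s)) • (Res.of φ N).symm n = k • (φ s • (Res.of φ N).symm n)
    rw [map_smul, smul_assoc]⟩

instance [Module.Finite K N] : Module.Finite K (Res φ N) := inferInstanceAs (Module.Finite K N)

end Res

/-- Upgrade a `K`-linear map that commutes with the action of `S` to an `S`-linear map. -/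
def mkLin {K S X Y : Type*} [Field K] [Ring S] [AddCommGroup X] [AddCommGroup Y] [Module K X]
    [Module K Y] [Module S X] [Module S Y] (f : X →ₗ[K] Y)
    (h : ∀ (s : S) (x : X), f (s • x) = s • f x) : X →ₗ[S] Y where
  toFun := f
  map_add' := f.map_add
  map_smul' := h

@[simp] theorem mkLin_apply {K S X Y : Type*} [Field K] [Ring S] [AddCommGroup X] [AddCommGroup Y]
    [Module K X] [Module K Y] [Module S X] [Module S Y] (f : X →ₗ[K] Y)
    (h : ∀ (s : S) (x : X), f (s • x) = s • f x) (x : X) : mkLin f h x = f x := rfl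

/-! ### Maps factoring through a finite free module -/

section FP

variable {S : Type*} [Ring S]

/-- Linear maps that are finite sums of rank-one maps `x ↦ φ x • y`. -/
inductive FP {X Y : Type*} [AddCommGroup X] [Module S X] [AddCommGroup Y] [Module S Y] :
    (X →ₗ[S] Y) → Prop
  | zero : FP 0
  | one (φ : X →ₗ[S] S) (y : Y) : FP (φ.smulRight y)
  | add {a b : X →ₗ[S] Y} : FP a → FP b → FP (a + b)

variable {W X Y Z : Type*} [AddCommGroup W] [Module S W] [AddCommGroup X] [Module S X]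
  [AddCommGroup Y] [Module S Y] [AddCommGroup Z] [Module S Z]

theorem FP.congr {a b : X →ₗ[S] Y} (h : FP a) (hab : ∀ x, a x = b x) : FP b := by
  have : a = b := LinearMap.ext hab
  exact this ▸ h

theorem FP.comp_left {a : X →ₗ[S] Y} (h : FP a) (g : Y →ₗ[S] Z) : FP (g ∘ₗ a) := by
  induction h with
  | zero => exact FP.zero.congr (by simp)
  | one φ y => exact (FP.one φ (g y)).congr (by simp)
  | add _ _ ha hb => exact (ha.add hb).congr (by simp)

theorem FP.comp_right {a : X →ₗ[S] Y} (h : FP a) (g : W →ₗ[S] X) : FP (a ∘ₗ g) := by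
  induction h with
  | zero => exact FP.zero.congr (by simp)
  | one φ y => exact (FP.one (φ ∘ₗ g) y).congr (by simp)
  | add _ _ ha hb => exact (ha.add hb).congr (by simp)

theorem FP.neg {a : X →ₗ[S] Y} (h : FP a) : FP (-a) :=
  (h.comp_left (-LinearMap.id)).congr (by simp)

theorem FP.sub {a b : X →ₗ[S] Y} (ha : FP a) (hb : FP b) : FP (a - b) := by
  rw [sub_eq_add_neg]; exact ha.add hb.neg

theorem FP.sum {ι : Type*} (s : Finset ι) (a : ι → X →ₗ[S] Y) (h : ∀ i ∈ s, FP (a i)) :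
    FP (∑ i ∈ s, a i) :=
  Finset.sum_induction a FP (fun _ _ => FP.add) FP.zero h

theorem FP.id_self : FP (LinearMap.id : S →ₗ[S] S) :=
  (FP.one LinearMap.id (1 : S)).congr (by simp)

theorem FP.to_ring (φ : X →ₗ[S] S) : FP φ := (FP.one φ (1 : S)).congr (by simp)

theorem FP.from_ring (φ : S →ₗ[S] X) : FP φ :=
  (FP.id_self.comp_left φ).congr (by simp)

/-- Lifting along a map whose range contains the range of `g ∘ a`, for surjective maps. -/
theorem FP.lift {a : X →ₗ[S] Y} (h : FP a) (j : W →ₗ[S] Y) (hj : Function.Surjective j) :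
    ∃ s : X →ₗ[S] W, ∀ x, j (s x) = a x := by
  induction h with
  | zero => exact ⟨0, by simp⟩
  | one φ y =>
    obtain ⟨w, rfl⟩ := hj y
    exact ⟨φ.smulRight w, by simp⟩
  | add _ _ ha hb =>
    obtain ⟨s, hs⟩ := ha
    obtain ⟨t, ht⟩ := hb
    exact ⟨s + t, by simp [hs, ht]⟩

/-- Lifting: if `g` maps into the range of `j`, then `g ∘ a` lifts along `j`. -/
theorem FP.lift' {a : X →ₗ[S] Y} (h : FP a) (g : Y →ₗ[S] Z) (j : W →ₗ[S] Z)
    (hj : ∀ y, ∃ w, j w = g y) : ∃ s : X →ₗ[S] W, ∀ x, j (s x) = g (a x) := by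
  induction h with
  | zero => exact ⟨0, by simp⟩
  | one φ y =>
    obtain ⟨w, hw⟩ := hj y
    exact ⟨φ.smulRight w, by simp [hw]⟩
  | add _ _ ha hb =>
    obtain ⟨s, hs⟩ := ha
    obtain ⟨t, ht⟩ := hb
    exact ⟨s + t, by simp [hs, ht]⟩

/-- Explicit dual bases. -/
theorem FP.exists_fin {a : X →ₗ[S] Y} (h : FP a) :
    ∃ (m : ℕ) (φ : Fin m → X →ₗ[S] S) (y : Fin m → Y), ∀ x, a x = ∑ k, φ k x • y k := by
  induction h with
  | zero => exact ⟨0, Fin.elim0, Fin.elim0, by simp⟩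
  | one φ y => exact ⟨1, fun _ => φ, fun _ => y, by simp⟩
  | add _ _ ha hb =>
    obtain ⟨m, φ, y, h1⟩ := ha
    obtain ⟨m', φ', y', h2⟩ := hb
    refine ⟨m + m', Fin.append φ φ', Fin.append y y', fun x => ?_⟩
    simp [Fin.sum_univ_add, h1, h2]

theorem FP.of_fin {a : X →ₗ[S] Y} {ι : Type*} [Fintype ι] (φ : ι → X →ₗ[S] S) (y : ι → Y)
    (h : ∀ x, a x = ∑ k, φ k x • y k) : FP a :=
  (FP.sum Finset.univ (fun k => (φ k).smulRight (y k)) (fun k _ => FP.one _ _)).congr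
    (by simp [h])

theorem FP.projective (h : FP (LinearMap.id : X →ₗ[S] X)) : Module.Projective S X := by
  refine Module.Projective.of_lifting_property'' fun f hf => ?_
  obtain ⟨s, hs⟩ := h.lift f hf
  exact ⟨s, LinearMap.ext hs⟩

theorem FP.finite (h : FP (LinearMap.id : X →ₗ[S] X)) : Module.Finite S X := by
  obtain ⟨m, φ, y, hy⟩ := h.exists_fin
  refine Module.Finite.of_surjective (Fintype.linearCombination S y) fun x => ⟨fun k => φ k x, ?_⟩
  simpa [Fintype.linearCombination_apply] using (hy x).symm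

theorem FP.of_projective [Module.Finite S X] [Module.Projective S X] :
    FP (LinearMap.id : X →ₗ[S] X) := by
  obtain ⟨m, f, hf⟩ := Module.Finite.exists_fin' S X
  obtain ⟨s, hs⟩ := Module.projective_lifting_property f LinearMap.id hf
  refine FP.of_fin (fun k => LinearMap.proj k ∘ₗ s) (fun k => f (Pi.single k 1)) fun x => ?_
  have h1 : f (s x) = x := LinearMap.congr_fun hs x
  conv_lhs => rw [LinearMap.id_apply, ← h1, pi_eq_sum_univ' (s x)]
  simp

/-- The identity of the range of an idempotent finite-rank map has finite rank. -/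
theorem FP.range {e : X →ₗ[S] X} (h : FP e) (he : ∀ x, e (e x) = e x) :
    FP (LinearMap.id : LinearMap.range e →ₗ[S] LinearMap.range e) := by
  refine ((h.comp_left e.rangeRestrict).comp_right (LinearMap.range e).subtype).congr ?_
  rintro ⟨_, x, rfl⟩
  ext
  simp [he]

theorem FP.retract {i : X →ₗ[S] Y} {r : Y →ₗ[S] X} (h : FP (LinearMap.id : Y →ₗ[S] Y))
    (hri : ∀ x, r (i x) = x) : FP (LinearMap.id : X →ₗ[S] X) :=
  ((h.comp_left r).comp_right i).congr (by simp [hri])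

theorem FP.prod (hX : FP (LinearMap.id : X →ₗ[S] X)) (hY : FP (LinearMap.id : Y →ₗ[S] Y)) :
    FP (LinearMap.id : X × Y →ₗ[S] X × Y) :=
  (((hX.comp_left (LinearMap.inl S X Y)).comp_right (LinearMap.fst S X Y)).add
    ((hY.comp_left (LinearMap.inr S X Y)).comp_right (LinearMap.snd S X Y))).congr (by simp)

/-- A map vanishing on the kernel of a surjection descends. -/
theorem exists_desc (j : X →ₗ[S] Y) (hj : Function.Surjective j) (g : X →ₗ[S] Z)
    (hg : ∀ x, j x = 0 → g x = 0) : ∃ g' : Y →ₗ[S] Z, ∀ x, g' (j x) = g x := by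
  refine ⟨((LinearMap.ker j).liftQ g (fun x hx => hg x hx)) ∘ₗ
    (j.quotKerEquivOfSurjective hj).symm.toLinearMap, fun x => ?_⟩
  have : (j.quotKerEquivOfSurjective hj).symm (j x) = Submodule.Quotient.mk x := by
    rw [LinearEquiv.symm_apply_eq]; rfl
  simp [this]

/-- A map with values in the range of an injection factors through it. -/
theorem exists_fac (i : X →ₗ[S] Y) (hi : Function.Injective i) (g : Z →ₗ[S] Y)
    (hg : ∀ z, ∃ x, i x = g z) : ∃ g' : Z →ₗ[S] X, ∀ z, i (g' z) = g z := by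
  refine ⟨(LinearEquiv.ofInjective i hi).symm.toLinearMap ∘ₗ
    g.codRestrict (LinearMap.range i) (fun z => hg z), fun z => ?_⟩
  obtain ⟨x, hx⟩ := hg z
  have : (LinearEquiv.ofInjective i hi).symm
      (g.codRestrict (LinearMap.range i) (fun z => hg z) z) = x := by
    rw [LinearEquiv.symm_apply_eq]; ext; simp [hx]
  simp [this, hx]

/-- A short exact sequence of modules. -/
structure SES (i : X →ₗ[S] Y) (j : Y →ₗ[S] Z) : Prop where
  inj : Function.Injective i
  surj : Function.Surjective j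
  ji : ∀ x, j (i x) = 0
  ex : ∀ y, j y = 0 → ∃ x, i x = y

theorem SES.split {i : X →ₗ[S] Y} {j : Y →ₗ[S] Z} (h : SES i j)
    (hZ : FP (LinearMap.id : Z →ₗ[S] Z)) :
    ∃ (r : Y →ₗ[S] X) (s : Z →ₗ[S] Y), (∀ x, r (i x) = x) ∧ (∀ z, j (s z) = z) ∧
      ∀ y, i (r y) + s (j y) = y := by
  obtain ⟨s, hs⟩ := hZ.lift j h.surj
  obtain ⟨r, hr⟩ := exists_fac i h.inj (LinearMap.id - s ∘ₗ j)
    (fun y => h.ex _ (by simp [hs]))
  refine ⟨r, s, fun x => h.inj ?_, hs, fun y => ?_⟩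
  · simp [hr, h.ji]
  · simp [hr]

theorem SES.fp_left {i : X →ₗ[S] Y} {j : Y →ₗ[S] Z} (h : SES i j)
    (hY : FP (LinearMap.id : Y →ₗ[S] Y)) (hZ : FP (LinearMap.id : Z →ₗ[S] Z)) :
    FP (LinearMap.id : X →ₗ[S] X) := by
  obtain ⟨r, -, hr, -, -⟩ := h.split hZ
  exact hY.retract hr

theorem SES.fp_mid {i : X →ₗ[S] Y} {j : Y →ₗ[S] Z} (h : SES i j)
    (hX : FP (LinearMap.id : X →ₗ[S] X)) (hZ : FP (LinearMap.id : Z →ₗ[S] Z)) :
    FP (LinearMap.id : Y →ₗ[S] Y) := by
  obtain ⟨r, s, -, -, hy⟩ := h.split hZ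
  exact (((hX.comp_left i).comp_right r).add ((hZ.comp_left s).comp_right j)).congr (by simpa)

end FP

/-! ### Complexes -/

/-- A `ℤ`-graded chain complex carried by one ambient module: the term of degree `n` is the
range of the idempotent `e n`, and `d n` goes from degree `n + 1` to degree `n`. -/
structure Cx (S X : Type*) [Ring S] [AddCommGroup X] [Module S X] where
  e : ℤ → X →ₗ[S] X
  d : ℤ → X →ₗ[S] X
  ee : ∀ n x, e n (e n x) = e n x
  ed : ∀ n x, e n (d n x) = d n x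
  de : ∀ n x, d n (e (n + 1) x) = d n x
  dd : ∀ n x, d n (d (n + 1) x) = 0

namespace Cx

variable {S X : Type*} [Ring S] [AddCommGroup X] [Module S X] (P : Cx S X)

theorem de' (n : ℤ) (x : X) : P.d (n - 1) (P.e n x) = P.d (n - 1) x := by
  have := P.de (n - 1) x
  rwa [sub_add_cancel] at this

theorem dd' (n : ℤ) (x : X) : P.d (n - 1) (P.d n x) = 0 := by
  have := P.dd (n - 1) x
  rwa [sub_add_cancel] at this

/-- Exactness at degree `n`. -/
def ExactAt (n : ℤ) : Prop := ∀ x, P.e n x = x → P.d (n - 1) x = 0 → ∃ w, P.d n w = x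

/-- All terms are finitely generated projective. -/
def IsFP : Prop := ∀ n, FP (P.e n)

variable {N N' N'' : Type*} [AddCommGroup N] [Module S N] [AddCommGroup N'] [Module S N']
  [AddCommGroup N''] [Module S N'']

/-- Cocycles of degree `n`. -/
structure Coc (n : ℤ) (f : X →ₗ[S] N) : Prop where
  he : ∀ x, f (P.e n x) = f x
  hd : ∀ x, f (P.d n x) = 0

/-- Coboundaries of degree `n`. -/
def Cob (n : ℤ) (f : X →ₗ[S] N) : Prop := ∃ g : X →ₗ[S] N, ∀ x, g (P.d (n - 1) x) = f x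

variable (N) in
/-- `Hom(P, N)` is exact in degree `n`. -/
def HZ (n : ℤ) : Prop := ∀ f : X →ₗ[S] N, P.Coc n f → P.Cob n f

variable {P}

theorem Cob.exists_homog {n : ℤ} {f : X →ₗ[S] N} (h : P.Cob n f) :
    ∃ g : X →ₗ[S] N, (∀ x, g (P.e (n - 1) x) = g x) ∧ ∀ x, g (P.d (n - 1) x) = f x := by
  obtain ⟨g, hg⟩ := h
  exact ⟨g ∘ₗ P.e (n - 1), fun x => by simp [P.ee], fun x => by simp [P.ed, hg]⟩

theorem Cob.coc {n : ℤ} {f : X →ₗ[S] N} (h : P.Cob n f) : P.Coc n f := by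
  obtain ⟨g, hg⟩ := h
  exact ⟨fun x => by rw [← hg, ← hg, P.de'], fun x => by rw [← hg, P.dd', map_zero]⟩

theorem Cob.zero (n : ℤ) : P.Cob n (0 : X →ₗ[S] N) := ⟨0, by simp⟩

theorem Cob.add {n : ℤ} {f g : X →ₗ[S] N} (hf : P.Cob n f) (hg : P.Cob n g) :
    P.Cob n (f + g) := by
  obtain ⟨a, ha⟩ := hf
  obtain ⟨b, hb⟩ := hg
  exact ⟨a + b, fun x => by simp [ha, hb]⟩

theorem Cob.comp {n : ℤ} {f : X →ₗ[S] N} (hf : P.Cob n f) (a : N →ₗ[S] N') :
    P.Cob n (a ∘ₗ f) := by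
  obtain ⟨g, hg⟩ := hf
  exact ⟨a ∘ₗ g, fun x => by simp [hg]⟩

theorem Cob.congr {n : ℤ} {f g : X →ₗ[S] N} (hf : P.Cob n f) (h : ∀ x, f x = g x) :
    P.Cob n g := by
  have : f = g := LinearMap.ext h
  exact this ▸ hf

theorem Coc.comp {n : ℤ} {f : X →ₗ[S] N} (hf : P.Coc n f) (a : N →ₗ[S] N') :
    P.Coc n (a ∘ₗ f) :=
  ⟨fun x => by simp [hf.he], fun x => by simp [hf.hd]⟩

/-- A cocycle followed by a finite-rank map is a coboundary when `Hom(P, S)` is exact. -/
theorem HZ.fp {n : ℤ} (h : P.HZ S n) {f : X →ₗ[S] N} (hf : P.Coc n f) {a : N →ₗ[S] N'}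
    (ha : FP a) : P.Cob n (a ∘ₗ f) := by
  induction ha with
  | zero => exact (Cob.zero n).congr (by simp)
  | one φ y =>
    exact ((h _ (hf.comp φ)).comp (LinearMap.toSpanSingleton S N' y)).congr (by simp)
  | add _ _ ha hb => exact (ha.add hb).congr (by simp)

theorem HZ.of_fp {n : ℤ} (h : P.HZ S n) (hN : FP (LinearMap.id : N →ₗ[S] N)) : P.HZ N n :=
  fun f hf => (h.fp hf hN).congr (by simp)

/-- Finite sums of maps factoring through `N'`. -/
theorem HZ.of_sum {n : ℤ} (h : P.HZ N' n) {ι : Type*} [Fintype ι] (α : ι → N →ₗ[S] N')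
    (β : ι → N' →ₗ[S] N) (hαβ : ∀ y, ∑ k, β k (α k y) = y) : P.HZ N n := by
  intro f hf
  have : P.Cob n (∑ k, β k ∘ₗ α k ∘ₗ f) :=
    Finset.sum_induction _ (P.Cob n) (fun _ _ => Cob.add) (Cob.zero n)
      fun k _ => (h _ (hf.comp (α k))).comp (β k)
  exact this.congr (by simp [hαβ])

theorem HZ.retract {n : ℤ} (h : P.HZ N' n) (α : N →ₗ[S] N') (β : N' →ₗ[S] N)
    (hαβ : ∀ y, β (α y) = y) : P.HZ N n :=
  fun f hf => ((h _ (hf.comp α)).comp β).congr (by simp [hαβ])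

theorem HZ.equiv {n : ℤ} (h : P.HZ N' n) (α : N ≃ₗ[S] N') : P.HZ N n :=
  h.retract α.toLinearMap α.symm.toLinearMap (by simp)

theorem HZ.prod {n : ℤ} (h : P.HZ N n) (h' : P.HZ N' n) : P.HZ (N × N') n := fun f hf =>
  (((h _ (hf.comp (LinearMap.fst S N N'))).comp (LinearMap.inl S N N')).add
    ((h' _ (hf.comp (LinearMap.snd S N N'))).comp (LinearMap.inr S N N'))).congr (by simp)

/-- Lift a homogeneous cochain along a surjection. -/
theorem IsFP.lift (hP : P.IsFP) (n : ℤ) (f : X →ₗ[S] N) (hf : ∀ x, f (P.e n x) = f x)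
    (j : N' →ₗ[S] N) (hj : ∀ x, ∃ y, j y = f x) :
    ∃ g : X →ₗ[S] N', (∀ x, g (P.e n x) = g x) ∧ ∀ x, j (g x) = f x := by
  obtain ⟨s, hs⟩ := (hP n).lift' f j hj
  exact ⟨s ∘ₗ P.e n, fun x => by simp [P.ee], fun x => by simp [hs, P.ee, hf]⟩

theorem HZ.ses_quot (hP : P.IsFP) {i : N' →ₗ[S] N} {j : N →ₗ[S] N''} (hs : SES i j) {n : ℤ}
    (h : P.HZ N n) (h' : P.HZ N' (n + 1)) : P.HZ N'' n := by
  intro f hf
  obtain ⟨g, hge, hg⟩ := hP.lift n f hf.he j (fun x => hs.surj _)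
  obtain ⟨a, ha⟩ := exists_fac i hs.inj (g ∘ₗ P.d n) (fun x => hs.ex _ (by simp [hg, hf.hd]))
  have hac : P.Coc (n + 1) a :=
    ⟨fun x => hs.inj (by simp [ha, P.de]), fun x => hs.inj (by simp [ha, P.dd])⟩
  obtain ⟨b, hbe, hb⟩ := (h' a hac).exists_homog
  simp only [add_sub_cancel_right] at hbe hb
  have hc : P.Coc n (g - i ∘ₗ b) :=
    ⟨fun x => by simp [hge, hbe], fun x => by simpa [hb, sub_eq_zero] using (ha x).symm⟩
  exact ((h _ hc).comp j).congr (by simp [hg, hs.ji])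

theorem HZ.ses_sub (hP : P.IsFP) {i : N' →ₗ[S] N} {j : N →ₗ[S] N''} (hs : SES i j) {n : ℤ}
    (h : P.HZ N (n + 1)) (h'' : P.HZ N'' n) : P.HZ N' (n + 1) := by
  intro f hf
  obtain ⟨g, hge, hg⟩ := (h _ (hf.comp i)).exists_homog
  simp only [add_sub_cancel_right] at hge hg
  have hc : P.Coc n (j ∘ₗ g) := ⟨fun x => by simp [hge], fun x => by simp [hg, hs.ji]⟩
  obtain ⟨b, hbe, hb⟩ := (h'' _ hc).exists_homog
  obtain ⟨c, hce, hc⟩ := hP.lift (n - 1) b hbe j (fun x => hs.surj _)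
  obtain ⟨a, ha⟩ := exists_fac i hs.inj (g - c ∘ₗ P.d (n - 1))
    (fun x => hs.ex _ (by simp [hc, hb]))
  refine ⟨a, fun x => hs.inj ?_⟩
  simp [ha, hg, P.dd']

theorem HZ.ses_mid (hP : P.IsFP) {i : N' →ₗ[S] N} {j : N →ₗ[S] N''} (hs : SES i j) {n : ℤ}
    (h' : P.HZ N' n) (h'' : P.HZ N'' n) : P.HZ N n := by
  intro f hf
  obtain ⟨b, hbe, hb⟩ := (h'' _ (hf.comp j)).exists_homog
  obtain ⟨c, hce, hc⟩ := hP.lift (n - 1) b hbe j (fun x => hs.surj _)
  obtain ⟨a, ha⟩ := exists_fac i hs.inj (f - c ∘ₗ P.d (n - 1))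
    (fun x => hs.ex _ (by simp [hc, hb]))
  have hac : P.Coc n a :=
    ⟨fun x => hs.inj (by simp [ha, hf.he, P.de']), fun x => hs.inj (by simp [ha, hf.hd, P.dd'])⟩
  have hcb : P.Cob n (c ∘ₗ P.d (n - 1)) := ⟨c, fun x => rfl⟩
  exact (((h' a hac).comp i).add hcb).congr
    (g := f) (fun x => by simpa [eq_sub_iff_add_eq] using ha x)

/-! ### Cokernels (syzygies) -/

variable (P)

/-- The relations of the cokernel in degree `n`. -/
def rel (n : ℤ) : Submodule S X := LinearMap.ker (P.e n) ⊔ LinearMap.range (P.d n)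

/-- The cokernel of `d n`, that is `P_n / d P_{n+1}`. -/
abbrev cok (n : ℤ) := X ⧸ P.rel n

/-- The term of degree `n`. -/
abbrev tm (n : ℤ) := LinearMap.range (P.e n)

theorem mem_rel {n : ℤ} {x : X} : x ∈ P.rel n ↔ ∃ w, P.d n w = P.e n x := by
  constructor
  · intro h
    obtain ⟨a, ha, _, ⟨w, rfl⟩, rfl⟩ := Submodule.mem_sup.1 h
    exact ⟨w, by simp [LinearMap.mem_ker.1 ha, P.ed]⟩
  · rintro ⟨w, hw⟩
    refine Submodule.mem_sup.2 ⟨x - P.e n x, ?_, P.d n w, ⟨w, rfl⟩, by simp [hw]⟩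
    simp [P.ee]

/-- The projection onto the cokernel. -/
def pr (n : ℤ) : X →ₗ[S] P.cok n := (P.rel n).mkQ

theorem pr_surj (n : ℤ) : Function.Surjective (P.pr n) := Submodule.mkQ_surjective _

theorem pr_eq_zero {n : ℤ} {x : X} : P.pr n x = 0 ↔ ∃ w, P.d n w = P.e n x := by
  rw [← P.mem_rel]; exact Submodule.Quotient.mk_eq_zero _

theorem pr_coc (n : ℤ) : P.Coc n (P.pr n) :=
  ⟨fun x => by
    rw [← sub_eq_zero, ← map_sub, pr_eq_zero]; exact ⟨0, by simp [P.ee]⟩,
   fun x => by rw [pr_eq_zero]; exact ⟨x, by simp [P.ed]⟩⟩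

theorem pr_e (n : ℤ) (x : X) : P.pr n (P.e n x) = P.pr n x := (P.pr_coc n).he x

theorem pr_d (n : ℤ) (x : X) : P.pr n (P.d n x) = 0 := (P.pr_coc n).hd x

variable {P} in
/-- Cocycles factor through the cokernel. -/
theorem Coc.desc {n : ℤ} {f : X →ₗ[S] N} (hf : P.Coc n f) :
    ∃ g : P.cok n →ₗ[S] N, ∀ x, g (P.pr n x) = f x :=
  exists_desc _ (P.pr_surj n) f fun x hx => by
    obtain ⟨w, hw⟩ := P.pr_eq_zero.1 hx
    rw [← hf.he, ← hw, hf.hd]

/-- The map `cok (n+1) → P_n` induced by `d n`. -/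
def cokι (n : ℤ) : P.cok (n + 1) →ₗ[S] P.tm n :=
  (P.rel (n + 1)).liftQ ((P.d n).codRestrict _ fun x => ⟨_, P.ed n x⟩) fun x hx => by
    obtain ⟨w, hw⟩ := P.mem_rel.1 hx
    ext
    simp only [LinearMap.codRestrict_apply, ZeroMemClass.coe_zero]
    rw [← P.de, ← hw, P.dd]

@[simp] theorem cokι_pr (n : ℤ) (x : X) : (P.cokι n (P.pr (n + 1) x) : X) = P.d n x := rfl

theorem cok_ses (n : ℤ) (h : P.ExactAt (n + 1)) :
    SES (P.cokι n) (P.pr n ∘ₗ (P.tm n).subtype) where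
  inj := by
    rw [← LinearMap.ker_eq_bot, LinearMap.ker_eq_bot']
    intro z hz
    obtain ⟨x, rfl⟩ := P.pr_surj _ z
    have hx : P.d n x = 0 := by simpa using congrArg Subtype.val hz
    exact P.pr_eq_zero.2 (h _ (P.ee _ _) (by simp [P.de, hx]))
  surj := fun z => by
    obtain ⟨x, rfl⟩ := P.pr_surj _ z
    exact ⟨⟨P.e n x, x, rfl⟩, by simp [P.pr_e]⟩
  ji := fun z => by
    obtain ⟨x, rfl⟩ := P.pr_surj _ z
    simp [P.pr_d]
  ex := by
    rintro ⟨_, x, rfl⟩ hx
    obtain ⟨w, hw⟩ := P.pr_eq_zero.1 hx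
    exact ⟨P.pr _ w, Subtype.ext (by simpa [P.ee] using hw)⟩

theorem tm_fp (hP : P.IsFP) (n : ℤ) : FP (LinearMap.id : P.tm n →ₗ[S] P.tm n) :=
  (hP n).range (P.ee n)

variable {Y : Type*} [AddCommGroup Y] [Module S Y]

/-- Dimension shifting along the syzygies of `Q`. -/
theorem hz_cok_succ (Q : Cx S Y) (hP : P.IsFP) (hz : ∀ n, P.HZ S n) {k : ℤ} (hQ : FP (Q.e k))
    (hex : Q.ExactAt (k + 1)) (i : ℤ) :
    P.HZ (Q.cok (k + 1)) (i + 1) ↔ P.HZ (Q.cok k) i :=
  ⟨fun h => HZ.ses_quot hP (Q.cok_ses k hex) ((hz _).of_fp (hQ.range (Q.ee k))) h,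
   fun h => HZ.ses_sub hP (Q.cok_ses k hex) ((hz _).of_fp (hQ.range (Q.ee k))) h⟩

theorem hz_cok_add (Q : Cx S Y) (hP : P.IsFP) (hz : ∀ n, P.HZ S n) (k : ℤ) (m : ℕ)
    (hQ : ∀ j, k ≤ j → FP (Q.e j)) (hex : ∀ j, k < j → Q.ExactAt j) (i : ℤ) :
    P.HZ (Q.cok (k + m)) (i + m) ↔ P.HZ (Q.cok k) i := by
  induction m with
  | zero => rw [Nat.cast_zero, add_zero, add_zero]
  | succ m ih =>
    rw [← ih, ← P.hz_cok_succ Q hP hz (hQ (k + m) (by omega)) (hex _ (by omega))]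
    push_cast
    rw [add_assoc, add_assoc]

/-- Dimension shifting in a totally acyclic complex. -/
theorem hz_cok_shift (hP : P.IsFP) (hz : ∀ n, P.HZ S n) (hex : ∀ n, P.ExactAt n) (k i m : ℤ) :
    P.HZ (P.cok (k + m)) (i + m) ↔ P.HZ (P.cok k) i := by
  obtain ⟨m, rfl | rfl⟩ := m.eq_nat_or_neg
  · exact P.hz_cok_add P hP hz k m (fun j _ => hP j) (fun j _ => hex j) i
  · have := P.hz_cok_add P hP hz (k + -(m : ℤ)) m (fun j _ => hP j) (fun j _ => hex j)
      (i + -(m : ℤ))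
    rw [neg_add_cancel_right, neg_add_cancel_right] at this
    exact this.symm

end Cx

/-! ### Interfaces between the parts of the proof -/

/-- A totally acyclic complex of finitely generated projectives. -/
structure TotAc {S X : Type*} [Ring S] [AddCommGroup X] [Module S X] (P : Cx S X) : Prop where
  fp : P.IsFP
  ex : ∀ n, P.ExactAt n
  hz : ∀ n, P.HZ S n

/-- Output of the main construction: `Z = P.cok 0` has Tate self-extensions only in degrees
`0` and `-1`, and the algebra is split with eight simple modules. -/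
structure Core (K Λ X : Type u) [Field K] [Ring Λ] [Algebra K Λ] [AddCommGroup X] [Module K X]
    [Module Λ X] [IsScalarTower K Λ X] (P : Cx Λ X) : Prop where
  fin : Module.Finite K Λ
  tot : TotAc P
  pos : ∀ i : ℤ, 1 ≤ i → P.HZ (P.cok 0) i
  neg : ∀ i : ℤ, i ≤ -2 → P.HZ (P.cok 0) i
  nz : ¬ P.HZ (P.cok 0) 0
  rad : ∃ φ : Λ →ₐ[K] (Fin 8 → K), Function.Surjective φ ∧
    (∀ x, φ x = 0 → x ∈ Ring.jacobson Λ) ∧
    ∃ a b c d : Λ, φ a = 0 ∧ φ b = 0 ∧ φ c = 0 ∧ φ d = 0 ∧ a * b * c * d ≠ 0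

/-- The symmetric-algebra version: `M = P.cok 0` is rigid and not projective. -/
structure CoreSym (K A X : Type u) [Field K] [Ring A] [Algebra K A] [AddCommGroup X]
    [Module K X] [Module A X] [IsScalarTower K A X] (P : Cx A X) : Prop where
  fin : Module.Finite K A
  sym : ∃ φ : A ≃ₗ[K] Module.Dual K A, ∀ a x b y : A, φ (a * x * b) y = φ x (b * y * a)
  tot : TotAc P
  pos : ∀ i : ℤ, 1 ≤ i → P.HZ (P.cok 0) i
  nz : ¬ P.HZ (P.cok 0) 0

/-- The existence statement proved by the main construction. -/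
def CoreExists (K : Type u) [Field K] : Prop :=
  ∃ (Λ : Type u) (_ : Ring Λ) (_ : Algebra K Λ) (X : Type u) (_ : AddCommGroup X)
    (_ : Module K X) (_ : Module Λ X) (_ : IsScalarTower K Λ X) (P : Cx Λ X), Core K Λ X P

/-- The existence statement for symmetric algebras. -/
def CoreSymExists (K : Type u) [Field K] : Prop :=
  ∃ (A : Type u) (_ : Ring A) (_ : Algebra K A) (X : Type u) (_ : AddCommGroup X)
    (_ : Module K X) (_ : Module A X) (_ : IsScalarTower K A X) (P : Cx A X), CoreSym K A X P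

end Crest.Agent.R186
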