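import Crest.Agent.R186.Basic

/-! External tensor products of modules and of graded complexes; Künneth formula. -/

set_option autoImplicit false
set_option linter.unusedSectionVars false

namespace Crest.Agent.R186

open scoped TensorProduct

/-- In characteristic two every vector is its own negative. -/
theorem addself {K V : Type*} [Field K] [AddCommGroup V] [Module K V] (h2 : (2 : K) = 0)
    (v : V) : v + v = 0 := by
  rw [← two_smul K v, h2, zero_smul]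

section Box

variable (K S₁ S₂ : Type*) [Field K] [Ring S₁] [Ring S₂] [Algebra K S₁] [Algebra K S₂]
variable (X₁ X₂ : Type*) [AddCommGroup X₁] [Module K X₁] [Module S₁ X₁] [IsScalarTower K S₁ X₁]
  [AddCommGroup X₂] [Module K X₂] [Module S₂ X₂] [IsScalarTower K S₂ X₂]

/-- The action of `S₁ ⊗ S₂` on `X₁ ⊗ X₂`. -/
noncomputable def boxHom : S₁ ⊗[K] S₂ →ₐ[K] Module.End K (X₁ ⊗[K] X₂) :=
  Algebra.TensorProduct.lift
    ((Module.End.rTensorAlgHom K X₁ X₂).comp (Algebra.lsmul K K X₁))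
    ((Module.End.lTensorAlgHom K X₂ X₁).comp (Algebra.lsmul K K X₂))
    (fun _ _ => TensorProduct.ext' fun _ _ => rfl)

/-- External tensor product. -/
def Box (K : Type*) (_S₁ _S₂ : Type*) [Field K] (X₁ X₂ : Type*) [AddCommGroup X₁] [Module K X₁]
    [AddCommGroup X₂] [Module K X₂] : Type _ := X₁ ⊗[K] X₂

noncomputable instance : AddCommGroup (Box K S₁ S₂ X₁ X₂) :=
  inferInstanceAs (AddCommGroup (X₁ ⊗[K] X₂))
noncomputable instance : Module K (Box K S₁ S₂ X₁ X₂) := inferInstanceAs (Module K (X₁ ⊗[K] X₂))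
noncomputable instance : Module (S₁ ⊗[K] S₂) (Box K S₁ S₂ X₁ X₂) :=
  Module.compHom (X₁ ⊗[K] X₂) (boxHom K S₁ S₂ X₁ X₂).toRingHom

instance : IsScalarTower K (S₁ ⊗[K] S₂) (Box K S₁ S₂ X₁ X₂) :=
  ⟨fun k s n => by
    change (boxHom K S₁ S₂ X₁ X₂ (k • s)) n = k • (boxHom K S₁ S₂ X₁ X₂ s n)
    rw [map_smul]; rfl⟩

instance [Module.Finite K X₁] [Module.Finite K X₂] : Module.Finite K (Box K S₁ S₂ X₁ X₂) :=
  inferInstanceAs (Module.Finite K (X₁ ⊗[K] X₂))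

namespace Box

variable {X₁ X₂}

/-- Pure tensors. -/
noncomputable def mk : X₁ →ₗ[K] X₂ →ₗ[K] Box K S₁ S₂ X₁ X₂ := TensorProduct.mk K X₁ X₂

variable {K S₁ S₂}

@[simp] theorem smul_mk (a : S₁) (b : S₂) (x : X₁) (y : X₂) :
    (a ⊗ₜ[K] b) • mk K S₁ S₂ x y = mk K S₁ S₂ (a • x) (b • y) := by
  rfl

@[elab_as_elim]
theorem induction_on {p : Box K S₁ S₂ X₁ X₂ → Prop} (z : Box K S₁ S₂ X₁ X₂) (h0 : p 0)
    (h1 : ∀ x y, p (mk K S₁ S₂ x y)) (h2 : ∀ z w, p z → p w → p (z + w)) : p z :=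
  TensorProduct.induction_on (motive := p) z h0 h1 h2

/-- Two additive maps out of a `Box` agreeing on pure tensors agree. -/
theorem ext_add {V F G : Type*} [AddCommGroup V] [FunLike F (Box K S₁ S₂ X₁ X₂) V]
    [AddMonoidHomClass F (Box K S₁ S₂ X₁ X₂) V] [FunLike G (Box K S₁ S₂ X₁ X₂) V]
    [AddMonoidHomClass G (Box K S₁ S₂ X₁ X₂) V] (f : F) (g : G)
    (h : ∀ x y, f (mk K S₁ S₂ x y) = g (mk K S₁ S₂ x y)) (z : Box K S₁ S₂ X₁ X₂) : f z = g z := by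
  induction z using Box.induction_on with
  | h0 => simp
  | h1 x y => exact h x y
  | h2 z w hz hw => simp [hz, hw]

/-- Universal property. -/
noncomputable def lift {V : Type*} [AddCommGroup V] [Module K V] (f : X₁ →ₗ[K] X₂ →ₗ[K] V) :
    Box K S₁ S₂ X₁ X₂ →ₗ[K] V := TensorProduct.lift f

@[simp] theorem lift_mk {V : Type*} [AddCommGroup V] [Module K V] (f : X₁ →ₗ[K] X₂ →ₗ[K] V)
    (x : X₁) (y : X₂) : lift (S₁ := S₁) (S₂ := S₂) f (mk K S₁ S₂ x y) = f x y := rfl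

/-- A `K`-linear map out of a `Box` is equivariant as soon as it is on pure tensors. -/
theorem eqv_of_mk {V : Type*} [AddCommGroup V] [Module K V] (f : Box K S₁ S₂ X₁ X₂ →ₗ[K] V)
    (ρ : S₁ ⊗[K] S₂ →+ V →+ V)
    (h : ∀ a b x y, f (mk K S₁ S₂ (a • x) (b • y)) = ρ (a ⊗ₜ[K] b) (f (mk K S₁ S₂ x y)))
    (s : S₁ ⊗[K] S₂) (z : Box K S₁ S₂ X₁ X₂) : f (s • z) = ρ s (f z) := by
  induction s using TensorProduct.induction_on with
  | zero => simp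
  | add s t hs ht => simp [add_smul, hs, ht]
  | tmul a b =>
    induction z using Box.induction_on with
    | h0 => simp
    | h1 x y => rw [smul_mk, h]
    | h2 z w hz hw => simp [smul_add, hz, hw]

variable {T₁ T₂ : Type*} [Ring T₁] [Ring T₂] [Algebra K T₁] [Algebra K T₂]
variable {Y₁ Y₂ : Type*} [AddCommGroup Y₁] [Module K Y₁] [AddCommGroup Y₂] [Module K Y₂]

/-- Tensor product of `K`-linear maps. -/
noncomputable def kmap (f : X₁ →ₗ[K] Y₁) (g : X₂ →ₗ[K] Y₂) :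
    Box K S₁ S₂ X₁ X₂ →ₗ[K] Box K T₁ T₂ Y₁ Y₂ := TensorProduct.map f g

@[simp] theorem kmap_mk (f : X₁ →ₗ[K] Y₁) (g : X₂ →ₗ[K] Y₂) (x : X₁) (y : X₂) :
    (kmap f g : Box K S₁ S₂ X₁ X₂ →ₗ[K] Box K T₁ T₂ Y₁ Y₂) (mk K S₁ S₂ x y) =
      mk K T₁ T₂ (f x) (g y) := rfl

/-- Product of two functionals. -/
noncomputable def fmul (f : X₁ →ₗ[K] K) (g : X₂ →ₗ[K] K) : Box K S₁ S₂ X₁ X₂ →ₗ[K] K :=
  LinearMap.mul' K K ∘ₗ TensorProduct.map f g

@[simp] theorem fmul_mk (f : X₁ →ₗ[K] K) (g : X₂ →ₗ[K] K) (x : X₁) (y : X₂) :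
    fmul (S₁ := S₁) (S₂ := S₂) f g (mk K S₁ S₂ x y) = f x * g y := rfl

section
variable [Module T₁ Y₁] [IsScalarTower K T₁ Y₁] [Module T₂ Y₂] [IsScalarTower K T₂ Y₂]

theorem kmap_eqv (φ₁ : S₁ →ₐ[K] T₁) (φ₂ : S₂ →ₐ[K] T₂) (f : X₁ →ₗ[K] Y₁) (g : X₂ →ₗ[K] Y₂)
    (hf : ∀ s x, f (s • x) = φ₁ s • f x) (hg : ∀ s x, g (s • x) = φ₂ s • g x)
    (s : S₁ ⊗[K] S₂) (z : Box K S₁ S₂ X₁ X₂) :
    (kmap f g : _ →ₗ[K] Box K T₁ T₂ Y₁ Y₂) (s • z) =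
      Algebra.TensorProduct.map φ₁ φ₂ s • (kmap f g : _ →ₗ[K] Box K T₁ T₂ Y₁ Y₂) z :=
  eqv_of_mk (kmap f g : _ →ₗ[K] Box K T₁ T₂ Y₁ Y₂)
    ((smulAddHom (T₁ ⊗[K] T₂) _).comp
      (Algebra.TensorProduct.map φ₁ φ₂).toRingHom.toAddMonoidHom)
    (fun a b x y => by simp [hf, hg]) s z

end

variable [Module S₁ Y₁] [IsScalarTower K S₁ Y₁] [Module S₂ Y₂] [IsScalarTower K S₂ Y₂]

/-- Tensor product of linear maps. -/
noncomputable def map (f : X₁ →ₗ[S₁] Y₁) (g : X₂ →ₗ[S₂] Y₂) :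
    Box K S₁ S₂ X₁ X₂ →ₗ[S₁ ⊗[K] S₂] Box K S₁ S₂ Y₁ Y₂ :=
  mkLin (kmap (f.restrictScalars K) (g.restrictScalars K)) fun s z => by
    have := kmap_eqv (AlgHom.id K S₁) (AlgHom.id K S₂) (f.restrictScalars K)
      (g.restrictScalars K) (by simp) (by simp) s z
    simpa using this

@[simp] theorem map_mk (f : X₁ →ₗ[S₁] Y₁) (g : X₂ →ₗ[S₂] Y₂) (x : X₁) (y : X₂) :
    map f g (mk K S₁ S₂ x y) = mk K S₁ S₂ (f x) (g y) := rfl

variable (K S₁ S₂) in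
/-- The external product of the regular modules is the regular module. -/
noncomputable def reg : Box K S₁ S₂ S₁ S₂ ≃ₗ[S₁ ⊗[K] S₂] S₁ ⊗[K] S₂ :=
  { mkLin (K := K) (X := Box K S₁ S₂ S₁ S₂) (Y := S₁ ⊗[K] S₂) (LinearMap.id (M := S₁ ⊗[K] S₂))
      (fun s z => eqv_of_mk (X₁ := S₁) (X₂ := S₂) (LinearMap.id (M := S₁ ⊗[K] S₂))
        (smulAddHom (S₁ ⊗[K] S₂) _)
        (fun a b x y => (Algebra.TensorProduct.tmul_mul_tmul a x b y).symm) s z) with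
    invFun := fun z => z
    left_inv := fun _ => rfl
    right_inv := fun _ => rfl }

@[simp] theorem reg_mk (a : S₁) (b : S₂) : reg K S₁ S₂ (mk K S₁ S₂ a b) = a ⊗ₜ[K] b := rfl

@[simp] theorem reg_symm_tmul (a : S₁) (b : S₂) :
    (reg K S₁ S₂).symm (a ⊗ₜ[K] b) = mk K S₁ S₂ a b := rfl

theorem fp_map {f : X₁ →ₗ[S₁] Y₁} {g : X₂ →ₗ[S₂] Y₂} (hf : FP f) (hg : FP g) :
    FP (map (K := K) f g) := by
  induction hf with
  | zero => exact FP.zero.congr (ext_add _ _ (by simp))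
  | add _ _ ha hb => exact (ha.add hb).congr (ext_add _ _ (by simp))
  | one φ x =>
    induction hg with
    | zero => exact FP.zero.congr (ext_add _ _ (by simp))
    | add _ _ ha hb => exact (ha.add hb).congr (ext_add _ _ (by simp))
    | one ψ y =>
      exact (FP.one ((reg K S₁ S₂).toLinearMap ∘ₗ map φ ψ) (mk K S₁ S₂ x y)).congr
        (ext_add _ _ (by simp))

theorem fp_id (h₁ : FP (LinearMap.id : X₁ →ₗ[S₁] X₁)) (h₂ : FP (LinearMap.id : X₂ →ₗ[S₂] X₂)) :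
    FP (LinearMap.id : Box K S₁ S₂ X₁ X₂ →ₗ[S₁ ⊗[K] S₂] Box K S₁ S₂ X₁ X₂) :=
  (fp_map (K := K) h₁ h₂).congr (ext_add _ _ (by simp))

end Box

end Box

/-! ### Complexes with prescribed homology over a field -/

section KP

variable {K X H : Type*} [Field K] [AddCommGroup X] [Module K X] [AddCommGroup H] [Module K H]

/-- The ungraded complex `(X, d)` has homology `H`, through the section `ι` and projection `π`. -/
structure KP (d : X →ₗ[K] X) (ι : H →ₗ[K] X) (π : X →ₗ[K] H) : Prop where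
  dd : ∀ x, d (d x) = 0
  dι : ∀ h, d (ι h) = 0
  πd : ∀ x, π (d x) = 0
  πι : ∀ h, π (ι h) = h
  ex : ∀ x, d x = 0 → π x = 0 → ∃ w, d w = x

theorem exists_geninv {Y : Type*} [AddCommGroup Y] [Module K Y] (d : X →ₗ[K] Y) :
    ∃ σ : Y →ₗ[K] X, ∀ x, d (σ (d x)) = d x := by
  obtain ⟨s, hs⟩ := d.rangeRestrict.exists_rightInverse_of_surjective
    (LinearMap.range_rangeRestrict d)
  obtain ⟨r, hr⟩ := (LinearMap.range d).subtype.exists_leftInverse_of_injective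
    (Submodule.ker_subtype _)
  refine ⟨s ∘ₗ r, fun x => ?_⟩
  have h1 : r (d x) = ⟨d x, x, rfl⟩ := LinearMap.congr_fun hr ⟨d x, x, rfl⟩
  have h2 := congrArg Subtype.val (LinearMap.congr_fun hs ⟨d x, x, rfl⟩)
  simpa [h1] using h2

theorem KP.exists_htpy {d : X →ₗ[K] X} {ι : H →ₗ[K] X} {π : X →ₗ[K] H} (h : KP d ι π) :
    ∃ s : X →ₗ[K] X, ∀ x, d (s x) + s (d x) = x - ι (π x) := by
  obtain ⟨σ₀, hσ₀⟩ := exists_geninv d
  let σ : X →ₗ[K] X := σ₀ - ι ∘ₗ π ∘ₗ σ₀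
  have h1 : ∀ x, d (σ (d x)) = d x := fun x => by simp [σ, hσ₀, h.dι]
  have h2 : ∀ x, π (σ x) = 0 := fun x => by simp [σ, h.πι]
  refine ⟨σ ∘ₗ (LinearMap.id - σ ∘ₗ d - ι ∘ₗ π), fun x => ?_⟩
  obtain ⟨w, hw⟩ := h.ex (x - σ (d x) - ι (π x)) (by simp [h1, h.dι]) (by simp [h2, h.πι])
  simp only [LinearMap.comp_apply, LinearMap.sub_apply, LinearMap.id_apply]
  rw [← hw, h1, hw, h.dd, h.πd]
  simp only [map_zero, sub_zero]
  abel

variable {S₁ S₂ T₁ T₂ : Type*} [Ring S₁] [Ring S₂] [Algebra K S₁] [Algebra K S₂]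
  [Ring T₁] [Ring T₂] [Algebra K T₁] [Algebra K T₂]
variable {X₁ X₂ H₁ H₂ : Type*} [AddCommGroup X₁] [Module K X₁] [Module S₁ X₁]
  [IsScalarTower K S₁ X₁] [AddCommGroup X₂] [Module K X₂] [Module S₂ X₂] [IsScalarTower K S₂ X₂]
  [AddCommGroup H₁] [Module K H₁] [Module T₁ H₁]
  [IsScalarTower K T₁ H₁] [AddCommGroup H₂] [Module K H₂] [Module T₂ H₂] [IsScalarTower K T₂ H₂]

theorem KP.box (h2 : (2 : K) = 0) {d₁ : X₁ →ₗ[K] X₁} {ι₁ : H₁ →ₗ[K] X₁} {π₁ : X₁ →ₗ[K] H₁}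
    {d₂ : X₂ →ₗ[K] X₂} {ι₂ : H₂ →ₗ[K] X₂} {π₂ : X₂ →ₗ[K] H₂} (h₁ : KP d₁ ι₁ π₁)
    (h₂ : KP d₂ ι₂ π₂) (d : Box K S₁ S₂ X₁ X₂ →ₗ[K] Box K S₁ S₂ X₁ X₂)
    (hd : ∀ x y, d (Box.mk K S₁ S₂ x y) = Box.mk K S₁ S₂ (d₁ x) y + Box.mk K S₁ S₂ x (d₂ y)) :
    KP d (Box.kmap ι₁ ι₂ : Box K T₁ T₂ H₁ H₂ →ₗ[K] _) (Box.kmap π₁ π₂) := by
  obtain ⟨s₁, hs₁⟩ := h₁.exists_htpy
  obtain ⟨s₂, hs₂⟩ := h₂.exists_htpy
  refine ⟨Box.ext_add (d ∘ₗ d) (0 : _ →ₗ[K] _) fun x y => ?_,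
    Box.ext_add (d ∘ₗ Box.kmap ι₁ ι₂) (0 : _ →ₗ[K] _) fun x y => ?_,
    Box.ext_add (Box.kmap π₁ π₂ ∘ₗ d) (0 : _ →ₗ[K] _) fun x y => ?_,
    Box.ext_add (Box.kmap π₁ π₂ ∘ₗ Box.kmap ι₁ ι₂) (LinearMap.id (R := K)) fun x y => ?_,
    fun z hz hπ => ?_⟩
  · simp [hd, h₁.dd, h₂.dd, addself h2]
  · simp [hd, h₁.dι, h₂.dι]
  · simp [hd, h₁.πd, h₂.πd]
  · simp [h₁.πι, h₂.πι]
  · let s : Box K S₁ S₂ X₁ X₂ →ₗ[K] Box K S₁ S₂ X₁ X₂ :=
      Box.kmap s₁ LinearMap.id + Box.kmap (ι₁ ∘ₗ π₁) s₂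
    have key : ∀ z, (d ∘ₗ s + s ∘ₗ d) z = (LinearMap.id - (Box.kmap ι₁ ι₂ :
        Box K T₁ T₂ H₁ H₂ →ₗ[K] Box K S₁ S₂ X₁ X₂) ∘ₗ Box.kmap π₁ π₂ :
        Box K S₁ S₂ X₁ X₂ →ₗ[K] Box K S₁ S₂ X₁ X₂) z := by
      refine Box.ext_add _ _ fun x y => ?_
      have e1 : Box.mk K S₁ S₂ (d₁ (s₁ x)) y + Box.mk K S₁ S₂ (s₁ (d₁ x)) y =
          Box.mk K S₁ S₂ x y - Box.mk K S₁ S₂ (ι₁ (π₁ x)) y := by
        rw [← LinearMap.add_apply, ← map_add, hs₁, map_sub, LinearMap.sub_apply]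
      have e2 : Box.mk K S₁ S₂ (ι₁ (π₁ x)) (d₂ (s₂ y)) + Box.mk K S₁ S₂ (ι₁ (π₁ x)) (s₂ (d₂ y)) =
          Box.mk K S₁ S₂ (ι₁ (π₁ x)) y - Box.mk K S₁ S₂ (ι₁ (π₁ x)) (ι₂ (π₂ y)) := by
        rw [← map_add, hs₂, map_sub]
      have e3 := addself h2 (Box.mk K S₁ S₂ (s₁ x) (d₂ y))
      simp only [s, LinearMap.add_apply, LinearMap.comp_apply, Box.kmap_mk, LinearMap.id_apply,
        map_add, hd, h₁.dι, h₁.πd, map_zero, LinearMap.zero_apply, LinearMap.sub_apply]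
      linear_combination (norm := abel) e1 + e2 + e3
    refine ⟨s z, ?_⟩
    simpa [hz, hπ] using key z

/-- Homology of dimension one, generated by `v` and detected by `ε`. -/
structure KP1 (d : X →ₗ[K] X) (v : X) (ε : X →ₗ[K] K) : Prop where
  dd : ∀ x, d (d x) = 0
  dv : d v = 0
  εd : ∀ x, ε (d x) = 0
  εv : ε v = 1
  ex : ∀ x, d x = 0 → ε x = 0 → ∃ w, d w = x

theorem KP1.kp {d : X →ₗ[K] X} {v : X} {ε : X →ₗ[K] K} (h : KP1 d v ε) :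
    KP d (LinearMap.toSpanSingleton K X v) ε :=
  ⟨h.dd, by simp [h.dv], h.εd, by simp [h.εv], h.ex⟩

theorem KP1.box (h2 : (2 : K) = 0) {d₁ : X₁ →ₗ[K] X₁} {v₁ : X₁} {ε₁ : X₁ →ₗ[K] K}
    {d₂ : X₂ →ₗ[K] X₂} {v₂ : X₂} {ε₂ : X₂ →ₗ[K] K} (h₁ : KP1 d₁ v₁ ε₁)
    (h₂ : KP1 d₂ v₂ ε₂) (d : Box K S₁ S₂ X₁ X₂ →ₗ[K] Box K S₁ S₂ X₁ X₂)
    (hd : ∀ x y, d (Box.mk K S₁ S₂ x y) = Box.mk K S₁ S₂ (d₁ x) y + Box.mk K S₁ S₂ x (d₂ y)) :
    KP1 d (Box.mk K S₁ S₂ v₁ v₂) (Box.fmul ε₁ ε₂) := by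
  have h := KP.box (T₁ := K) (T₂ := K) h2 h₁.kp h₂.kp d hd
  refine ⟨h.dd, by simp [hd, h₁.dv, h₂.dv],
    Box.ext_add (Box.fmul ε₁ ε₂ ∘ₗ d) (0 : _ →ₗ[K] _) fun x y => by simp [hd, h₁.εd, h₂.εd],
    by simp [h₁.εv, h₂.εv], fun z hz hε => h.ex z hz ?_⟩
  have : ∀ z : Box K S₁ S₂ X₁ X₂, (Box.kmap ε₁ ε₂ : _ →ₗ[K] Box K K K K K) z =
      (LinearMap.toSpanSingleton K _ (Box.mk K K K (1 : K) (1 : K)) ∘ₗ Box.fmul ε₁ ε₂) z := by
    refine Box.ext_add _ _ fun x y => ?_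
    have : Box.mk K K K (ε₁ x) (ε₂ y) = Box.mk K K K (ε₁ x • (1 : K)) (ε₂ y • (1 : K)) := by simp
    rw [Box.kmap_mk, this, map_smul, map_smul]
    simp [smul_smul, mul_comm]
  rw [this]; simp [hε]

end KP

/-! ### Graded complexes with a global differential -/

/-- A complex with one global differential and orthogonal grading idempotents. -/
structure GCx (S X : Type*) [Ring S] [AddCommGroup X] [Module S X] where
  e : ℤ → X →ₗ[S] X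
  d : X →ₗ[S] X
  ee : ∀ n x, e n (e n x) = e n x
  eo : ∀ m n, m ≠ n → ∀ x, e m (e n x) = 0
  de : ∀ n x, d (e (n + 1) x) = e n (d x)
  dd : ∀ x, d (d x) = 0

namespace GCx

section
variable {S X : Type*} [Ring S] [AddCommGroup X] [Module S X] (P : GCx S X)

theorem de' (n : ℤ) (x : X) : P.d (P.e n x) = P.e (n - 1) (P.d x) := by
  have := P.de (n - 1) x
  rwa [sub_add_cancel] at this

/-- The associated complex with one differential in each degree. -/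
def toCx : Cx S X where
  e := P.e
  d n := P.e n ∘ₗ P.d
  ee := P.ee
  ed n x := P.ee n _
  de n x := by simp [P.de, P.ee]
  dd n x := by simp [P.de, P.dd]

@[simp] theorem toCx_e (n : ℤ) : P.toCx.e n = P.e n := rfl
@[simp] theorem toCx_d (n : ℤ) (x : X) : P.toCx.d n x = P.e n (P.d x) := rfl

theorem toCx_exactAt (n : ℤ) (h : ∀ x, P.e n x = x → P.d x = 0 → ∃ w, P.d w = x) :
    P.toCx.ExactAt n := by
  intro x hx hd
  simp only [toCx_e, toCx_d] at hx hd ⊢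
  rw [← P.de', hx] at hd
  obtain ⟨w, hw⟩ := h x hx hd
  exact ⟨w, by rw [hw, hx]⟩

variable {Y : Type*} [AddCommGroup Y] [Module S Y] (Q : GCx S Y)

/-- The cocone of a chain map (characteristic two, no signs). -/
def cocone (c : X →ₗ[S] Y) (hce : ∀ n x, c (P.e n x) = Q.e n (c x))
    (hcd : ∀ x, c (P.d x) = Q.d (c x)) (h2 : ∀ y : Y, y + y = 0) : GCx S (X × Y) where
  e n := (P.e n).prodMap (Q.e (n + 1))
  d := (P.d ∘ₗ LinearMap.fst S X Y).prod (c.coprod Q.d)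
  ee n x := by simp [P.ee, Q.ee]
  eo m n h x := by simp [P.eo m n h, Q.eo (m + 1) (n + 1) (by omega)]
  de n x := by simp [P.de, Q.de, hce]
  dd x := by simp [P.dd, Q.dd, hcd, h2]

@[simp] theorem cocone_e (c : X →ₗ[S] Y) (hce hcd h2) (n : ℤ) (x : X × Y) :
    (P.cocone Q c hce hcd h2).e n x = (P.e n x.1, Q.e (n + 1) x.2) := rfl

@[simp] theorem cocone_d (c : X →ₗ[S] Y) (hce hcd h2) (x : X × Y) :
    (P.cocone Q c hce hcd h2).d x = (P.d x.1, c x.1 + Q.d x.2) := rfl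

end

variable {K S₁ S₂ : Type*} [Field K] [Ring S₁] [Ring S₂] [Algebra K S₁] [Algebra K S₂]
variable {X₁ X₂ : Type*} [AddCommGroup X₁] [Module K X₁] [Module S₁ X₁] [IsScalarTower K S₁ X₁]
  [AddCommGroup X₂] [Module K X₂] [Module S₂ X₂] [IsScalarTower K S₂ X₂]
variable (P : GCx S₁ X₁) (Q : GCx S₂ X₂)

/-- Only finitely many bidegrees contribute to each total degree. -/
def BoxFin : Prop := ∀ n : ℤ, {i | P.e i ≠ 0 ∧ Q.e (n - i) ≠ 0}.Finite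

variable {P Q}

theorem BoxFin.supp (h : BoxFin P Q) (n : ℤ) {V : Type*} [AddCommMonoid V] (g : ℤ → V)
    (hg : ∀ i, P.e i = 0 ∨ Q.e (n - i) = 0 → g i = 0) : g.HasFiniteSupport :=
  (h n).subset fun i hi => by
    by_contra hc
    simp only [Set.mem_ofPred_eq, not_and_or, not_not] at hc
    exact hi (hg i hc)

variable (K) in
/-- Grading idempotents of the tensor product. -/
noncomputable def boxE (n : ℤ) : Box K S₁ S₂ X₁ X₂ →ₗ[S₁ ⊗[K] S₂] Box K S₁ S₂ X₁ X₂ :=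
  ∑ᶠ i, Box.map (P.e i) (Q.e (n - i))

theorem boxE_supp (h : BoxFin P Q) (n : ℤ) :
    (fun i => Box.map (K := K) (P.e i) (Q.e (n - i))).HasFiniteSupport :=
  h.supp n _ fun i hi => LinearMap.ext (Box.ext_add _ _ (by rcases hi with hi | hi <;> simp [hi]))

theorem map_boxE (h : BoxFin P Q) (n : ℤ) {V F : Type*} [AddCommGroup V]
    [FunLike F (Box K S₁ S₂ X₁ X₂) V] [AddMonoidHomClass F (Box K S₁ S₂ X₁ X₂) V] (f : F)
    (x : X₁) (y : X₂) :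
    f (boxE K (P := P) (Q := Q) n (Box.mk K S₁ S₂ x y)) =
      ∑ᶠ i, f (Box.mk K S₁ S₂ (P.e i x) (Q.e (n - i) y)) := by
  let ev : (Box K S₁ S₂ X₁ X₂ →ₗ[S₁ ⊗[K] S₂] Box K S₁ S₂ X₁ X₂) →+ V :=
    { toFun := fun a => f (a (Box.mk K S₁ S₂ x y))
      map_zero' := by simp
      map_add' := by simp }
  exact ev.map_finsum (boxE_supp h n)

theorem boxE_mk (h : BoxFin P Q) (n : ℤ) (x : X₁) (y : X₂) :
    boxE K (P := P) (Q := Q) n (Box.mk K S₁ S₂ x y) =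
      ∑ᶠ i, Box.mk K S₁ S₂ (P.e i x) (Q.e (n - i) y) :=
  map_boxE h n (AddMonoidHom.id _) x y

theorem boxE_left (h : BoxFin P Q) (n a : ℤ) {x : X₁} (hx : P.e a x = x) (y : X₂) :
    boxE K (P := P) (Q := Q) n (Box.mk K S₁ S₂ x y) = Box.mk K S₁ S₂ x (Q.e (n - a) y) := by
  rw [boxE_mk h, finsum_eq_single _ a, hx]
  intro i hi
  rw [← hx, P.eo i a hi]; simp

theorem map_boxE_left (h : BoxFin P Q) (n a : ℤ) {V F : Type*} [AddCommGroup V]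
    [FunLike F (Box K S₁ S₂ X₁ X₂) V] [AddMonoidHomClass F (Box K S₁ S₂ X₁ X₂) V] (f : F)
    (hf : ∀ x y, f (Box.mk K S₁ S₂ (P.e a x) y) = f (Box.mk K S₁ S₂ x y)) (x : X₁) (y : X₂) :
    f (boxE K (P := P) (Q := Q) n (Box.mk K S₁ S₂ x y)) =
      f (Box.mk K S₁ S₂ x (Q.e (n - a) y)) := by
  rw [map_boxE h, finsum_eq_single _ a, hf]
  intro i hi
  rw [← hf, P.eo a i (Ne.symm hi)]; simp

variable (P Q)

/-- Tensor product of graded complexes in characteristic two. -/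
noncomputable def box (h2 : (2 : K) = 0) (h : BoxFin P Q) :
    GCx (S₁ ⊗[K] S₂) (Box K S₁ S₂ X₁ X₂) where
  e := boxE K (P := P) (Q := Q)
  d := Box.map P.d LinearMap.id + Box.map LinearMap.id Q.d
  ee n := Box.ext_add (boxE K n ∘ₗ boxE K n) (boxE K n) fun x y => by
    rw [LinearMap.comp_apply, map_boxE h, boxE_mk h]
    refine finsum_congr fun i => ?_
    rw [boxE_left h n i (P.ee i x), Q.ee]
  eo m n hmn := Box.ext_add (boxE K m ∘ₗ boxE K n) (0 : _ →ₗ[S₁ ⊗[K] S₂] _) fun x y => by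
    rw [LinearMap.comp_apply, map_boxE h, LinearMap.zero_apply, ← finsum_zero (α := ℤ)]
    refine finsum_congr fun i => ?_
    rw [boxE_left h m i (P.ee i x), Q.eo _ _ (by omega), map_zero]
  de n := Box.ext_add ((Box.map P.d LinearMap.id + Box.map LinearMap.id Q.d) ∘ₗ boxE K (n + 1))
      (boxE K n ∘ₗ (Box.map P.d LinearMap.id + Box.map LinearMap.id Q.d)) fun x y => by
    simp only [LinearMap.comp_apply, LinearMap.add_apply, Box.map_mk, LinearMap.id_apply, map_add]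
    rw [map_boxE h, map_boxE h, boxE_mk h, boxE_mk h]
    congr 1
    · rw [← finsum_comp_equiv (Equiv.addRight (1 : ℤ))]
      refine finsum_congr fun i => ?_
      simp [P.de]
    · refine finsum_congr fun i => ?_
      have : n + 1 - i = n - i + 1 := by ring
      simp [this, Q.de]
  dd := Box.ext_add ((Box.map P.d LinearMap.id + Box.map LinearMap.id Q.d) ∘ₗ
      (Box.map P.d LinearMap.id + Box.map LinearMap.id Q.d)) (0 : _ →ₗ[S₁ ⊗[K] S₂] _)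
      fun x y => by simp [P.dd, Q.dd, addself h2]

theorem box_e (h2 : (2 : K) = 0) (h : BoxFin P Q) (n : ℤ) :
    (P.box Q h2 h).e n = boxE K (P := P) (Q := Q) n := rfl

@[simp] theorem box_d_mk (h2 : (2 : K) = 0) (h : BoxFin P Q) (x : X₁) (y : X₂) :
    (P.box Q h2 h).d (Box.mk K S₁ S₂ x y) =
      Box.mk K S₁ S₂ (P.d x) y + Box.mk K S₁ S₂ x (Q.d y) := rfl

variable {P Q}

theorem box_fp (h2 : (2 : K) = 0) (h : BoxFin P Q) (n : ℤ)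
    (hfp : ∀ i, P.e i ≠ 0 → Q.e (n - i) ≠ 0 → FP (P.e i) ∧ FP (Q.e (n - i))) :
    FP ((P.box Q h2 h).e n) := by
  refine finsum_induction FP FP.zero (fun _ _ => FP.add) fun i => ?_
  by_cases h1 : P.e i = 0
  · exact FP.zero.congr (Box.ext_add _ _ (by simp [h1]))
  by_cases h2 : Q.e (n - i) = 0
  · exact FP.zero.congr (Box.ext_add _ _ (by simp [h2]))
  exact Box.fp_map (hfp i h1 h2).1 (hfp i h1 h2).2

theorem box_e_eq_zero (h2 : (2 : K) = 0) (h : BoxFin P Q) (n : ℤ)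
    (h0 : ∀ i, P.e i = 0 ∨ Q.e (n - i) = 0) : (P.box Q h2 h).e n = 0 := by
  rw [box_e, boxE, ← finsum_zero (α := ℤ)]
  refine finsum_congr fun i => LinearMap.ext (Box.ext_add _ _ ?_)
  rcases h0 i with hi | hi <;> simp [hi]

theorem boxFin_of_ge {a b : ℤ} (hP : ∀ i, i < a → P.e i = 0) (hQ : ∀ i, i < b → Q.e i = 0) :
    BoxFin P Q := fun n =>
  (Set.finite_Icc a (n - b)).subset fun i hi =>
    ⟨not_lt.1 fun h => hi.1 (hP i h), not_lt.1 fun h => hi.2 (hQ _ (by omega))⟩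

theorem boxFin_of_le {a b : ℤ} (hP : ∀ i, a < i → P.e i = 0) (hQ : ∀ i, b < i → Q.e i = 0) :
    BoxFin P Q := fun n =>
  (Set.finite_Icc (n - b) a).subset fun i hi =>
    ⟨not_lt.1 fun h => hi.2 (hQ _ (by omega)), not_lt.1 fun h => hi.1 (hP i h)⟩

variable {T₁ T₂ : Type*} [Ring T₁] [Ring T₂] [Algebra K T₁] [Algebra K T₂]
variable {Y₁ Y₂ : Type*} [AddCommGroup Y₁] [Module K Y₁] [Module T₁ Y₁] [IsScalarTower K T₁ Y₁]
  [AddCommGroup Y₂] [Module K Y₂] [Module T₂ Y₂] [IsScalarTower K T₂ Y₂]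

/-- The tensor product of degree-preserving maps preserves degrees. -/
theorem kmap_boxE {P' : GCx T₁ Y₁} {Q' : GCx T₂ Y₂} (h : BoxFin P Q) (h' : BoxFin P' Q')
    (f : X₁ →ₗ[K] Y₁) (g : X₂ →ₗ[K] Y₂) (hf : ∀ n x, f (P.e n x) = P'.e n (f x))
    (hg : ∀ n x, g (Q.e n x) = Q'.e n (g x)) (n : ℤ) (z : Box K S₁ S₂ X₁ X₂) :
    (Box.kmap f g : _ →ₗ[K] Box K T₁ T₂ Y₁ Y₂) (boxE K (P := P) (Q := Q) n z) =
      boxE K (P := P') (Q := Q') n (Box.kmap f g z) := by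
  refine Box.ext_add ((Box.kmap f g : _ →ₗ[K] Box K T₁ T₂ Y₁ Y₂) ∘ₗ
    (boxE K (P := P) (Q := Q) n).restrictScalars K)
    ((boxE K (P := P') (Q := Q') n).restrictScalars K ∘ₗ Box.kmap f g) (fun x y => ?_) z
  simp only [LinearMap.comp_apply, LinearMap.restrictScalars_apply, Box.kmap_mk]
  rw [map_boxE h, boxE_mk h']
  simp [hf, hg]

end GCx

end Crest.Agent.R186
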