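import Mathlib

/-! The ten-dimensional algebra `C = End_A(A ⊕ A/(x+y))`, `A = K<x,y>/(x², y², xy + q yx)`,
written with the diagrammatic product.  Basis: `u = 1_A, x, y, s = yx`, `p = π, pp = yπ`,
`i = ι, k = ιx`, `e = 1_M, z`. -/

set_option autoImplicit false
set_option linter.unusedSectionVars false

namespace Crest.Agent.R186

/-- Coordinates of an element of the algebra `C`. -/
@[ext] structure CA {K : Type*} (q : K) where
  u : K
  x : K
  y : K
  s : K
  p : K
  pp : K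
  i : K
  k : K
  e : K
  z : K

namespace CA

variable {K : Type*} [Field K] {q : K}

/-- Coordinates as a function. -/
def equivFun : CA q ≃ (Fin 10 → K) where
  toFun a := ![a.u, a.x, a.y, a.s, a.p, a.pp, a.i, a.k, a.e, a.z]
  invFun f := ⟨f 0, f 1, f 2, f 3, f 4, f 5, f 6, f 7, f 8, f 9⟩
  left_inv _ := rfl
  right_inv f := by ext i; fin_cases i <;> rfl

instance : Zero (CA q) := ⟨⟨0, 0, 0, 0, 0, 0, 0, 0, 0, 0⟩⟩
instance : One (CA q) := ⟨⟨1, 0, 0, 0, 0, 0, 0, 0, 1, 0⟩⟩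
instance : Add (CA q) := ⟨fun a b => ⟨a.u + b.u, a.x + b.x, a.y + b.y, a.s + b.s, a.p + b.p,
  a.pp + b.pp, a.i + b.i, a.k + b.k, a.e + b.e, a.z + b.z⟩⟩
instance : Neg (CA q) := ⟨fun a => ⟨-a.u, -a.x, -a.y, -a.s, -a.p, -a.pp, -a.i, -a.k, -a.e, -a.z⟩⟩
instance : Sub (CA q) := ⟨fun a b => ⟨a.u - b.u, a.x - b.x, a.y - b.y, a.s - b.s, a.p - b.p,
  a.pp - b.pp, a.i - b.i, a.k - b.k, a.e - b.e, a.z - b.z⟩⟩
instance {R : Type*} [SMul R K] : SMul R (CA q) := ⟨fun c a => ⟨c • a.u, c • a.x, c • a.y,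
  c • a.s, c • a.p, c • a.pp, c • a.i, c • a.k, c • a.e, c • a.z⟩⟩
instance : Mul (CA q) := ⟨fun a b =>
  { u := a.u * b.u
    x := a.u * b.x + a.x * b.u + q * (a.p * b.i)
    y := a.u * b.y + a.y * b.u + a.p * b.i
    s := a.u * b.s + a.s * b.u - q * (a.x * b.y) + a.y * b.x + a.p * b.k + q * (a.pp * b.i)
    p := a.u * b.p + a.p * b.e
    pp := a.u * b.pp + a.pp * b.e - a.x * b.p + a.y * b.p + a.p * b.z
    i := a.e * b.i + a.i * b.u
    k := a.e * b.k + a.k * b.u + a.i * b.x - q ^ 2 * (a.i * b.y) + q * (a.z * b.i)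
    e := a.e * b.e
    z := a.e * b.z + a.z * b.e + (1 - q) * (a.i * b.p) }⟩

section simp_lemmas
variable (a b : CA q) {R : Type*} [SMul R K] (c : R)
@[simp] theorem zero_u : (0 : CA q).u = 0 := rfl
@[simp] theorem one_u : (1 : CA q).u = 1 := rfl
@[simp] theorem add_u : (a + b).u = a.u + b.u := rfl
@[simp] theorem neg_u : (-a).u = -a.u := rfl
@[simp] theorem sub_u : (a - b).u = a.u - b.u := rfl
@[simp] theorem smul_u : (c • a).u = c • a.u := rfl
@[simp] theorem mul_u : (a * b).u =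
    a.u * b.u := rfl
@[simp] theorem zero_x : (0 : CA q).x = 0 := rfl
@[simp] theorem one_x : (1 : CA q).x = 0 := rfl
@[simp] theorem add_x : (a + b).x = a.x + b.x := rfl
@[simp] theorem neg_x : (-a).x = -a.x := rfl
@[simp] theorem sub_x : (a - b).x = a.x - b.x := rfl
@[simp] theorem smul_x : (c • a).x = c • a.x := rfl
@[simp] theorem mul_x : (a * b).x =
    a.u * b.x + a.x * b.u + q * (a.p * b.i) := rfl
@[simp] theorem zero_y : (0 : CA q).y = 0 := rfl
@[simp] theorem one_y : (1 : CA q).y = 0 := rfl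
@[simp] theorem add_y : (a + b).y = a.y + b.y := rfl
@[simp] theorem neg_y : (-a).y = -a.y := rfl
@[simp] theorem sub_y : (a - b).y = a.y - b.y := rfl
@[simp] theorem smul_y : (c • a).y = c • a.y := rfl
@[simp] theorem mul_y : (a * b).y =
    a.u * b.y + a.y * b.u + a.p * b.i := rfl
@[simp] theorem zero_s : (0 : CA q).s = 0 := rfl
@[simp] theorem one_s : (1 : CA q).s = 0 := rfl
@[simp] theorem add_s : (a + b).s = a.s + b.s := rfl
@[simp] theorem neg_s : (-a).s = -a.s := rfl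
@[simp] theorem sub_s : (a - b).s = a.s - b.s := rfl
@[simp] theorem smul_s : (c • a).s = c • a.s := rfl
@[simp] theorem mul_s : (a * b).s =
    a.u * b.s + a.s * b.u - q * (a.x * b.y) + a.y * b.x + a.p * b.k + q * (a.pp * b.i) := rfl
@[simp] theorem zero_p : (0 : CA q).p = 0 := rfl
@[simp] theorem one_p : (1 : CA q).p = 0 := rfl
@[simp] theorem add_p : (a + b).p = a.p + b.p := rfl
@[simp] theorem neg_p : (-a).p = -a.p := rfl
@[simp] theorem sub_p : (a - b).p = a.p - b.p := rfl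
@[simp] theorem smul_p : (c • a).p = c • a.p := rfl
@[simp] theorem mul_p : (a * b).p =
    a.u * b.p + a.p * b.e := rfl
@[simp] theorem zero_pp : (0 : CA q).pp = 0 := rfl
@[simp] theorem one_pp : (1 : CA q).pp = 0 := rfl
@[simp] theorem add_pp : (a + b).pp = a.pp + b.pp := rfl
@[simp] theorem neg_pp : (-a).pp = -a.pp := rfl
@[simp] theorem sub_pp : (a - b).pp = a.pp - b.pp := rfl
@[simp] theorem smul_pp : (c • a).pp = c • a.pp := rfl
@[simp] theorem mul_pp : (a * b).pp =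
    a.u * b.pp + a.pp * b.e - a.x * b.p + a.y * b.p + a.p * b.z := rfl
@[simp] theorem zero_i : (0 : CA q).i = 0 := rfl
@[simp] theorem one_i : (1 : CA q).i = 0 := rfl
@[simp] theorem add_i : (a + b).i = a.i + b.i := rfl
@[simp] theorem neg_i : (-a).i = -a.i := rfl
@[simp] theorem sub_i : (a - b).i = a.i - b.i := rfl
@[simp] theorem smul_i : (c • a).i = c • a.i := rfl
@[simp] theorem mul_i : (a * b).i =
    a.e * b.i + a.i * b.u := rfl
@[simp] theorem zero_k : (0 : CA q).k = 0 := rfl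
@[simp] theorem one_k : (1 : CA q).k = 0 := rfl
@[simp] theorem add_k : (a + b).k = a.k + b.k := rfl
@[simp] theorem neg_k : (-a).k = -a.k := rfl
@[simp] theorem sub_k : (a - b).k = a.k - b.k := rfl
@[simp] theorem smul_k : (c • a).k = c • a.k := rfl
@[simp] theorem mul_k : (a * b).k =
    a.e * b.k + a.k * b.u + a.i * b.x - q ^ 2 * (a.i * b.y) + q * (a.z * b.i) := rfl
@[simp] theorem zero_e : (0 : CA q).e = 0 := rfl
@[simp] theorem one_e : (1 : CA q).e = 1 := rfl
@[simp] theorem add_e : (a + b).e = a.e + b.e := rfl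
@[simp] theorem neg_e : (-a).e = -a.e := rfl
@[simp] theorem sub_e : (a - b).e = a.e - b.e := rfl
@[simp] theorem smul_e : (c • a).e = c • a.e := rfl
@[simp] theorem mul_e : (a * b).e =
    a.e * b.e := rfl
@[simp] theorem zero_z : (0 : CA q).z = 0 := rfl
@[simp] theorem one_z : (1 : CA q).z = 0 := rfl
@[simp] theorem add_z : (a + b).z = a.z + b.z := rfl
@[simp] theorem neg_z : (-a).z = -a.z := rfl
@[simp] theorem sub_z : (a - b).z = a.z - b.z := rfl
@[simp] theorem smul_z : (c • a).z = c • a.z := rfl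
@[simp] theorem mul_z : (a * b).z =
    a.e * b.z + a.z * b.e + (1 - q) * (a.i * b.p) := rfl
end simp_lemmas

instance : AddCommGroup (CA q) :=
  Function.Injective.addCommGroup equivFun equivFun.injective
    (by ext i; fin_cases i <;> rfl) (fun _ _ => by ext i; fin_cases i <;> rfl)
    (fun _ => by ext i; fin_cases i <;> rfl) (fun _ _ => by ext i; fin_cases i <;> rfl)
    (fun _ _ => by ext i; fin_cases i <;> rfl) (fun _ _ => by ext i; fin_cases i <;> rfl)

instance : Module K (CA q) where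
  one_smul a := by ext <;> simp
  mul_smul a b c := by ext <;> simp [mul_assoc]
  smul_zero a := by ext <;> simp
  smul_add a b c := by ext <;> simp [mul_add]
  add_smul a b c := by ext <;> simp [add_mul]
  zero_smul a := by ext <;> simp

instance : Ring (CA q) :=
  { (inferInstance : AddCommGroup (CA q)) with
    mul := (· * ·)
    one := 1
    mul_assoc := fun a b c => by ext <;> simp <;> ring
    one_mul := fun a => by ext <;> simp
    mul_one := fun a => by ext <;> simp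
    zero_mul := fun a => by ext <;> simp
    mul_zero := fun a => by ext <;> simp
    left_distrib := fun a b c => by ext <;> simp <;> ring
    right_distrib := fun a b c => by ext <;> simp <;> ring }

instance : Algebra K (CA q) :=
  Algebra.ofModule (fun r a b => by ext <;> simp <;> ring) (fun r a b => by ext <;> simp <;> ring)

/-- Coordinates as a linear equivalence. -/
def linEquivFun : CA q ≃ₗ[K] (Fin 10 → K) :=
  { equivFun with
    map_add' := fun _ _ => by ext i; fin_cases i <;> rfl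
    map_smul' := fun _ _ => by ext i; fin_cases i <;> rfl }

instance : Module.Finite K (CA q) := Module.Finite.equiv linEquivFun.symm

/-- The character of the simple module at the vertex `M`. -/
def chi (q : K) : CA q →ₐ[K] K :=
  AlgHom.ofLinearMap { toFun := fun a => a.e, map_add' := fun _ _ => rfl, map_smul' := fun _ _ => rfl }
    rfl (fun _ _ => rfl)

@[simp] theorem chi_apply (a : CA q) : chi q a = a.e := rfl

/-- Basis elements. -/
def bu (q : K) : CA q := ⟨1, 0, 0, 0, 0, 0, 0, 0, 0, 0⟩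
def bx (q : K) : CA q := ⟨0, 1, 0, 0, 0, 0, 0, 0, 0, 0⟩
def by' (q : K) : CA q := ⟨0, 0, 1, 0, 0, 0, 0, 0, 0, 0⟩
def bs (q : K) : CA q := ⟨0, 0, 0, 1, 0, 0, 0, 0, 0, 0⟩
def bp (q : K) : CA q := ⟨0, 0, 0, 0, 1, 0, 0, 0, 0, 0⟩
def bpp (q : K) : CA q := ⟨0, 0, 0, 0, 0, 1, 0, 0, 0, 0⟩
def bi (q : K) : CA q := ⟨0, 0, 0, 0, 0, 0, 1, 0, 0, 0⟩
def bk (q : K) : CA q := ⟨0, 0, 0, 0, 0, 0, 0, 1, 0, 0⟩
def be (q : K) : CA q := ⟨0, 0, 0, 0, 0, 0, 0, 0, 1, 0⟩
def bz (q : K) : CA q := ⟨0, 0, 0, 0, 0, 0, 0, 0, 0, 1⟩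
@[simp] theorem bu_u : (bu q).u = 1 := rfl
@[simp] theorem bu_x : (bu q).x = 0 := rfl
@[simp] theorem bu_y : (bu q).y = 0 := rfl
@[simp] theorem bu_s : (bu q).s = 0 := rfl
@[simp] theorem bu_p : (bu q).p = 0 := rfl
@[simp] theorem bu_pp : (bu q).pp = 0 := rfl
@[simp] theorem bu_i : (bu q).i = 0 := rfl
@[simp] theorem bu_k : (bu q).k = 0 := rfl
@[simp] theorem bu_e : (bu q).e = 0 := rfl
@[simp] theorem bu_z : (bu q).z = 0 := rfl
@[simp] theorem bx_u : (bx q).u = 0 := rfl
@[simp] theorem bx_x : (bx q).x = 1 := rfl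
@[simp] theorem bx_y : (bx q).y = 0 := rfl
@[simp] theorem bx_s : (bx q).s = 0 := rfl
@[simp] theorem bx_p : (bx q).p = 0 := rfl
@[simp] theorem bx_pp : (bx q).pp = 0 := rfl
@[simp] theorem bx_i : (bx q).i = 0 := rfl
@[simp] theorem bx_k : (bx q).k = 0 := rfl
@[simp] theorem bx_e : (bx q).e = 0 := rfl
@[simp] theorem bx_z : (bx q).z = 0 := rfl
@[simp] theorem by'_u : (by' q).u = 0 := rfl
@[simp] theorem by'_x : (by' q).x = 0 := rfl
@[simp] theorem by'_y : (by' q).y = 1 := rfl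
@[simp] theorem by'_s : (by' q).s = 0 := rfl
@[simp] theorem by'_p : (by' q).p = 0 := rfl
@[simp] theorem by'_pp : (by' q).pp = 0 := rfl
@[simp] theorem by'_i : (by' q).i = 0 := rfl
@[simp] theorem by'_k : (by' q).k = 0 := rfl
@[simp] theorem by'_e : (by' q).e = 0 := rfl
@[simp] theorem by'_z : (by' q).z = 0 := rfl
@[simp] theorem bs_u : (bs q).u = 0 := rfl
@[simp] theorem bs_x : (bs q).x = 0 := rfl
@[simp] theorem bs_y : (bs q).y = 0 := rfl
@[simp] theorem bs_s : (bs q).s = 1 := rfl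
@[simp] theorem bs_p : (bs q).p = 0 := rfl
@[simp] theorem bs_pp : (bs q).pp = 0 := rfl
@[simp] theorem bs_i : (bs q).i = 0 := rfl
@[simp] theorem bs_k : (bs q).k = 0 := rfl
@[simp] theorem bs_e : (bs q).e = 0 := rfl
@[simp] theorem bs_z : (bs q).z = 0 := rfl
@[simp] theorem bp_u : (bp q).u = 0 := rfl
@[simp] theorem bp_x : (bp q).x = 0 := rfl
@[simp] theorem bp_y : (bp q).y = 0 := rfl
@[simp] theorem bp_s : (bp q).s = 0 := rfl
@[simp] theorem bp_p : (bp q).p = 1 := rfl
@[simp] theorem bp_pp : (bp q).pp = 0 := rfl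
@[simp] theorem bp_i : (bp q).i = 0 := rfl
@[simp] theorem bp_k : (bp q).k = 0 := rfl
@[simp] theorem bp_e : (bp q).e = 0 := rfl
@[simp] theorem bp_z : (bp q).z = 0 := rfl
@[simp] theorem bpp_u : (bpp q).u = 0 := rfl
@[simp] theorem bpp_x : (bpp q).x = 0 := rfl
@[simp] theorem bpp_y : (bpp q).y = 0 := rfl
@[simp] theorem bpp_s : (bpp q).s = 0 := rfl
@[simp] theorem bpp_p : (bpp q).p = 0 := rfl
@[simp] theorem bpp_pp : (bpp q).pp = 1 := rfl
@[simp] theorem bpp_i : (bpp q).i = 0 := rfl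
@[simp] theorem bpp_k : (bpp q).k = 0 := rfl
@[simp] theorem bpp_e : (bpp q).e = 0 := rfl
@[simp] theorem bpp_z : (bpp q).z = 0 := rfl
@[simp] theorem bi_u : (bi q).u = 0 := rfl
@[simp] theorem bi_x : (bi q).x = 0 := rfl
@[simp] theorem bi_y : (bi q).y = 0 := rfl
@[simp] theorem bi_s : (bi q).s = 0 := rfl
@[simp] theorem bi_p : (bi q).p = 0 := rfl
@[simp] theorem bi_pp : (bi q).pp = 0 := rfl
@[simp] theorem bi_i : (bi q).i = 1 := rfl
@[simp] theorem bi_k : (bi q).k = 0 := rfl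
@[simp] theorem bi_e : (bi q).e = 0 := rfl
@[simp] theorem bi_z : (bi q).z = 0 := rfl
@[simp] theorem bk_u : (bk q).u = 0 := rfl
@[simp] theorem bk_x : (bk q).x = 0 := rfl
@[simp] theorem bk_y : (bk q).y = 0 := rfl
@[simp] theorem bk_s : (bk q).s = 0 := rfl
@[simp] theorem bk_p : (bk q).p = 0 := rfl
@[simp] theorem bk_pp : (bk q).pp = 0 := rfl
@[simp] theorem bk_i : (bk q).i = 0 := rfl
@[simp] theorem bk_k : (bk q).k = 1 := rfl
@[simp] theorem bk_e : (bk q).e = 0 := rfl
@[simp] theorem bk_z : (bk q).z = 0 := rfl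
@[simp] theorem be_u : (be q).u = 0 := rfl
@[simp] theorem be_x : (be q).x = 0 := rfl
@[simp] theorem be_y : (be q).y = 0 := rfl
@[simp] theorem be_s : (be q).s = 0 := rfl
@[simp] theorem be_p : (be q).p = 0 := rfl
@[simp] theorem be_pp : (be q).pp = 0 := rfl
@[simp] theorem be_i : (be q).i = 0 := rfl
@[simp] theorem be_k : (be q).k = 0 := rfl
@[simp] theorem be_e : (be q).e = 1 := rfl
@[simp] theorem be_z : (be q).z = 0 := rfl
@[simp] theorem bz_u : (bz q).u = 0 := rfl
@[simp] theorem bz_x : (bz q).x = 0 := rfl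
@[simp] theorem bz_y : (bz q).y = 0 := rfl
@[simp] theorem bz_s : (bz q).s = 0 := rfl
@[simp] theorem bz_p : (bz q).p = 0 := rfl
@[simp] theorem bz_pp : (bz q).pp = 0 := rfl
@[simp] theorem bz_i : (bz q).i = 0 := rfl
@[simp] theorem bz_k : (bz q).k = 0 := rfl
@[simp] theorem bz_e : (bz q).e = 0 := rfl
@[simp] theorem bz_z : (bz q).z = 1 := rfl

theorem eq_sum (a : CA q) : a = a.u • bu q + a.x • bx q + a.y • by' q + a.s • bs q + a.p • bp q +
    a.pp • bpp q + a.i • bi q + a.k • bk q + a.e • be q + a.z • bz q := by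
  ext <;> simp

end CA

end Crest.Agent.R186
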