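import Crest.Agent.R186.Box

/-! Linear complexes: one cyclic projective `S ε n` in each degree, with differentials given by
right multiplications. -/

set_option autoImplicit false
set_option linter.unusedSectionVars false

namespace Crest.Agent.R186

/-- Idempotents `ε n` and elements `a n ∈ ε (n + 1) S ε n` with `a (n + 1) * a n = 0`. -/
structure LinD (S : Type*) [Ring S] where
  ε : ℤ → S
  a : ℤ → S
  idem : ∀ n, ε n * ε n = ε n
  εa : ∀ n, ε (n + 1) * a n = a n
  aε : ∀ n, a n * ε n = a n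
  aa : ∀ n, a (n + 1) * a n = 0

/-- Shift by `k` followed by pointwise right multiplication. -/
noncomputable def shiftMul {S : Type*} [Ring S] (k : ℤ) (c : ℤ → S) :
    (ℤ →₀ S) →ₗ[S] (ℤ →₀ S) where
  toFun v := Finsupp.onFinset (v.support.image (· - k)) (fun n => v (n + k) * c n)
    (fun n hn => Finset.mem_image.2 ⟨n + k, Finsupp.mem_support_iff.2
      (fun h => hn (by rw [h, zero_mul])), by ring⟩)
  map_add' v w := by ext n; simp [add_mul]
  map_smul' s v := by ext n; simp [mul_assoc]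

@[simp] theorem shiftMul_apply {S : Type*} [Ring S] (k : ℤ) (c : ℤ → S) (v : ℤ →₀ S) (n : ℤ) :
    shiftMul k c v n = v (n + k) * c n := rfl

namespace LinD

variable {S : Type*} [Ring S] (L L' : LinD S)

/-- The direct sum of the modules `S ε n`. -/
def X : Submodule S (ℤ →₀ S) where
  carrier := {v | ∀ n, v n * L.ε n = v n}
  add_mem' {v w} hv hw n := by simp [add_mul, hv n, hw n]
  zero_mem' n := by simp
  smul_mem' s v hv n := by simp [mul_assoc, hv n]

theorem mem_X {v : ℤ →₀ S} : v ∈ L.X ↔ ∀ n, v n * L.ε n = v n := Iff.rfl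

variable {L} in
theorem mul_ε (v : L.X) (n : ℤ) : (v : ℤ →₀ S) n * L.ε n = (v : ℤ →₀ S) n := v.2 n

variable {L} in
@[ext] theorem X_ext {v w : L.X} (h : ∀ n, (v : ℤ →₀ S) n = (w : ℤ →₀ S) n) : v = w :=
  Subtype.ext (Finsupp.ext h)

/-- Shift and right multiplication between two linear complexes. -/
noncomputable def sm (k : ℤ) (c : ℤ → S) (hc : ∀ n, c n * L'.ε n = c n) : L.X →ₗ[S] L'.X :=
  (shiftMul k c ∘ₗ L.X.subtype).codRestrict L'.X fun v n => by
    simp [mul_assoc, hc]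

@[simp] theorem sm_apply (k : ℤ) (c : ℤ → S) (hc : ∀ n, c n * L'.ε n = c n) (v : L.X) (n : ℤ) :
    (L.sm L' k c hc v : ℤ →₀ S) n = (v : ℤ →₀ S) (n + k) * c n := rfl

/-- The grading idempotents. -/
noncomputable def e (n : ℤ) : L.X →ₗ[S] L.X :=
  L.sm L 0 (fun m => if m = n then L.ε m else 0) fun m => by
    split_ifs <;> simp [L.idem]

theorem e_apply' (n : ℤ) (v : L.X) (m : ℤ) :
    (L.e n v : ℤ →₀ S) m = if m = n then (v : ℤ →₀ S) n else 0 := by
  rw [e, sm_apply, add_zero]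
  split_ifs with h
  · rw [mul_ε, h]
  · rw [mul_zero]

/-- The linear complex. -/
noncomputable def gcx : GCx S L.X where
  e := L.e
  d := L.sm L 1 L.a L.aε
  ee n x := by
    ext m
    simp only [e_apply', if_true]
  eo m n h x := by
    ext k
    simp [e_apply', h]
  de n x := by
    ext m
    simp only [e_apply', sm_apply, add_left_inj]
    split_ifs with h
    · rw [h]
    · rw [zero_mul]
  dd x := by
    ext m
    simp [mul_assoc, L.aa]

@[simp] theorem e_apply (n : ℤ) (v : L.X) (m : ℤ) :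
    (L.gcx.e n v : ℤ →₀ S) m = if m = n then (v : ℤ →₀ S) n else 0 := L.e_apply' n v m

@[simp] theorem d_apply (v : L.X) (n : ℤ) :
    (L.gcx.d v : ℤ →₀ S) n = (v : ℤ →₀ S) (n + 1) * L.a n := rfl

/-- A homogeneous element. -/
noncomputable def sg (n : ℤ) (x : S) (hx : x * L.ε n = x) : L.X :=
  ⟨Finsupp.single n x, fun m => by
    rw [Finsupp.single_apply]
    split_ifs with h
    · rw [← h, hx]
    · rw [zero_mul]⟩

@[simp] theorem sg_apply (n : ℤ) (x : S) (hx : x * L.ε n = x) (m : ℤ) :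
    (L.sg n x hx : ℤ →₀ S) m = if m = n then x else 0 := by
  change Finsupp.single n x m = _
  rw [Finsupp.single_apply]
  simp only [eq_comm]

theorem coe_sg (n : ℤ) (x : S) (hx : x * L.ε n = x) :
    (L.sg n x hx : ℤ →₀ S) = Finsupp.single n x := rfl

theorem e_sg (n : ℤ) (x : S) (hx : x * L.ε n = x) : L.gcx.e n (L.sg n x hx) = L.sg n x hx := by
  ext m; simp

/-- The coordinate of degree `n`. -/
noncomputable def co (n : ℤ) : L.X →ₗ[S] S := Finsupp.lapply n ∘ₗ L.X.subtype

@[simp] theorem co_apply (n : ℤ) (v : L.X) : L.co n v = (v : ℤ →₀ S) n := rfl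

/-- The generator of degree `n`. -/
noncomputable def gen (n : ℤ) : L.X := L.sg n (L.ε n) (L.idem n)

@[simp] theorem gen_apply (n m : ℤ) : (L.gen n : ℤ →₀ S) m = if m = n then L.ε n else 0 :=
  L.sg_apply _ _ _ _

theorem e_eq_sg (n : ℤ) (v : L.X) : L.gcx.e n v = L.sg n ((v : ℤ →₀ S) n) (mul_ε v n) := by
  ext m; simp

theorem e_eq_smul (n : ℤ) (v : L.X) : L.gcx.e n v = (v : ℤ →₀ S) n • L.gen n := by
  ext m
  simp only [e_apply, Submodule.coe_smul, Finsupp.smul_apply, gen_apply, smul_eq_mul]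
  split_ifs
  · rw [mul_ε]
  · rw [mul_zero]

theorem sg_eq_smul (n : ℤ) (x : S) (hx : x * L.ε n = x) : L.sg n x hx = x • L.gen n := by
  rw [← e_sg, e_eq_smul]; simp

theorem e_gen (n : ℤ) : L.gcx.e n (L.gen n) = L.gen n := L.e_sg _ _ _

theorem fp (n : ℤ) : FP (X := L.X) (Y := L.X) (L.gcx.e n) :=
  (FP.one (L.co n) (L.gen n)).congr fun v => by simp [e_eq_smul]

theorem e_eq_zero (n : ℤ) (h : L.ε n = 0) : L.gcx.e n = 0 := by
  ext v m
  have : (v : ℤ →₀ S) n = 0 := by rw [← mul_ε v n, h, mul_zero]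
  simp [this]

variable {L} in
theorem coord_eq_zero (v : L.X) {n : ℤ} (h : L.ε n = 0) : (v : ℤ →₀ S) n = 0 := by
  rw [← mul_ε v n, h, mul_zero]

/-- Pointwise right multiplication. -/
noncomputable def hom (c : ℤ → S) (_h1 : ∀ n, L.ε n * c n = c n) (h2 : ∀ n, c n * L'.ε n = c n) :
    L.X →ₗ[S] L'.X := L.sm L' 0 c h2

@[simp] theorem hom_apply (c : ℤ → S) (h1 : ∀ n, L.ε n * c n = c n)
    (h2 : ∀ n, c n * L'.ε n = c n) (v : L.X) (n : ℤ) :
    (L.hom L' c h1 h2 v : ℤ →₀ S) n = (v : ℤ →₀ S) n * c n := by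
  rw [hom, sm_apply, add_zero]

theorem hom_e (c : ℤ → S) (h1 : ∀ n, L.ε n * c n = c n) (h2 : ∀ n, c n * L'.ε n = c n)
    (n : ℤ) (v : L.X) :
    L.hom L' c h1 h2 (L.gcx.e n v) = L'.gcx.e n (L.hom L' c h1 h2 v) := by
  ext m
  simp only [hom_apply, e_apply]
  split_ifs with h
  · rw [h]
  · rw [zero_mul]

theorem hom_d (c : ℤ → S) (h1 : ∀ n, L.ε n * c n = c n) (h2 : ∀ n, c n * L'.ε n = c n)
    (h : ∀ n, L.a n * c n = c (n + 1) * L'.a n) (v : L.X) :
    L.hom L' c h1 h2 (L.gcx.d v) = L'.gcx.d (L.hom L' c h1 h2 v) := by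
  ext m
  simp only [hom_apply, d_apply, mul_assoc, h]

/-- Exactness can be checked one degree at a time. -/
theorem ex (P : S → Prop) (_hP : P 0)
    (h : ∀ n x, x * L.ε n = x → x * L.a (n - 1) = 0 → (n = 0 → P x) →
      ∃ y, y * L.ε (n + 1) = y ∧ y * L.a n = x)
    (v : L.X) (hd : L.gcx.d v = 0) (hv : P ((v : ℤ →₀ S) 0)) : ∃ w, L.gcx.d w = v := by
  have key : ∀ n, ∃ y, y * L.ε (n + 1) = y ∧ y * L.a n = (v : ℤ →₀ S) n ∧
      ((v : ℤ →₀ S) n = 0 → y = 0) := by
    intro n
    by_cases h0 : (v : ℤ →₀ S) n = 0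
    · exact ⟨0, by simp, by simp [h0], fun _ => rfl⟩
    · have h1 : (v : ℤ →₀ S) n * L.a (n - 1) = 0 := by
        have := L.d_apply v (n - 1)
        rw [hd, sub_add_cancel] at this
        exact this.symm
      obtain ⟨y, hy1, hy2⟩ := h n _ (mul_ε v n) h1 (fun hn => by rw [hn]; exact hv)
      exact ⟨y, hy1, hy2, fun h => absurd h h0⟩
  choose y hy1 hy2 hy3 using key
  refine ⟨⟨Finsupp.onFinset ((v : ℤ →₀ S).support.image (· + 1)) (fun n => y (n - 1))
    (fun n hn => Finset.mem_image.2 ⟨n - 1, Finsupp.mem_support_iff.2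
      (fun h => hn (hy3 _ h)), by ring⟩), fun n => ?_⟩, ?_⟩
  · have := hy1 (n - 1)
    rwa [sub_add_cancel] at this
  · ext n
    rw [d_apply]
    simp [hy2]

theorem sum_e (v : L.X) : ∑ n ∈ (v : ℤ →₀ S).support, L.gcx.e n v = v := by
  ext m
  rw [Submodule.coe_sum, Finsupp.finsetSum_apply]
  simp only [e_apply]
  rw [Finset.sum_ite_eq]
  split_ifs with h
  · rfl
  · exact (Finsupp.notMem_support_iff.1 h).symm

/-- An additive submonoid containing all homogeneous components contains the vector. -/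
theorem mem_of_e {A : Type*} [SetLike A L.X] [AddSubmonoidClass A L.X] (p : A) (v : L.X)
    (h : ∀ n, L.gcx.e n v ∈ p) : v ∈ p := by
  rw [← L.sum_e v]
  exact sum_mem fun n _ => h n

/-- A submodule containing all homogeneous components contains the vector. -/
theorem mem_of_sg {K : Type*} [Field K] [Algebra K S] (p : Submodule K L.X) (v : L.X)
    (h : ∀ n, L.gcx.e n v ∈ p) : v ∈ p := L.mem_of_e p v h

/-- An additive map killing all homogeneous components kills the vector. -/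
theorem map_eq_zero_of_e {V F : Type*} [AddCommMonoid V] [FunLike F L.X V]
    [AddMonoidHomClass F L.X V] (f : F) (v : L.X) (h : ∀ n, f (L.gcx.e n v) = 0) : f v = 0 := by
  rw [← L.sum_e v, map_sum]
  exact Finset.sum_eq_zero fun n _ => h n

end LinD

end Crest.Agent.R186
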