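import Crest.Agent.R186.Bar
import Crest.Agent.R186.Lin
import Crest.Agent.R186.CAlg

/-! The datum of the ten-dimensional algebra `C`. -/

set_option autoImplicit false
set_option linter.unusedSectionVars false
set_option linter.unusedSimpArgs false
set_option linter.unnecessarySeqFocus false

namespace Crest.Agent.R186

open scoped TensorProduct
open MulOpposite

namespace CA

variable {K : Type*} [Field K] (q : K)

/-- The projective resolution of the simple module. -/
noncomputable def pL : LinD (CA q) where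
  ε n := if n < 0 then 0 else if n = 0 then be q else bu q
  a n := if n < 0 then 0 else if n = 0 then bp q else bx q + q ^ (n - 1).toNat • by' q
  idem n := by split_ifs <;> ext <;> simp
  εa n := by split_ifs <;> first | omega | (ext <;> simp)
  aε n := by split_ifs <;> ext <;> simp
  aa n := by
    split_ifs with h1 h2 h3 h4 h5 h6
    any_goals omega
    any_goals exact mul_zero _
    · rw [show (n + 1 - 1).toNat = 0 by omega]
      ext <;> simp
    · rw [show (n + 1 - 1).toNat = (n - 1).toNat + 1 by omega]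
      ext <;> simp
      ring

/-- The bounded above complex. -/
noncomputable def qL : LinD (CA q) where
  ε n := if 2 < n then 0 else if n = 2 then be q else bu q
  a n := if 1 < n then 0 else if n = 1 then bi q else q ^ (2 - n).toNat • bx q + by' q
  idem n := by split_ifs <;> ext <;> simp
  εa n := by split_ifs <;> first | omega | (ext <;> simp)
  aε n := by split_ifs <;> first | omega | (ext <;> simp)
  aa n := by
    split_ifs with h1 h2 h3 h4 h5 h6
    any_goals omega
    any_goals exact zero_mul _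
    · rw [show (2 - n).toNat = 2 by omega]
      ext <;> simp
    · rw [show (2 - n).toNat = (2 - (n + 1)).toNat + 1 by omega]
      ext <;> simp
      ring

/-- The comparison map. -/
noncomputable def cc (n : ℤ) : CA q :=
  if n = 0 then -(q ^ 3) • bk q else if n = 1 then q ^ 2 • bx q else
    if n = 2 then q • bpp q else 0

theorem cc_left (n : ℤ) : (pL q).ε n * cc q n = cc q n := by
  simp only [pL, cc]
  split_ifs <;> first | omega | (ext <;> simp)

theorem cc_right (n : ℤ) : cc q n * (qL q).ε n = cc q n := by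
  simp only [qL, cc]
  split_ifs <;> first | omega | (ext <;> simp)

theorem cc_comm (n : ℤ) : (pL q).a n * cc q n = cc q (n + 1) * (qL q).a n := by
  rcases (by omega : n < -1 ∨ n = -1 ∨ n = 0 ∨ n = 1 ∨ n = 2 ∨ 2 < n) with
    h | rfl | rfl | rfl | rfl | h
  · simp only [cc]
    rw [if_neg (by omega), if_neg (by omega), if_neg (by omega), if_neg (by omega),
      if_neg (by omega), if_neg (by omega), mul_zero, zero_mul]
  · ext <;> simp [pL, qL, cc]
  · ext <;> simp [pL, qL, cc]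
    ring
  · ext <;> simp [pL, qL, cc]
    ring
  · ext <;> simp [pL, qL, cc]
  · simp only [cc]
    rw [if_neg (by omega), if_neg (by omega), if_neg (by omega), if_neg (by omega),
      if_neg (by omega), if_neg (by omega), mul_zero, zero_mul]

variable {q}

theorem mul_bu {x : CA q} (h : x * bu q = x) : x.p = 0 ∧ x.pp = 0 ∧ x.e = 0 ∧ x.z = 0 := by
  refine ⟨?_, ?_, ?_, ?_⟩ <;> rw [← h] <;> simp

theorem mul_be {x : CA q} (h : x * be q = x) :
    x.u = 0 ∧ x.x = 0 ∧ x.y = 0 ∧ x.s = 0 ∧ x.i = 0 ∧ x.k = 0 := by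
  refine ⟨?_, ?_, ?_, ?_, ?_, ?_⟩ <;> rw [← h] <;> simp

theorem p_ex (hq : ∀ n : ℕ, 0 < n → q ^ n ≠ 1) (n : ℤ) (x : CA q) (h1 : x * (pL q).ε n = x)
    (h2 : x * (pL q).a (n - 1) = 0) (h3 : n = 0 → x.e = 0) :
    ∃ y, y * (pL q).ε (n + 1) = y ∧ y * (pL q).a n = x := by
  rcases (by omega : n < 0 ∨ n = 0 ∨ n = 1 ∨ 1 < n) with h | rfl | rfl | h
  · simp only [pL, if_pos h, mul_zero] at h1
    exact ⟨0, by simp, by simp [← h1]⟩
  · have hq1 : 1 - q ≠ 0 := sub_ne_zero.2 (by simpa using (hq 1 one_pos).symm)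
    obtain ⟨e1, e2, e3, e4, e5, e6⟩ := mul_be (x := x) (by simpa [pL] using h1)
    refine ⟨x.p • bu q + x.pp • by' q + (x.z / (1 - q)) • bi q, ?_, ?_⟩
    · ext <;> simp [pL]
    · ext <;> simp [pL, e1, e2, e3, e4, e5, e6, h3 rfl]
      field_simp
  · have hq1 : 1 - q ≠ 0 := sub_ne_zero.2 (by simpa using (hq 1 one_pos).symm)
    have hq2 : 1 - q ^ 2 ≠ 0 := sub_ne_zero.2 (hq 2 two_pos).symm
    obtain ⟨e1, e2, e3, e4⟩ := mul_bu (x := x) (by simpa [pL] using h1)
    have h4 : x * bp q = 0 := by simpa [pL] using h2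
    have f1 : x.u = 0 := by simpa using congrArg CA.p h4
    have f2 : x.y = x.x := by
      have := congrArg CA.pp h4
      simp at this
      linear_combination this
    have f3 : x.i = 0 := by simpa [hq1] using congrArg CA.z h4
    refine ⟨x.x • bu q + x.s • by' q + (x.k / (1 - q ^ 2)) • bi q, ?_, ?_⟩
    · ext <;> simp [pL]
    · ext <;> simp [pL, e1, e2, e3, e4, f1, f2, f3]
      field_simp
  · obtain ⟨m, rfl⟩ : ∃ m : ℕ, n = m + 2 := ⟨(n - 2).toNat, by omega⟩
    have hq2 : 1 - q ^ (m + 2) ≠ 0 := sub_ne_zero.2 (hq _ (by omega)).symm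
    have hq3 : 1 - q ^ (m + 3) ≠ 0 := sub_ne_zero.2 (hq _ (by omega)).symm
    simp only [pL] at h1 h2 ⊢
    rw [if_neg (by omega), if_neg (by omega)] at h1 h2
    rw [if_neg (by omega), if_neg (by omega), if_neg (by omega), if_neg (by omega),
      show ((m : ℤ) + 2 - 1).toNat = m + 1 by omega]
    rw [show ((m : ℤ) + 2 - 1 - 1).toNat = m by omega] at h2
    obtain ⟨e1, e2, e3, e4⟩ := mul_bu h1
    have f1 : x.u = 0 := by simpa using congrArg CA.x h2
    have f2 : x.y = q ^ (m + 1) * x.x := by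
      have := congrArg CA.s h2
      simp at this
      linear_combination this
    have f3 : x.i = 0 := by
      have := congrArg CA.k h2
      simp at this
      exact (mul_eq_zero.1 (show (1 - q ^ (m + 2)) * x.i = 0 by
        linear_combination this)).resolve_left hq2
    refine ⟨x.x • bu q + x.s • by' q + (x.k / (1 - q ^ (m + 3))) • bi q, ?_, ?_⟩
    · ext <;> simp
    · ext <;> simp [e1, e2, e3, e4, f1, f2, f3]
      · ring
      · field_simp
        ring

theorem q_ex (hq0 : q ≠ 0) (hq : ∀ n : ℕ, 0 < n → q ^ n ≠ 1) (n : ℤ) (x : CA q)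
    (h1 : x * (qL q).ε n = x) (h2 : x * (qL q).a (n - 1) = 0) (h3 : n = 0 → x.k = 0) :
    ∃ y, y * (qL q).ε (n + 1) = y ∧ y * (qL q).a n = x := by
  rcases (by omega : 2 < n ∨ n = 2 ∨ n = 1 ∨ n ≤ 0) with h | rfl | rfl | h
  · simp only [qL, if_pos h, mul_zero] at h1
    exact ⟨0, by simp, by simp [← h1]⟩
  · obtain ⟨e1, e2, e3, e4, e5, e6⟩ := mul_be (x := x) (by simpa [qL] using h1)
    have h4 : x * bi q = 0 := by simpa [qL] using h2
    have f1 : x.p = 0 := by simpa using congrArg CA.y h4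
    have f2 : x.pp = 0 := by simpa [hq0] using congrArg CA.s h4
    have f3 : x.e = 0 := by simpa using congrArg CA.i h4
    have f4 : x.z = 0 := by simpa [hq0] using congrArg CA.k h4
    refine ⟨0, by simp, ?_⟩
    ext <;> simp [e1, e2, e3, e4, e5, e6, f1, f2, f3, f4]
  · obtain ⟨e1, e2, e3, e4⟩ := mul_bu (x := x) (by simpa [qL] using h1)
    have h4 : x * (q ^ 2 • bx q + by' q) = 0 := by simpa [qL] using h2
    have f1 : x.u = 0 := by simpa using congrArg CA.y h4
    have f2 : x.x = q * x.y := by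
      have := congrArg CA.s h4
      simp at this
      exact mul_left_cancel₀ hq0 (by linear_combination -this)
    refine ⟨x.y • bp q + (x.s / q) • bpp q + x.i • be q + (x.k / q) • bz q, ?_, ?_⟩
    · ext <;> simp [qL]
    · ext <;> simp [qL, e1, e2, e3, e4, f1, f2] <;> field_simp
  · obtain ⟨m, rfl⟩ : ∃ m : ℕ, n = -m := ⟨(-n).toNat, by omega⟩
    have hq2 : q ^ (m + 1) - 1 ≠ 0 := sub_ne_zero.2 (hq _ (by omega))
    simp only [qL] at h1 h2 ⊢
    rw [if_neg (by omega), if_neg (by omega)] at h1 h2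
    rw [if_neg (by omega), if_neg (by omega), if_neg (by omega), if_neg (by omega),
      show (2 - -(m : ℤ)).toNat = m + 2 by omega]
    rw [show (2 - (-(m : ℤ) - 1)).toNat = m + 3 by omega] at h2
    obtain ⟨e1, e2, e3, e4⟩ := mul_bu h1
    have f1 : x.u = 0 := by simpa using congrArg CA.y h2
    have f2 : x.x = q ^ (m + 2) * x.y := by
      have := congrArg CA.s h2
      simp at this
      exact mul_left_cancel₀ hq0 (by linear_combination -this)
    have f3 : x.i = 0 := by
      have := congrArg CA.k h2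
      simp at this
      exact (mul_eq_zero.1 (show (q ^ 2 * (q ^ (m + 1) - 1)) * x.i = 0 by
        linear_combination this)).resolve_left (mul_ne_zero (pow_ne_zero _ hq0) hq2)
    have f4 : (q ^ m - 1) * (x.k / (q ^ m - 1)) = x.k := by
      rcases Nat.eq_zero_or_pos m with rfl | hm
      · simp [h3 rfl]
      · exact mul_div_cancel₀ _ (sub_ne_zero.2 (hq m hm))
    refine ⟨x.y • bu q - (x.s / q) • bx q + (x.k / (q ^ m - 1) / q ^ 2) • bi q, ?_, ?_⟩
    · ext <;> simp
    · ext <;> simp [e1, e2, e3, e4, f1, f2, f3]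
      · ring
      · field_simp
      · generalize x.k / (q ^ m - 1) = t at f4
        rw [← f4]
        field_simp
        ring

variable (q)

/-- The four linear maps entering the cocycle. -/
def A1 : CA q →ₗ[K] CA q where
  toFun a := ⟨0, 0, 0, 0, q * a.y, a.s, 0, 0, q * a.i, a.k⟩
  map_add' _ _ := by ext <;> simp [mul_add]
  map_smul' _ _ := by ext <;> simp [mul_left_comm]

def A2 : CA q →ₗ[K] CA q where
  toFun a := ⟨0, 0, 0, 0, 0, a.y, 0, 0, 0, a.i⟩
  map_add' _ _ := by ext <;> simp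
  map_smul' _ _ := by ext <;> simp

def B1 : CA q →ₗ[K] CA q where
  toFun b := ⟨0, 0, 0, 0, 0, 0, 0, b.x, 0, b.p⟩
  map_add' _ _ := by ext <;> simp
  map_smul' _ _ := by ext <;> simp

def B2 : CA q →ₗ[K] CA q where
  toFun b := ⟨0, 0, 0, 0, 0, 0, b.x, q * b.s, q * b.p, q * b.pp⟩
  map_add' _ _ := by ext <;> simp [mul_add]
  map_smul' _ _ := by ext <;> simp [mul_left_comm]

theorem A1_apply (a : CA q) : A1 q a = ⟨0, 0, 0, 0, q * a.y, a.s, 0, 0, q * a.i, a.k⟩ := rfl
theorem A2_apply (a : CA q) : A2 q a = ⟨0, 0, 0, 0, 0, a.y, 0, 0, 0, a.i⟩ := rfl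
theorem B1_apply (b : CA q) : B1 q b = ⟨0, 0, 0, 0, 0, 0, 0, b.x, 0, b.p⟩ := rfl
theorem B2_apply (b : CA q) :
    B2 q b = ⟨0, 0, 0, 0, 0, 0, b.x, q * b.s, q * b.p, q * b.pp⟩ := rfl

variable {q}

theorem bil_expand {V : Type*} [AddCommGroup V] [Module K V] (Φ : CA q →ₗ[K] CA q →ₗ[K] V)
    (w v : CA q) (h : be q * v = v) :
    Φ w v = Φ (v.e • w) (be q) + Φ (v.z • w) (bz q) + Φ (v.i • w) (bi q) + Φ (v.k • w) (bk q) := by
  have hv : v = v.e • be q + v.z • bz q + v.i • bi q + v.k • bk q := by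
    rw [← h]
    ext <;> simp
  conv_lhs => rw [hv]
  simp only [map_add, map_smul, LinearMap.smul_apply]

theorem bil_zero {V : Type*} [AddCommGroup V] [Module K V] (Φ : CA q →ₗ[K] CA q →ₗ[K] V)
    (w₁ w₂ w₃ w₄ v₁ v₂ v₃ v₄ : CA q) (h₁ : be q * v₁ = v₁) (h₂ : be q * v₂ = v₂)
    (h₃ : be q * v₃ = v₃) (h₄ : be q * v₄ = v₄)
    (he : v₁.e • w₁ - v₂.e • w₂ + v₃.e • w₃ - v₄.e • w₄ = 0)
    (hz : v₁.z • w₁ - v₂.z • w₂ + v₃.z • w₃ - v₄.z • w₄ = 0)
    (hi : v₁.i • w₁ - v₂.i • w₂ + v₃.i • w₃ - v₄.i • w₄ = 0)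
    (hk : v₁.k • w₁ - v₂.k • w₂ + v₃.k • w₃ - v₄.k • w₄ = 0) :
    Φ w₁ v₁ - Φ w₂ v₂ + Φ w₃ v₃ - Φ w₄ v₄ = 0 := by
  rw [bil_expand Φ w₁ v₁ h₁, bil_expand Φ w₂ v₂ h₂, bil_expand Φ w₃ v₃ h₃, bil_expand Φ w₄ v₄ h₄]
  have e1 := congrArg (fun w => Φ w (be q)) he
  have e2 := congrArg (fun w => Φ w (bz q)) hz
  have e3 := congrArg (fun w => Φ w (bi q)) hi
  have e4 := congrArg (fun w => Φ w (bk q)) hk
  simp only [map_add, map_sub, map_zero, LinearMap.add_apply, LinearMap.sub_apply,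
    LinearMap.zero_apply] at e1 e2 e3 e4
  linear_combination (norm := abel) e1 + e2 + e3 + e4

variable {T : Type*} [Ring T] [Algebra K T] (E : Env K (CA q) T)

/-- `(w, v) ↦ l w * r v`. -/
noncomputable def lr : CA q →ₗ[K] CA q →ₗ[K] T :=
  (LinearMap.mul K T).compl₁₂ E.l.toLinearMap E.rl

theorem lr_apply (w v : CA q) : lr E w v = E.l w * E.r (op v) := rfl

/-- The cocycle. -/
noncomputable def coc : CA q →ₗ[K] CA q →ₗ[K] T :=
  (lr E).compl₁₂ (A2 q) (B2 q) - (lr E).compl₁₂ (A1 q) (B1 q)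

theorem coc_apply (a b : CA q) :
    coc E a b = lr E (A2 q a) (B2 q b) - lr E (A1 q a) (B1 q b) := rfl

theorem coc_coc (a b c : CA q) :
    E.l a * coc E b c - coc E (a * b) c + coc E a (b * c) - E.r (op c) * coc E a b = 0 := by
  have h := bil_zero (lr E) (a * A2 q b - A2 q (a * b)) (a * A1 q b - A1 q (a * b)) (A2 q a)
    (A1 q a) (B2 q c) (B1 q c) (B2 q (b * c) - B2 q b * c) (B1 q (b * c) - B1 q b * c)
    (by ext <;> simp [B2_apply]) (by ext <;> simp [B1_apply]) (by ext <;> simp [B2_apply])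
    (by ext <;> simp [B1_apply])
    (by ext <;> simp [A1_apply, A2_apply, B1_apply, B2_apply] <;> ring)
    (by ext <;> simp [A1_apply, A2_apply, B1_apply, B2_apply] <;> ring)
    (by ext <;> simp [A1_apply, A2_apply, B1_apply, B2_apply] <;> ring)
    (by ext <;> simp [A1_apply, A2_apply, B1_apply, B2_apply] <;> ring)
  have hl : ∀ w v, E.l a * lr E w v = lr E (a * w) v := fun w v => E.l_mul _ _ _
  have hr : ∀ w v, E.r (op c) * lr E w v = lr E w (v * c) := fun w v => E.r_mul _ _ _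
  simp only [map_sub, LinearMap.sub_apply] at h
  simp only [coc_apply, mul_sub, hl, hr]
  linear_combination (norm := abel) h

theorem mu_coc (a b : CA q) : E.mu (coc E a b) = 0 := by
  rw [coc_apply, map_sub, lr_apply, lr_apply, E.mu_apply, E.mu_apply]
  ext <;> simp [A1_apply, A2_apply, B1_apply, B2_apply] <;> ring

variable (q)

/-- The coefficient of `e`. -/
def coE : CA q →ₗ[K] K := (chi q).toLinearMap

/-- The coefficient of `k`. -/
def coK : CA q →ₗ[K] K where
  toFun a := a.k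
  map_add' _ _ := rfl
  map_smul' _ _ := rfl

@[simp] theorem coE_apply (a : CA q) : coE q a = a.e := rfl
@[simp] theorem coK_apply (a : CA q) : coK q a = a.k := rfl

/-- Coordinates of a linear complex. -/
noncomputable def coord (L : LinD (CA q)) : L.X →ₗ[K] (ℤ → CA q) :=
  LinearMap.pi fun n => (L.co n).restrictScalars K

@[simp] theorem coord_apply (L : LinD (CA q)) (v : L.X) (n : ℤ) :
    coord q L v n = (v : ℤ →₀ CA q) n := rfl

theorem top_aux (L : LinD (CA q)) (t : ℤ) (ht : (L.ε t).e = 1)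
    (h : ∀ n, n ≠ t → (L.ε n).e = 0) (x : L.X) :
    x - ((x : ℤ →₀ CA q) t).e • L.gen t ∈ MS K L.X (kerSet (chi q)) := by
  refine L.mem_of_sg _ _ fun n => ?_
  rw [L.e_eq_smul]
  refine MS.mem (𝔪 := kerSet (chi q)) ?_ _
  change ((x : ℤ →₀ CA q) n - ((x : ℤ →₀ CA q) t).e • (L.gen t : ℤ →₀ CA q) n).e = 0
  rw [LinD.gen_apply]
  split_ifs with hn
  · simp [hn, ht]
  · rw [← LinD.mul_ε x n]
    simp [h n hn]

theorem pa0 : (pL q).a 0 = bp q := rfl
theorem pε0 : (pL q).ε 0 = be q := rfl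
theorem qa0 : (qL q).a 0 = q ^ 2 • bx q + by' q := rfl
theorem qε2 : (qL q).ε 2 = be q := rfl

theorem p10 : (pL q).a 1 * (pL q).a 0 = 0 := (pL q).aa 0
theorem p21 : (pL q).a 2 * (pL q).a 1 = 0 := (pL q).aa 1
theorem p32 : (pL q).a 3 * (pL q).a 2 = 0 := (pL q).aa 2

variable {q}

/-- The datum of `C`. -/
noncomputable def dat (hq0 : q ≠ 0) (hq : ∀ n : ℕ, 0 < n → q ^ n ≠ 1) :
    Dat E (chi q) 2 (pL q).X (qL q).X E.BarY E.Reg T where
  p := (pL q).gcx
  q := (qL q).gcx
  c := (pL q).hom (qL q) (cc q) (cc_left q) (cc_right q)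
  c_e := LinD.hom_e _ _ _ _ _
  c_d := LinD.hom_d _ _ _ _ _ (cc_comm q)
  p_fp := (pL q).fp
  q_fp := (qL q).fp
  p_lo n hn := (pL q).e_eq_zero n (if_pos hn)
  q_hi n hn := (qL q).e_eq_zero n (if_pos hn)
  v := (pL q).gen 0
  ε := coE q ∘ₗ ((pL q).co 0).restrictScalars K
  ε_smul s x := by simp
  ε_e x := by simp
  v_e := (pL q).e_gen 0
  kp_p :=
    { dd := (pL q).gcx.dd
      dv := by
        refine LinD.X_ext fun n => ?_
        change ((pL q).gcx.d _ : ℤ →₀ CA q) n = 0
        rw [LinD.d_apply, LinD.gen_apply]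
        split_ifs with h
        · simp only [pL]
          rw [if_pos (show n < 0 by omega), mul_zero]
        · rw [zero_mul]
      εd := fun x => by simp [pa0]
      εv := by simp [pε0]
      ex := fun x hd hε => (pL q).ex (fun a => a.e = 0) rfl (p_ex hq) x hd hε }
  πq := (-(q ^ 3)⁻¹) • coK q ∘ₗ ((qL q).co 0).restrictScalars K
  kp_q :=
    { dd := (qL q).gcx.dd
      dv := by
        refine LinD.X_ext fun n => ?_
        change ((qL q).gcx.d _ : ℤ →₀ CA q) n = 0
        rw [LinD.d_apply, LinD.hom_apply, LinD.gen_apply, mul_assoc, ← cc_comm]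
        split_ifs with h
        · simp only [pL]
          rw [if_pos (show n < 0 by omega), zero_mul, mul_zero]
        · rw [zero_mul]
      εd := fun x => by simp [qa0, mul_comm]
      εv := by simp [pε0, cc, hq0]
      ex := fun x hd hε => (qL q).ex (fun a => a.k = 0) rfl (q_ex hq0 hq) x hd
        (by simpa [hq0] using hε) }
  w := (qL q).gen 2
  η := coE q ∘ₗ ((qL q).co 2).restrictScalars K
  η_smul s x := by simp
  η_e x := by simp
  w_e := (qL q).e_gen 2
  η_w := by simp [qε2]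
  B := E.bar
  B_lo := E.bar_lo
  B_fp := E.bar_fp
  ι := E.barι
  π := E.barπ
  kp_B := E.bar_kp
  π_e := E.barπ_e
  H_l := E.reg_l
  H_r := E.reg_r
  W_fp := FP.id_self
  f := E.barF (coc E)
  f_e := E.barF_e _
  f_d := E.barF_d _ (coc_coc E)
  μ := E.mu
  μ_l := E.mu_l
  μ_r := E.mu_r
  α := E.barα _ _ _ (p10 q) (p21 q) ∘ₗ coord q (pL q)
  α_smul s x := E.barα_smul _ _ _ _ _ s _ _ fun _ => rfl
  α_e n x := E.barα_e _ _ _ _ _ n _ _ fun m => (pL q).e_apply n x m
  α_d x := E.barα_d (chi q) _ _ _ _ _ _ (p32 q) (by simp [pL]) _ _ rfl rfl rfl rfl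
  ω := E.l.toLinearMap ∘ₗ ((qL q).co 2).restrictScalars K
  ω_smul s y := by simp
  ω_e y := by simp
  ω_c x := by
    have key : ∀ a : CA q, E.l (a * cc q 2) - E.l a * coc E ((pL q).a 1) ((pL q).a 0) =
        E.r (op (1 - be q)) • E.l (a * (q • bpp q)) + E.r (op (bz q)) • E.l (a * (q • bp q)) := by
      intro a
      have e1 : A1 q ((pL q).a 1) = q • bp q := by ext <;> simp [pL, A1_apply]
      have e2 : A2 q ((pL q).a 1) = bpp q := by ext <;> simp [pL, A2_apply]
      have e3 : B1 q ((pL q).a 0) = bz q := by ext <;> simp [pL, B1_apply]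
      have e4 : B2 q ((pL q).a 0) = q • be q := by ext <;> simp [pL, B2_apply]
      have e5 : cc q 2 = q • bpp q := by simp [cc]
      rw [coc_apply, e1, e2, e3, e4, e5, map_smul (lr E _), ← LinearMap.smul_apply,
        ← map_smul (lr E), lr_apply, lr_apply, mul_sub, E.l_mul, E.l_mul, smul_eq_mul, smul_eq_mul,
        ← E.comm, ← E.comm, op_sub, map_sub, op_one, map_one, mul_sub, mul_one]
      abel
    have h : E.l (((pL q).hom (qL q) (cc q) (cc_left q) (cc_right q) x : ℤ →₀ CA q) 2) -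
        E.barF (coc E) (E.barα _ _ _ (p10 q) (p21 q) (coord q (pL q) x)) ∈
        MS K T (E.rker (chi q)) := by
      rw [LinD.hom_apply, E.barF_α, coord_apply, key]
      exact add_mem (MS.mem (𝔪 := E.rker (chi q)) ⟨_, by simp, rfl⟩ _)
        (MS.mem (𝔪 := E.rker (chi q)) ⟨_, by simp, rfl⟩ _)
    exact h
  μ_ω y := by simp [E.mu_l']

/-- The extra properties of the datum of `C`. -/
noncomputable def top (hq0 : q ≠ 0) (hq : ∀ n : ℕ, 0 < n → q ^ n ≠ 1) : (dat E hq0 hq).Top where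
  top_p := top_aux q (pL q) 0 (by simp [pL]) fun n hn => by
    simp only [pL]
    split_ifs <;> rfl
  top_q := top_aux q (qL q) 2 (by simp [qL]) fun n hn => by
    simp only [qL]
    split_ifs <;> rfl
  η_c x := by
    change (((pL q).hom (qL q) (cc q) (cc_left q) (cc_right q) x : ℤ →₀ CA q) 2).e = 0
    simp [cc]
  μ_f := E.mu_barF _ (mu_coc E)
  one := E.toReg 1
  central a := by rw [E.l_smul_toReg, E.r_smul_toReg, one_mul, mul_one]
  gen h := ⟨E.toReg.symm h, by rw [E.l_smul_toReg, mul_one, LinearEquiv.apply_symm_apply]⟩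
  χH := coE q ∘ₗ E.toReg.symm.toLinearMap
  χH_l a h := by
    obtain ⟨h, rfl⟩ := E.toReg.surjective h
    simp [E.l_smul_toReg]
  χH_r a h := by
    obtain ⟨h, rfl⟩ := E.toReg.surjective h
    simp [E.r_smul_toReg, mul_comm]
  χH_one := by simp

end CA

universe u

theorem topExists_C {K : Type u} [Field K] (q : K) (hq0 : q ≠ 0)
    (hq : ∀ n : ℕ, 0 < n → q ^ n ≠ 1) : TopExists (Env.std K (CA q)) (CA.chi q) 2 :=
  ⟨_, _, _, _, _, _, _, _, _, _, _, _, _, _, _, _, _, _, _, _, _, _, _, _, _,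
    CA.dat (Env.std K (CA q)) hq0 hq, ⟨CA.top _ hq0 hq⟩⟩

end Crest.Agent.R186
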