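import Crest.Agent.R186.Dat
import Crest.Agent.R186.Lin

/-! The twisted datum of the dual numbers. -/

set_option autoImplicit false
set_option linter.unusedSectionVars false

namespace Crest.Agent.R186

open scoped TensorProduct
open MulOpposite

universe u

namespace LinD

variable {K S : Type*} [Field K] [Ring S] [Algebra K S] (L : LinD S)

/-- Coordinatewise twist by an algebra map and scalars. -/
noncomputable def tw (h : S →ₐ[K] S) (hε : ∀ n, h (L.ε n) = L.ε n) (s : ℤ → K) :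
    L.X →ₗ[K] L.X where
  toFun v := ⟨Finsupp.onFinset (v : ℤ →₀ S).support (fun n => s n • h ((v : ℤ →₀ S) n))
      (fun n hn => Finsupp.mem_support_iff.2 fun h0 => hn (by rw [h0, map_zero, smul_zero])),
    fun n => by
      rw [Finsupp.onFinset_apply, smul_mul_assoc, ← hε n, ← map_mul, mul_ε]⟩
  map_add' v w := by ext n; simp
  map_smul' k v := by ext n; simp [smul_comm k]

@[simp] theorem tw_apply (h : S →ₐ[K] S) (hε : ∀ n, h (L.ε n) = L.ε n) (s : ℤ → K) (v : L.X)
    (n : ℤ) : (L.tw h hε s v : ℤ →₀ S) n = s n • h ((v : ℤ →₀ S) n) := rfl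

/-- Coordinatewise twist by an automorphism and non-zero scalars. -/
noncomputable def twE (h : S ≃ₐ[K] S) (hε : ∀ n, h (L.ε n) = L.ε n) (s : ℤ → K)
    (hs : ∀ n, s n ≠ 0) : L.X ≃ₗ[K] L.X :=
  LinearEquiv.ofLinearMap (L.tw h hε s)
    (L.tw h.symm (fun n => by
      change h.symm _ = _
      rw [AlgEquiv.symm_apply_eq, hε]) fun n => (s n)⁻¹)
    (by ext v n; simp [smul_smul, hs n]) (by ext v n; simp [smul_smul, hs n])

@[simp] theorem twE_apply (h : S ≃ₐ[K] S) (hε : ∀ n, h (L.ε n) = L.ε n) (s : ℤ → K)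
    (hs : ∀ n, s n ≠ 0) (v : L.X) (n : ℤ) :
    (L.twE h hε s hs v : ℤ →₀ S) n = s n • h ((v : ℤ →₀ S) n) := rfl

theorem twE_smul (h : S ≃ₐ[K] S) (hε : ∀ n, h (L.ε n) = L.ε n) (s : ℤ → K)
    (hs : ∀ n, s n ≠ 0) (a : S) (v : L.X) :
    L.twE h hε s hs (a • v) = h a • L.twE h hε s hs v := by
  ext n; simp

theorem twE_e (h : S ≃ₐ[K] S) (hε : ∀ n, h (L.ε n) = L.ε n) (s : ℤ → K)
    (hs : ∀ n, s n ≠ 0) (n : ℤ) (v : L.X) :
    L.twE h hε s hs (L.gcx.e n v) = L.gcx.e n (L.twE h hε s hs v) := by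
  ext m
  simp only [twE_apply, e_apply]
  split_ifs with hm
  · rw [hm]
  · simp

theorem twE_d (h : S ≃ₐ[K] S) (hε : ∀ n, h (L.ε n) = L.ε n) (s : ℤ → K)
    (hs : ∀ n, s n ≠ 0) (ha : ∀ n, s n • h (L.a n) = s (n + 1) • L.a n) (v : L.X) :
    L.twE h hε s hs (L.gcx.d v) = L.gcx.d (L.twE h hε s hs v) := by
  ext m
  simp only [twE_apply, d_apply, map_mul]
  rw [← mul_smul_comm, ha, mul_smul_comm, smul_mul_assoc]

variable {L} {χ : S →ₐ[K] K}

theorem chi_e (φ : L.X →ₗ[K] K) (hφ : ∀ (s : S) x, φ (s • x) = χ s * φ x) (n : ℤ) (v : L.X) :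
    φ (L.gcx.e n v) = χ ((v : ℤ →₀ S) n) * φ (L.gen n) := by
  rw [e_eq_smul, hφ]

theorem chi_zero (φ : L.X →ₗ[K] K) (hφ : ∀ (s : S) x, φ (s • x) = χ s * φ x) (v : L.X)
    (hv : ∀ n, χ ((v : ℤ →₀ S) n) = 0) : φ v = 0 :=
  L.map_eq_zero_of_e φ v fun n => by rw [chi_e φ hφ, hv, zero_mul]

theorem chi_twE (h : S ≃ₐ[K] S) (hε : ∀ n, h (L.ε n) = L.ε n) (s : ℤ → K)
    (hs : ∀ n, s n ≠ 0) (hχ : ∀ a, χ (h a) = χ a) (φ : L.X →ₗ[K] K) (n : ℤ)
    (hφ : ∀ (s : S) x, φ (s • x) = χ s * φ x) (he : ∀ x, φ (L.gcx.e n x) = φ x) (v : L.X) :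
    φ (L.twE h hε s hs v) = s n * φ v := by
  rw [← he, ← he v, chi_e φ hφ, chi_e φ hφ, twE_apply, map_smul, hχ, smul_eq_mul, mul_assoc]

end LinD

namespace DDat

open DualNumber (eps)
open TrivSqZeroExt (inl)

variable (K : Type*) [Field K]

instance : Module.Finite K (DualNumber K) := inferInstanceAs (Module.Finite K (K × K))

/-- The resolution of the residue field. -/
def Lp : LinD (DualNumber K) where
  ε n := if 0 ≤ n then 1 else 0
  a n := if 0 ≤ n then eps else 0
  idem n := by split_ifs <;> simp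
  εa n := by split_ifs <;> first | omega | simp
  aε n := by split_ifs <;> simp
  aa n := by split_ifs <;> simp

/-- The coresolution of the residue field. -/
def Lq : LinD (DualNumber K) where
  ε n := if n ≤ 0 then 1 else 0
  a n := if n ≤ -1 then eps else 0
  idem n := by split_ifs <;> simp
  εa n := by split_ifs <;> first | omega | simp
  aε n := by split_ifs <;> first | omega | simp
  aa n := by split_ifs <;> simp

theorem Lp_ε (n : ℤ) : (Lp K).ε n = if 0 ≤ n then 1 else 0 := rfl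
theorem Lp_a (n : ℤ) : (Lp K).a n = if 0 ≤ n then eps else 0 := rfl
theorem Lq_ε (n : ℤ) : (Lq K).ε n = if n ≤ 0 then 1 else 0 := rfl
theorem Lq_a (n : ℤ) : (Lq K).a n = if n ≤ -1 then eps else 0 := rfl

/-- The comparison map. -/
def cc (n : ℤ) : DualNumber K := if n = 0 then eps else 0

theorem cc_l (n : ℤ) : (Lp K).ε n * cc K n = cc K n := by
  rw [Lp_ε, cc]; split_ifs <;> first | omega | simp

theorem cc_r (n : ℤ) : cc K n * (Lq K).ε n = cc K n := by
  rw [Lq_ε, cc]; split_ifs <;> first | omega | simp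

theorem cc_a (n : ℤ) : (Lp K).a n * cc K n = cc K (n + 1) * (Lq K).a n := by
  rw [Lp_a, Lq_a, cc, cc]; split_ifs <;> simp

/-- The augmentation. -/
abbrev χ : DualNumber K →ₐ[K] K := TrivSqZeroExt.fstHom K K K

variable {K}

theorem fst_of_mul_eps {x : DualNumber K} (h : x * eps = 0) : x.fst = 0 := by
  simpa using congrArg TrivSqZeroExt.snd h

theorem div_eps {x : DualNumber K} (h : x.fst = 0) : (inl x.snd : DualNumber K) * eps = x := by
  ext <;> simp [h]

/-- The complex concentrated in degree zero. -/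
noncomputable def B0 (T : Type*) [Ring T] : GCx T T where
  e n := if n = 0 then LinearMap.id else 0
  d := 0
  ee n x := by split_ifs <;> simp
  eo m n h x := by split_ifs <;> first | omega | simp
  de n x := by simp
  dd x := by simp

theorem B0_e (T : Type*) [Ring T] (n : ℤ) :
    (B0 T).e n = if n = 0 then LinearMap.id else 0 := rfl

theorem B0_d (T : Type*) [Ring T] : (B0 T).d = 0 := rfl

variable {T : Type*} [Ring T] [Algebra K T] (E : Env K (DualNumber K) T)

theorem lift_l {S : Type*} [Ring S] [Algebra K S] (E : Env K S T) (h : S →ₐ[K] S) (a : S)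
    (x : T) : E.lift ((LinearMap.mul K S).compl₂ h.toLinearMap) (E.l a • x) =
      a * E.lift ((LinearMap.mul K S).compl₂ h.toLinearMap) x := by
  induction x using E.induction_on with
  | h0 => simp
  | h1 b c => rw [smul_eq_mul, E.l_mul, E.lift_apply, E.lift_apply]; simp [mul_assoc]
  | h2 x y hx hy => simp only [smul_add, map_add, hx, hy, mul_add]

theorem lift_r {S : Type*} [Ring S] [Algebra K S] (E : Env K S T) (h : S →ₐ[K] S) (a : S)
    (x : T) : E.lift ((LinearMap.mul K S).compl₂ h.toLinearMap) (E.r (op a) • x) =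
      E.lift ((LinearMap.mul K S).compl₂ h.toLinearMap) x * h a := by
  induction x using E.induction_on with
  | h0 => simp
  | h1 b c => rw [smul_eq_mul, E.r_mul, E.lift_apply, E.lift_apply]; simp [mul_assoc]
  | h2 x y hx hy => simp only [smul_add, map_add, hx, hy, add_mul]

/-- The datum of the dual numbers. -/
noncomputable def dat : Dat E (χ K) 0 (Lp K).X (Lq K).X T T T where
  p := (Lp K).gcx
  q := (Lq K).gcx
  c := (Lp K).hom (Lq K) (cc K) (cc_l K) (cc_r K)
  c_e := (Lp K).hom_e (Lq K) _ _ _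
  c_d := (Lp K).hom_d (Lq K) _ _ _ (cc_a K)
  p_fp := (Lp K).fp
  q_fp := (Lq K).fp
  p_lo n hn := (Lp K).e_eq_zero n (by rw [Lp_ε, if_neg (by omega)])
  q_hi n hn := (Lq K).e_eq_zero n (by rw [Lq_ε, if_neg (by omega)])
  v := (Lp K).gen 0
  ε := (χ K).toLinearMap ∘ₗ ((Lp K).co 0).restrictScalars K
  ε_smul s x := by simp
  ε_e x := by simp
  v_e := (Lp K).e_gen 0
  kp_p :=
    { dd := (Lp K).gcx.dd
      dv := by
        ext n : 1
        simp only [LinearMap.restrictScalars_apply, LinD.d_apply, LinD.gen_apply, Lp_a]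
        split_ifs <;> first | omega | simp
      εd := fun x => by simp [Lp_a]
      εv := by simp [Lp_ε]
      ex := fun x hx hε => (Lp K).ex (fun y => y.fst = 0) rfl (fun n y h1 h2 h3 => by
        rw [Lp_ε] at h1
        rw [Lp_a] at h2
        rw [Lp_ε, Lp_a]
        by_cases hn : 0 ≤ n
        · have hy : y.fst = 0 := by
            by_cases h0 : n = 0
            · exact h3 h0
            · rw [if_pos (by omega)] at h2
              exact fst_of_mul_eps h2
          rw [if_pos (by omega), if_pos hn]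
          exact ⟨inl y.snd, mul_one _, div_eps hy⟩
        · rw [if_neg hn, mul_zero] at h1
          exact ⟨0, by simp, by simp [← h1]⟩) x hx hε }
  πq := TrivSqZeroExt.sndHom K K ∘ₗ ((Lq K).co 0).restrictScalars K
  kp_q :=
    { dd := (Lq K).gcx.dd
      dv := by
        ext n : 1
        simp only [LinearMap.restrictScalars_apply, LinD.d_apply, LinD.hom_apply, LinD.gen_apply,
          Lq_a, cc, Lp_ε]
        split_ifs <;> simp
      εd := fun x => by simp [Lq_a]
      εv := by simp [Lp_ε, cc]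
      ex := fun x hx hε => (Lq K).ex (fun y => y.snd = 0) rfl (fun n y h1 h2 h3 => by
        rw [Lq_ε] at h1
        rw [Lq_a] at h2
        rw [Lq_ε, Lq_a]
        by_cases hn : n ≤ 0
        · rw [if_pos (by omega)] at h2
          have hy := fst_of_mul_eps h2
          by_cases h0 : n = 0
          · have : y = 0 := TrivSqZeroExt.ext hy (h3 h0)
            exact ⟨0, by simp, by simp [this]⟩
          · rw [if_pos (by omega), if_pos (by omega)]
            exact ⟨inl y.snd, mul_one _, div_eps hy⟩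
        · rw [if_neg hn, mul_zero] at h1
          exact ⟨0, by simp, by simp [← h1]⟩) x hx hε }
  w := (Lq K).gen 0
  η := (χ K).toLinearMap ∘ₗ ((Lq K).co 0).restrictScalars K
  η_smul s x := by simp
  η_e x := by simp
  w_e := (Lq K).e_gen 0
  η_w := by simp [Lq_ε]
  B := B0 T
  B_lo n hn := by rw [B0_e, if_neg (by omega)]
  B_fp n _ := FP.to_ring _
  ι := LinearMap.id
  π := LinearMap.id
  kp_B := ⟨by simp [B0_d], by simp [B0_d], by simp [B0_d], by simp,
    fun x _ hx => ⟨0, by simpa using hx.symm⟩⟩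
  π_e y := by simp [B0_e]
  H_l := E.fpvia_l
  H_r := E.fpvia_r
  W_fp := FP.id_self
  f := LinearMap.id
  f_e y := by simp [B0_e]
  f_d y := by simp [B0_d]
  μ := E.lift ((LinearMap.mul K _).compl₂ (AlgHom.id K _).toLinearMap)
  μ_l := lift_l E _
  μ_r := lift_r E _
  α := E.l.toLinearMap ∘ₗ LinearMap.mulRight K eps ∘ₗ ((Lp K).co 0).restrictScalars K
  α_smul s x := by simp [mul_assoc]
  α_e n x := by
    rw [B0_e]
    split_ifs with h
    · simp [h]
    · simp [Ne.symm h]
  α_d x := by simp [B0_d, Lp_a, mul_assoc]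
  ω := E.l.toLinearMap ∘ₗ ((Lq K).co 0).restrictScalars K
  ω_smul s x := by simp
  ω_e y := by simp
  ω_c x := by simp [cc]
  μ_ω y := by
    have := E.lift_apply (LinearMap.mul K _) ((y : ℤ →₀ DualNumber K) 0) 1
    simp only [op_one, map_one, mul_one] at this
    simp [this]

/-- The automorphism rescaling `ε`. -/
noncomputable def hh (lam : K) (hl : lam ≠ 0) : DualNumber K ≃ₐ[K] DualNumber K :=
  AlgEquiv.ofAlgHom (TrivSqZeroExt.map (lam • LinearMap.id))
    (TrivSqZeroExt.map (lam⁻¹ • LinearMap.id))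
    (AlgHom.ext fun x => by ext <;> simp [hl]) (AlgHom.ext fun x => by ext <;> simp [hl])

@[simp] theorem fst_hh (lam : K) (hl : lam ≠ 0) (x : DualNumber K) : (hh lam hl x).fst = x.fst :=
  TrivSqZeroExt.fst_map _ _

@[simp] theorem snd_hh (lam : K) (hl : lam ≠ 0) (x : DualNumber K) :
    (hh lam hl x).snd = lam * x.snd :=
  TrivSqZeroExt.snd_map _ _

theorem hh_eps (lam : K) (hl : lam ≠ 0) : hh lam hl eps = lam • eps := by
  ext <;> simp

theorem hh_p (lam : K) (hl : lam ≠ 0) (n : ℤ) : hh lam hl ((Lp K).ε n) = (Lp K).ε n := by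
  rw [Lp_ε]; split_ifs <;> simp

theorem hh_q (lam : K) (hl : lam ≠ 0) (n : ℤ) : hh lam hl ((Lq K).ε n) = (Lq K).ε n := by
  rw [Lq_ε]; split_ifs <;> simp

/-- The twist. -/
noncomputable def tw (lam : K) (hl : lam ≠ 0) : (dat E).Tw lam where
  h := hh lam hl
  χ_h a := by simp
  θp := (Lp K).twE (hh lam hl) (hh_p lam hl) (fun n => lam ^ n) fun n => zpow_ne_zero n hl
  θq := (Lq K).twE (hh lam hl) (hh_q lam hl) (fun n => lam ^ (n - 1)) fun _ => zpow_ne_zero _ hl
  θp_smul := (Lp K).twE_smul _ _ _ _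
  θq_smul := (Lq K).twE_smul _ _ _ _
  θp_e := (Lp K).twE_e _ _ _ _
  θq_e := (Lq K).twE_e _ _ _ _
  θp_d := (Lp K).twE_d _ _ _ _ fun n => by
    rw [Lp_a]
    split_ifs
    · rw [hh_eps, smul_smul, zpow_add_one₀ hl]
    · simp
  θq_d := (Lq K).twE_d _ _ _ _ fun n => by
    rw [Lq_a]
    split_ifs
    · rw [hh_eps, smul_smul, add_sub_cancel_right, ← zpow_add_one₀ hl, sub_add_cancel]
    · simp
  θ_c x := by
    ext n : 1
    change lam ^ (n - 1) • hh lam hl (((Lp K).hom (Lq K) (cc K) (cc_l K) (cc_r K) x :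
      ℤ →₀ DualNumber K) n) = ((Lp K).hom (Lq K) (cc K) (cc_l K) (cc_r K) _ : ℤ →₀ DualNumber K) n
    rw [LinD.hom_apply, LinD.hom_apply, LinD.twE_apply, cc]
    split_ifs with h
    · rw [map_mul, hh_eps, mul_smul_comm, smul_smul, ← zpow_add_one₀ hl, sub_add_cancel,
        smul_mul_assoc]
    · simp
  ε_θ x := by simp [dat]
  μh := E.lift ((LinearMap.mul K _).compl₂ (hh lam hl : _ →ₐ[K] _).toLinearMap)
  μh_l := lift_l E _
  μh_r := lift_r E _
  χ_μh x := by
    induction x using E.induction_on with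
    | h0 => simp
    | h1 a b => simp [dat]
    | h2 x y hx hy => simp only [map_add, hx, hy]
  fp_d φ hφ x := LinD.chi_zero φ hφ _ fun n => by
    change χ K ((x : ℤ →₀ DualNumber K) (n + 1) * (Lp K).a n) = 0
    rw [Lp_a]; split_ifs <;> simp
  fq_d φ hφ x := LinD.chi_zero φ hφ _ fun n => by
    change χ K ((x : ℤ →₀ DualNumber K) (n + 1) * (Lq K).a n) = 0
    rw [Lq_a]; split_ifs <;> simp
  fq_c φ hφ x := LinD.chi_zero φ hφ _ fun n => by
    change χ K (((Lp K).hom (Lq K) (cc K) (cc_l K) (cc_r K) x : ℤ →₀ DualNumber K) n) = 0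
    rw [LinD.hom_apply, cc]; split_ifs <;> simp
  fp_θ φ n hφ he x := LinD.chi_twE _ _ _ _ (by simp) φ n hφ he x
  fq_θ φ n hφ he x := LinD.chi_twE _ _ _ _ (by simp) φ n hφ he x
  fp_zero φ hφ he x := by
    rw [← he x]
    exact (LinD.chi_e φ hφ 0 x).trans (mul_comm _ _)

end DDat

theorem twExists_dual {K : Type u} [Field K] (lam : K) (hl : lam ≠ 0) :
    TwExists (Env.std K (DualNumber K)) (TrivSqZeroExt.fstHom K K K) lam :=
  ⟨(DDat.Lp K).X, (DDat.Lq K).X, inferInstance, inferInstance, inferInstance, inferInstance,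
    inferInstance, inferInstance, inferInstance, inferInstance, DDat.dat _, ⟨DDat.tw _ lam hl⟩⟩

end Crest.Agent.R186
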