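import Crest.Agent.R186.Env

/-! The datum attached to a one-dimensional module, and its stability under tensor products. -/

set_option autoImplicit false
set_option linter.unusedSectionVars false

namespace Crest.Agent.R186

open scoped TensorProduct
open MulOpposite

section Def

variable {K S T : Type*} [Field K] [Ring S] [Ring T] [Algebra K S] [Algebra K T]

/-- `p` is a projective resolution of the one-dimensional module `χ`, `q` a bounded above complex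
of projectives with the same homology, `c : p → q` a quasi-isomorphism; `Y` is a resolution of
the bimodule `H`, `f : Y → W[t]` a cocycle compatible with `c`. -/
structure Dat (E : Env K S T) (χ : S →ₐ[K] K) (t : ℤ) (Xp Xq Y H W : Type*)
    [AddCommGroup Xp] [Module K Xp] [Module S Xp] [IsScalarTower K S Xp]
    [AddCommGroup Xq] [Module K Xq] [Module S Xq] [IsScalarTower K S Xq]
    [AddCommGroup Y] [Module K Y] [Module T Y] [IsScalarTower K T Y]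
    [AddCommGroup H] [Module K H] [Module T H] [IsScalarTower K T H]
    [AddCommGroup W] [Module K W] [Module T W] [IsScalarTower K T W] where
  p : GCx S Xp
  q : GCx S Xq
  c : Xp →ₗ[S] Xq
  c_e : ∀ n x, c (p.e n x) = q.e n (c x)
  c_d : ∀ x, c (p.d x) = q.d (c x)
  p_fp : ∀ n, FP (p.e n)
  q_fp : ∀ n, FP (q.e n)
  p_lo : ∀ n, n < 0 → p.e n = 0
  q_hi : ∀ n, t < n → q.e n = 0
  v : Xp
  ε : Xp →ₗ[K] K
  ε_smul : ∀ (s : S) x, ε (s • x) = χ s * ε x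
  ε_e : ∀ x, ε (p.e 0 x) = ε x
  v_e : p.e 0 v = v
  kp_p : KP1 (p.d.restrictScalars K) v ε
  πq : Xq →ₗ[K] K
  kp_q : KP1 (q.d.restrictScalars K) (c v) πq
  w : Xq
  η : Xq →ₗ[K] K
  η_smul : ∀ (s : S) y, η (s • y) = χ s * η y
  η_e : ∀ y, η (q.e t y) = η y
  w_e : q.e t w = w
  η_w : η w = 1
  B : GCx T Y
  B_lo : ∀ n, n < 0 → B.e n = 0
  B_fp : ∀ n, n ≤ 2 → FP (B.e n)
  ι : H →ₗ[K] Y
  π : Y →ₗ[T] H
  kp_B : KP (B.d.restrictScalars K) ι (π.restrictScalars K)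
  π_e : ∀ y, π (B.e 0 y) = π y
  H_l : FPvia H E.l
  H_r : FPvia H E.r
  W_fp : FP (LinearMap.id : W →ₗ[T] W)
  f : Y →ₗ[T] W
  f_e : ∀ y, f (B.e t y) = f y
  f_d : ∀ y, f (B.d y) = 0
  μ : W →ₗ[K] S
  μ_l : ∀ a x, μ (E.l a • x) = a * μ x
  μ_r : ∀ b x, μ (E.r (op b) • x) = μ x * b
  α : Xp →ₗ[K] Y
  α_smul : ∀ (s : S) x, α (s • x) = E.l s • α x
  α_e : ∀ n x, α (p.e n x) = B.e n (α x)
  α_d : ∀ x, B.d (α x) - α (p.d x) ∈ MS K Y (E.rker χ)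
  ω : Xq →ₗ[K] W
  ω_smul : ∀ (s : S) y, ω (s • y) = E.l s • ω y
  ω_e : ∀ y, ω (q.e t y) = ω y
  ω_c : ∀ x, ω (c x) - f (α x) ∈ MS K W (E.rker χ)
  μ_ω : ∀ y, χ (μ (ω y)) = η y

variable {E : Env K S T} {χ : S →ₐ[K] K} {t : ℤ} {Xp Xq Y H W : Type*}
    [AddCommGroup Xp] [Module K Xp] [Module S Xp] [IsScalarTower K S Xp]
    [AddCommGroup Xq] [Module K Xq] [Module S Xq] [IsScalarTower K S Xq]
    [AddCommGroup Y] [Module K Y] [Module T Y] [IsScalarTower K T Y]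
    [AddCommGroup H] [Module K H] [Module T H] [IsScalarTower K T H]
    [AddCommGroup W] [Module K W] [Module T W] [IsScalarTower K T W]

/-- Extra properties enjoyed by the datum of `C` and of `C ⊗ C`. -/
structure Dat.Top (D : Dat E χ t Xp Xq Y H W) where
  top_p : ∀ x, x - D.ε x • D.v ∈ MS K Xp (kerSet χ)
  top_q : ∀ y, y - D.η y • D.w ∈ MS K Xq (kerSet χ)
  η_c : ∀ x, D.η (D.c x) = 0
  μ_f : ∀ y, D.μ (D.f y) = 0
  one : H
  central : ∀ a, E.r (op a) • one = E.l a • one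
  gen : ∀ h, ∃ a, E.l a • one = h
  χH : H →ₗ[K] K
  χH_l : ∀ a h, χH (E.l a • h) = χ a * χH h
  χH_r : ∀ a h, χH (E.r (op a) • h) = χ a * χH h
  χH_one : χH one = 1

/-- A twisting automorphism acting on the `Ext` groups through powers of `lam`. -/
structure Dat.Tw (D : Dat E χ t Xp Xq Y H W) (lam : K) where
  h : S ≃ₐ[K] S
  χ_h : ∀ a, χ (h a) = χ a
  θp : Xp ≃ₗ[K] Xp
  θq : Xq ≃ₗ[K] Xq
  θp_smul : ∀ (s : S) x, θp (s • x) = h s • θp x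
  θq_smul : ∀ (s : S) y, θq (s • y) = h s • θq y
  θp_e : ∀ n x, θp (D.p.e n x) = D.p.e n (θp x)
  θq_e : ∀ n y, θq (D.q.e n y) = D.q.e n (θq y)
  θp_d : ∀ x, θp (D.p.d x) = D.p.d (θp x)
  θq_d : ∀ y, θq (D.q.d y) = D.q.d (θq y)
  θ_c : ∀ x, θq (D.c x) = D.c (θp x)
  ε_θ : ∀ x, D.ε (θp x) = D.ε x
  μh : W →ₗ[K] S
  μh_l : ∀ a x, μh (E.l a • x) = a * μh x
  μh_r : ∀ b x, μh (E.r (op b) • x) = μh x * h b
  χ_μh : ∀ x, χ (μh x) = χ (D.μ x)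
  fp_d : ∀ φ : Xp →ₗ[K] K, (∀ (s : S) x, φ (s • x) = χ s * φ x) → ∀ x, φ (D.p.d x) = 0
  fq_d : ∀ φ : Xq →ₗ[K] K, (∀ (s : S) y, φ (s • y) = χ s * φ y) → ∀ y, φ (D.q.d y) = 0
  fq_c : ∀ φ : Xq →ₗ[K] K, (∀ (s : S) y, φ (s • y) = χ s * φ y) → ∀ x, φ (D.c x) = 0
  fp_θ : ∀ (φ : Xp →ₗ[K] K) (n : ℤ), (∀ (s : S) x, φ (s • x) = χ s * φ x) →
    (∀ x, φ (D.p.e n x) = φ x) → ∀ x, φ (θp x) = lam ^ n * φ x
  fq_θ : ∀ (φ : Xq →ₗ[K] K) (n : ℤ), (∀ (s : S) y, φ (s • y) = χ s * φ y) →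
    (∀ y, φ (D.q.e n y) = φ y) → ∀ y, φ (θq y) = lam ^ (n - 1) * φ y
  fp_zero : ∀ φ : Xp →ₗ[K] K, (∀ (s : S) x, φ (s • x) = χ s * φ x) →
    (∀ x, φ (D.p.e 0 x) = φ x) → ∀ x, φ x = φ D.v * D.ε x

end Def

universe u

/-- Existence of a datum with the extra properties `Top`. -/
def TopExists {K S T : Type u} [Field K] [Ring S] [Ring T] [Algebra K S] [Algebra K T]
    (E : Env K S T) (χ : S →ₐ[K] K) (t : ℤ) : Prop :=
  ∃ (Xp Xq Y H W : Type u)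
    (_ : AddCommGroup Xp) (_ : Module K Xp) (_ : Module S Xp) (_ : IsScalarTower K S Xp)
    (_ : AddCommGroup Xq) (_ : Module K Xq) (_ : Module S Xq) (_ : IsScalarTower K S Xq)
    (_ : AddCommGroup Y) (_ : Module K Y) (_ : Module T Y) (_ : IsScalarTower K T Y)
    (_ : AddCommGroup H) (_ : Module K H) (_ : Module T H) (_ : IsScalarTower K T H)
    (_ : AddCommGroup W) (_ : Module K W) (_ : Module T W) (_ : IsScalarTower K T W)
    (D : Dat E χ t Xp Xq Y H W), Nonempty D.Top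

/-- Existence of a twisted datum whose bimodules are all the free bimodule `T`. -/
def TwExists {K S T : Type u} [Field K] [Ring S] [Ring T] [Algebra K S] [Algebra K T]
    (E : Env K S T) (χ : S →ₐ[K] K) (lam : K) : Prop :=
  ∃ (Xp Xq : Type u)
    (_ : AddCommGroup Xp) (_ : Module K Xp) (_ : Module S Xp) (_ : IsScalarTower K S Xp)
    (_ : AddCommGroup Xq) (_ : Module K Xq) (_ : Module S Xq) (_ : IsScalarTower K S Xq)
    (D : Dat E χ 0 Xp Xq T T T), Nonempty (D.Tw lam)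

section Box

variable {K S₁ T₁ S₂ T₂ : Type*} [Field K] [Ring S₁] [Ring T₁] [Algebra K S₁] [Algebra K T₁]
  [Ring S₂] [Ring T₂] [Algebra K S₂] [Algebra K T₂]
variable {E₁ : Env K S₁ T₁} {χ₁ : S₁ →ₐ[K] K} {t₁ : ℤ} {Xp₁ Xq₁ Y₁ H₁ W₁ : Type*}
    [AddCommGroup Xp₁] [Module K Xp₁] [Module S₁ Xp₁] [IsScalarTower K S₁ Xp₁]
    [AddCommGroup Xq₁] [Module K Xq₁] [Module S₁ Xq₁] [IsScalarTower K S₁ Xq₁]
    [AddCommGroup Y₁] [Module K Y₁] [Module T₁ Y₁] [IsScalarTower K T₁ Y₁]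
    [AddCommGroup H₁] [Module K H₁] [Module T₁ H₁] [IsScalarTower K T₁ H₁]
    [AddCommGroup W₁] [Module K W₁] [Module T₁ W₁] [IsScalarTower K T₁ W₁]
variable {E₂ : Env K S₂ T₂} {χ₂ : S₂ →ₐ[K] K} {t₂ : ℤ} {Xp₂ Xq₂ Y₂ H₂ W₂ : Type*}
    [AddCommGroup Xp₂] [Module K Xp₂] [Module S₂ Xp₂] [IsScalarTower K S₂ Xp₂]
    [AddCommGroup Xq₂] [Module K Xq₂] [Module S₂ Xq₂] [IsScalarTower K S₂ Xq₂]
    [AddCommGroup Y₂] [Module K Y₂] [Module T₂ Y₂] [IsScalarTower K T₂ Y₂]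
    [AddCommGroup H₂] [Module K H₂] [Module T₂ H₂] [IsScalarTower K T₂ H₂]
    [AddCommGroup W₂] [Module K W₂] [Module T₂ W₂] [IsScalarTower K T₂ W₂]

theorem Box.fmul_smul {X₁ X₂ : Type*} [AddCommGroup X₁] [Module K X₁] [Module S₁ X₁]
    [IsScalarTower K S₁ X₁] [AddCommGroup X₂] [Module K X₂] [Module S₂ X₂] [IsScalarTower K S₂ X₂]
    (f : X₁ →ₗ[K] K) (g : X₂ →ₗ[K] K) (hf : ∀ (s : S₁) x, f (s • x) = χ₁ s * f x)
    (hg : ∀ (s : S₂) x, g (s • x) = χ₂ s * g x) (s : S₁ ⊗[K] S₂) (z : Box K S₁ S₂ X₁ X₂) :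
    Box.fmul f g (s • z) = chiBox χ₁ χ₂ s * Box.fmul f g z :=
  Box.eqv_of_mk (Box.fmul f g)
    (AddMonoidHom.mul.comp (chiBox χ₁ χ₂).toRingHom.toAddMonoidHom)
    (fun a b x y => by simp [hf, hg]; ring) s z

/-- Tensor product of two maps to the rings. -/
noncomputable def Box.tmap {X₁ X₂ : Type*} [AddCommGroup X₁] [Module K X₁] [AddCommGroup X₂]
    [Module K X₂] (f : X₁ →ₗ[K] S₁) (g : X₂ →ₗ[K] S₂) :
    Box K T₁ T₂ X₁ X₂ →ₗ[K] S₁ ⊗[K] S₂ := TensorProduct.map f g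

@[simp] theorem Box.tmap_mk {X₁ X₂ : Type*} [AddCommGroup X₁] [Module K X₁] [AddCommGroup X₂]
    [Module K X₂] (f : X₁ →ₗ[K] S₁) (g : X₂ →ₗ[K] S₂) (x : X₁) (y : X₂) :
    Box.tmap f g (Box.mk K T₁ T₂ x y) = f x ⊗ₜ[K] g y := rfl

theorem Box.tmap_l (f : W₁ →ₗ[K] S₁) (g : W₂ →ₗ[K] S₂) (hf : ∀ a x, f (E₁.l a • x) = a * f x)
    (hg : ∀ a x, g (E₂.l a • x) = a * g x) (a : S₁ ⊗[K] S₂) (z : Box K T₁ T₂ W₁ W₂) :
    Box.tmap f g ((E₁.box E₂).l a • z) = a * Box.tmap f g z := by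
  induction a using TensorProduct.induction_on with
  | zero => simp
  | add x y hx hy => simp only [map_add, add_smul, add_mul, hx, hy]
  | tmul a a' =>
    induction z using Box.induction_on with
    | h0 => simp
    | h1 x y => simp [hf, hg]
    | h2 x y hx hy => simp only [smul_add, map_add, mul_add, hx, hy]

theorem Box.tmap_r (f : W₁ →ₗ[K] S₁) (g : W₂ →ₗ[K] S₂) (h₁ : S₁ →ₐ[K] S₁) (h₂ : S₂ →ₐ[K] S₂)
    (hf : ∀ a x, f (E₁.r (op a) • x) = f x * h₁ a)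
    (hg : ∀ a x, g (E₂.r (op a) • x) = g x * h₂ a) (a : S₁ ⊗[K] S₂) (z : Box K T₁ T₂ W₁ W₂) :
    Box.tmap f g ((E₁.box E₂).r (op a) • z) =
      Box.tmap f g z * Algebra.TensorProduct.map h₁ h₂ a := by
  induction a using TensorProduct.induction_on with
  | zero => simp
  | add x y hx hy => simp only [op_add, map_add, add_smul, mul_add, hx, hy]
  | tmul a a' =>
    induction z using Box.induction_on with
    | h0 => simp
    | h1 x y => simp [hf, hg]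
    | h2 x y hx hy => simp only [smul_add, map_add, add_mul, hx, hy]

namespace GCx

variable {X₁ X₂ : Type*} [AddCommGroup X₁] [Module K X₁] [Module S₁ X₁] [IsScalarTower K S₁ X₁]
  [AddCommGroup X₂] [Module K X₂] [Module S₂ X₂] [IsScalarTower K S₂ X₂]
  {P : GCx S₁ X₁} {Q : GCx S₂ X₂}

theorem supp_boxE (h : BoxFin P Q) (a b : ℤ) {V : Type*} [AddCommGroup V] [Module K V]
    (f : Box K S₁ S₂ X₁ X₂ →ₗ[K] V)
    (hf : ∀ x y, f (Box.mk K S₁ S₂ (P.e a x) y) = f (Box.mk K S₁ S₂ x y))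
    (hg : ∀ x y, f (Box.mk K S₁ S₂ x (Q.e b y)) = f (Box.mk K S₁ S₂ x y))
    (z : Box K S₁ S₂ X₁ X₂) : f (boxE K (P := P) (Q := Q) (a + b) z) = f z := by
  refine Box.ext_add (f ∘ₗ (boxE K (P := P) (Q := Q) (a + b)).restrictScalars K) f
    (fun x y => ?_) z
  simp only [LinearMap.comp_apply, LinearMap.restrictScalars_apply]
  rw [map_boxE_left h (a + b) a f hf, add_sub_cancel_left, hg]

end GCx

namespace Dat

variable (D₁ : Dat E₁ χ₁ t₁ Xp₁ Xq₁ Y₁ H₁ W₁) (D₂ : Dat E₂ χ₂ t₂ Xp₂ Xq₂ Y₂ H₂ W₂)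

theorem fin_p : GCx.BoxFin D₁.p D₂.p := GCx.boxFin_of_ge D₁.p_lo D₂.p_lo
theorem fin_q : GCx.BoxFin D₁.q D₂.q := GCx.boxFin_of_le D₁.q_hi D₂.q_hi
theorem fin_B : GCx.BoxFin D₁.B D₂.B := GCx.boxFin_of_ge D₁.B_lo D₂.B_lo

/-- Tensor product of data. -/
noncomputable def box (h2 : (2 : K) = 0) :
    Dat (E₁.box E₂) (chiBox χ₁ χ₂) (t₁ + t₂) (Box K S₁ S₂ Xp₁ Xp₂) (Box K S₁ S₂ Xq₁ Xq₂)
      (Box K T₁ T₂ Y₁ Y₂) (Box K T₁ T₂ H₁ H₂) (Box K T₁ T₂ W₁ W₂) where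
  p := D₁.p.box D₂.p h2 (D₁.fin_p D₂)
  q := D₁.q.box D₂.q h2 (D₁.fin_q D₂)
  c := Box.map D₁.c D₂.c
  c_e := GCx.kmap_boxE (D₁.fin_p D₂) (D₁.fin_q D₂) (D₁.c.restrictScalars K)
    (D₂.c.restrictScalars K) D₁.c_e D₂.c_e
  c_d := Box.ext_add (Box.map D₁.c D₂.c ∘ₗ (D₁.p.box D₂.p h2 (D₁.fin_p D₂)).d)
    ((D₁.q.box D₂.q h2 (D₁.fin_q D₂)).d ∘ₗ Box.map D₁.c D₂.c) fun x y => by
      simp [D₁.c_d, D₂.c_d]
  p_fp n := GCx.box_fp h2 _ n fun i _ _ => ⟨D₁.p_fp _, D₂.p_fp _⟩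
  q_fp n := GCx.box_fp h2 _ n fun i _ _ => ⟨D₁.q_fp _, D₂.q_fp _⟩
  p_lo n hn := GCx.box_e_eq_zero h2 _ n fun i => by
    by_cases hi : i < 0
    · exact Or.inl (D₁.p_lo i hi)
    · exact Or.inr (D₂.p_lo _ (by omega))
  q_hi n hn := GCx.box_e_eq_zero h2 _ n fun i => by
    by_cases hi : t₁ < i
    · exact Or.inl (D₁.q_hi i hi)
    · exact Or.inr (D₂.q_hi _ (by omega))
  v := Box.mk K S₁ S₂ D₁.v D₂.v
  ε := Box.fmul D₁.ε D₂.ε
  ε_smul := Box.fmul_smul _ _ D₁.ε_smul D₂.ε_smul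
  ε_e z := by
    simpa [GCx.box_e] using GCx.supp_boxE (D₁.fin_p D₂) 0 0 (Box.fmul D₁.ε D₂.ε) (by simp [D₁.ε_e])
      (by simp [D₂.ε_e]) z
  v_e := by rw [GCx.box_e, GCx.boxE_left (D₁.fin_p D₂) 0 0 D₁.v_e, sub_zero, D₂.v_e]
  kp_p := KP1.box h2 D₁.kp_p D₂.kp_p _ fun _ _ => rfl
  πq := Box.fmul D₁.πq D₂.πq
  kp_q := KP1.box h2 D₁.kp_q D₂.kp_q _ fun _ _ => rfl
  w := Box.mk K S₁ S₂ D₁.w D₂.w
  η := Box.fmul D₁.η D₂.η
  η_smul := Box.fmul_smul _ _ D₁.η_smul D₂.η_smul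
  η_e := GCx.supp_boxE (D₁.fin_q D₂) t₁ t₂ (Box.fmul D₁.η D₂.η) (by simp [D₁.η_e])
      (by simp [D₂.η_e])
  w_e := by rw [GCx.box_e, GCx.boxE_left (D₁.fin_q D₂) _ t₁ D₁.w_e, add_sub_cancel_left, D₂.w_e]
  η_w := by simp [D₁.η_w, D₂.η_w]
  B := D₁.B.box D₂.B h2 (D₁.fin_B D₂)
  B_lo n hn := GCx.box_e_eq_zero h2 _ n fun i => by
    by_cases hi : i < 0
    · exact Or.inl (D₁.B_lo i hi)
    · exact Or.inr (D₂.B_lo _ (by omega))
  B_fp n hn := GCx.box_fp h2 _ n fun i h1 h2 => by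
    have a1 : ¬ i < 0 := fun h => h1 (D₁.B_lo i h)
    have a2 : ¬ n - i < 0 := fun h => h2 (D₂.B_lo _ h)
    exact ⟨D₁.B_fp _ (by omega), D₂.B_fp _ (by omega)⟩
  ι := Box.kmap D₁.ι D₂.ι
  π := Box.map D₁.π D₂.π
  kp_B := KP.box h2 D₁.kp_B D₂.kp_B _ fun _ _ => rfl
  π_e z := by
    simpa [GCx.box_e] using GCx.supp_boxE (D₁.fin_B D₂) 0 0 ((Box.map D₁.π D₂.π).restrictScalars K)
      (by simp [D₁.π_e]) (by simp [D₂.π_e]) z
  H_l := D₁.H_l.box_l D₂.H_l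
  H_r := D₁.H_r.box_r D₂.H_r
  W_fp := Box.fp_id D₁.W_fp D₂.W_fp
  f := Box.map D₁.f D₂.f
  f_e := GCx.supp_boxE (D₁.fin_B D₂) t₁ t₂ ((Box.map D₁.f D₂.f).restrictScalars K)
      (by simp [D₁.f_e]) (by simp [D₂.f_e])
  f_d := Box.ext_add (Box.map D₁.f D₂.f ∘ₗ (D₁.B.box D₂.B h2 (D₁.fin_B D₂)).d)
    (0 : _ →ₗ[T₁ ⊗[K] T₂] _) fun x y => by simp [D₁.f_d, D₂.f_d]
  μ := Box.tmap D₁.μ D₂.μ
  μ_l := Box.tmap_l _ _ D₁.μ_l D₂.μ_l
  μ_r b z := by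
    simpa using Box.tmap_r _ _ (AlgHom.id K S₁) (AlgHom.id K S₂) D₁.μ_r D₂.μ_r b z
  α := Box.kmap D₁.α D₂.α
  α_smul := Box.kmap_eqv E₁.l E₂.l _ _ D₁.α_smul D₂.α_smul
  α_e := GCx.kmap_boxE (D₁.fin_p D₂) (D₁.fin_B D₂) _ _ D₁.α_e D₂.α_e
  α_d z := by
    induction z using Box.induction_on with
    | h0 => simp
    | h2 x y hx hy =>
      have := add_mem hx hy
      simp only [map_add]
      convert this using 1
      abel
    | h1 x y =>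
      have := add_mem (MS.mk_left (rker_left E₁ E₂ χ₁ χ₂) (D₁.α_d x) (D₂.α y))
        (MS.mk_right (rker_right E₁ E₂ χ₁ χ₂) (D₁.α x) (D₂.α_d y))
      convert this using 1
      simp only [Box.kmap_mk, GCx.box_d_mk, map_add, map_sub, LinearMap.sub_apply]
      abel
  ω := Box.kmap D₁.ω D₂.ω
  ω_smul := Box.kmap_eqv E₁.l E₂.l _ _ D₁.ω_smul D₂.ω_smul
  ω_e := GCx.supp_boxE (D₁.fin_q D₂) t₁ t₂ (Box.kmap D₁.ω D₂.ω) (by simp [D₁.ω_e])
      (by simp [D₂.ω_e])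
  ω_c z := by
    induction z using Box.induction_on with
    | h0 => simp
    | h2 x y hx hy =>
      have := add_mem hx hy
      simp only [map_add]
      convert this using 1
      abel
    | h1 x y =>
      have := add_mem (MS.mk_left (rker_left E₁ E₂ χ₁ χ₂) (D₁.ω_c x) (D₂.ω (D₂.c y)))
        (MS.mk_right (rker_right E₁ E₂ χ₁ χ₂) (D₁.f (D₁.α x)) (D₂.ω_c y))
      convert this using 1
      simp only [Box.kmap_mk, Box.map_mk, map_sub, LinearMap.sub_apply]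
      abel
  μ_ω := Box.ext_add ((chiBox χ₁ χ₂).toLinearMap ∘ₗ Box.tmap (T₁ := T₁) (T₂ := T₂) D₁.μ D₂.μ ∘ₗ
    Box.kmap D₁.ω D₂.ω) (Box.fmul D₁.η D₂.η) fun x y => by simp [D₁.μ_ω, D₂.μ_ω]

variable {D₁ D₂}

theorem top_aux {X₁ X₂ : Type*} [AddCommGroup X₁] [Module K X₁] [Module S₁ X₁]
    [IsScalarTower K S₁ X₁] [AddCommGroup X₂] [Module K X₂] [Module S₂ X₂] [IsScalarTower K S₂ X₂]
    (f : X₁ →ₗ[K] K) (g : X₂ →ₗ[K] K) (v₁ : X₁) (v₂ : X₂)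
    (h₁ : ∀ x, x - f x • v₁ ∈ MS K X₁ (kerSet χ₁)) (h₂ : ∀ x, x - g x • v₂ ∈ MS K X₂ (kerSet χ₂))
    (z : Box K S₁ S₂ X₁ X₂) : z - Box.fmul f g z • Box.mk K S₁ S₂ v₁ v₂ ∈
      MS K (Box K S₁ S₂ X₁ X₂) (kerSet (chiBox χ₁ χ₂)) := by
  induction z using Box.induction_on with
  | h0 => simp
  | h2 x y hx hy =>
    have := add_mem hx hy
    simp only [map_add, add_smul]
    convert this using 1
    abel
  | h1 x y =>
    have := add_mem (MS.mk_left (kerSet_left χ₁ χ₂) (h₁ x) y)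
      (MS.mk_right (kerSet_right χ₁ χ₂) (f x • v₁) (h₂ y))
    convert this using 1
    simp only [Box.fmul_mk, map_sub, LinearMap.sub_apply, map_smul, LinearMap.smul_apply,
      smul_smul, mul_comm (g y)]
    abel

/-- The extra properties are stable under tensor products. -/
noncomputable def Top.box (h2 : (2 : K) = 0) (A₁ : D₁.Top) (A₂ : D₂.Top) :
    (D₁.box D₂ h2).Top where
  top_p := top_aux _ _ _ _ A₁.top_p A₂.top_p
  top_q := top_aux _ _ _ _ A₁.top_q A₂.top_q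
  η_c := Box.ext_add (Box.fmul D₁.η D₂.η ∘ₗ (Box.map D₁.c D₂.c).restrictScalars K)
    (0 : _ →ₗ[K] _) fun x y => by simp [A₁.η_c]
  μ_f := Box.ext_add (Box.tmap D₁.μ D₂.μ ∘ₗ (Box.map D₁.f D₂.f).restrictScalars K)
    (0 : _ →ₗ[K] _) fun x y => by simp [A₁.μ_f]
  one := Box.mk K T₁ T₂ A₁.one A₂.one
  central a := by
    induction a using TensorProduct.induction_on with
    | zero => simp
    | add x y hx hy => simp only [op_add, map_add, add_smul, hx, hy]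
    | tmul a b => simp [A₁.central, A₂.central]
  gen z := by
    induction z using Box.induction_on with
    | h0 => exact ⟨0, by simp⟩
    | h2 x y hx hy =>
      obtain ⟨a, ha⟩ := hx
      obtain ⟨b, hb⟩ := hy
      exact ⟨a + b, by rw [map_add, add_smul, ha, hb]⟩
    | h1 x y =>
      obtain ⟨a, rfl⟩ := A₁.gen x
      obtain ⟨b, rfl⟩ := A₂.gen y
      exact ⟨a ⊗ₜ b, by simp⟩
  χH := Box.fmul A₁.χH A₂.χH
  χH_l a z := by
    induction a using TensorProduct.induction_on with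
    | zero => simp
    | add x y hx hy => simp only [map_add, add_smul, add_mul, hx, hy]
    | tmul a a' =>
      induction z using Box.induction_on with
      | h0 => simp
      | h1 x y => simp [A₁.χH_l, A₂.χH_l]; ring
      | h2 x y hx hy => simp only [smul_add, map_add, mul_add, hx, hy]
  χH_r a z := by
    induction a using TensorProduct.induction_on with
    | zero => simp
    | add x y hx hy => simp only [op_add, map_add, add_smul, add_mul, hx, hy]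
    | tmul a a' =>
      induction z using Box.induction_on with
      | h0 => simp
      | h1 x y => simp [A₁.χH_r, A₂.χH_r]; ring
      | h2 x y hx hy => simp only [smul_add, map_add, mul_add, hx, hy]
  χH_one := by simp [A₁.χH_one, A₂.χH_one]

end Dat

end Box

end Crest.Agent.R186
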