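import Crest.Agent.R186.Box

/-! Enveloping algebras, one-sided projectivity of bimodules, augmentation submodules. -/

set_option autoImplicit false
set_option linter.unusedSectionVars false

namespace Crest.Agent.R186

open scoped TensorProduct
open MulOpposite

/-- `T` is an enveloping algebra of `S`: `S`-bimodules are `T`-modules. -/
structure Env (K S T : Type*) [Field K] [Ring S] [Ring T] [Algebra K S] [Algebra K T] where
  l : S →ₐ[K] T
  r : Sᵐᵒᵖ →ₐ[K] T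
  comm : ∀ a b, l a * r b = r b * l a
  β : S ⊗[K] S ≃ₗ[K] T
  β_tmul : ∀ a b, β (a ⊗ₜ[K] b) = l a * r (op b)

section
variable {K S T : Type*} [Field K] [Ring S] [Ring T] [Algebra K S] [Algebra K T]

namespace Env

variable (K S) in
/-- The standard enveloping algebra. -/
noncomputable def std : Env K S (S ⊗[K] Sᵐᵒᵖ) where
  l := Algebra.TensorProduct.includeLeft
  r := Algebra.TensorProduct.includeRight
  comm a b := by simp
  β := TensorProduct.congr (LinearEquiv.refl K S) (opLinearEquiv K)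
  β_tmul a b := by simp

@[simp] theorem std_l (a : S) : (std K S).l a = a ⊗ₜ[K] 1 := rfl
@[simp] theorem std_r (b : Sᵐᵒᵖ) : (std K S).r b = 1 ⊗ₜ[K] b := rfl

variable (E : Env K S T)

@[elab_as_elim]
theorem induction_on {p : T → Prop} (t : T) (h0 : p 0) (h1 : ∀ a b, p (E.l a * E.r (op b)))
    (h2 : ∀ s t, p s → p t → p (s + t)) : p t := by
  obtain ⟨z, rfl⟩ := E.β.surjective t
  induction z using TensorProduct.induction_on with
  | zero => simpa using h0
  | tmul a b => rw [E.β_tmul]; exact h1 a b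
  | add x y hx hy => rw [map_add]; exact h2 _ _ hx hy

theorem β_symm (a b : S) : E.β.symm (E.l a * E.r (op b)) = a ⊗ₜ[K] b := by
  rw [← E.β_tmul, LinearEquiv.symm_apply_apply]

/-- `K`-linear maps out of the enveloping algebra. -/
noncomputable def lift {V : Type*} [AddCommGroup V] [Module K V] (φ : S →ₗ[K] S →ₗ[K] V) :
    T →ₗ[K] V := TensorProduct.lift φ ∘ₗ E.β.symm.toLinearMap

@[simp] theorem lift_apply {V : Type*} [AddCommGroup V] [Module K V] (φ : S →ₗ[K] S →ₗ[K] V)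
    (a b : S) : E.lift φ (E.l a * E.r (op b)) = φ a b := by
  simp [lift, β_symm]

theorem l_mul (c a b : S) : E.l c * (E.l a * E.r (op b)) = E.l (c * a) * E.r (op b) := by
  rw [map_mul, mul_assoc]

theorem r_mul (c a b : S) : E.r (op c) * (E.l a * E.r (op b)) = E.l a * E.r (op (b * c)) := by
  rw [← mul_assoc, ← E.comm, mul_assoc, ← map_mul, op_mul]

variable {N : Type*} [AddCommGroup N] [Module T N]

theorem smul_comm (a : S) (b : Sᵐᵒᵖ) (n : N) : E.l a • E.r b • n = E.r b • E.l a • n := by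
  rw [← mul_smul, ← mul_smul, E.comm]

theorem r_smul_r (a b : S) (n : N) : E.r (op a) • E.r (op b) • n = E.r (op (b * a)) • n := by
  rw [← mul_smul, ← map_mul, op_mul]

theorem l_smul_l (a b : S) (n : N) : E.l a • E.l b • n = E.l (a * b) • n := by
  rw [← mul_smul, ← map_mul]

/-- An additive map commuting with both actions is `T`-linear. -/
theorem smul_eqv {N' F : Type*} [AddCommGroup N'] [Module T N'] [FunLike F N N']
    [AddMonoidHomClass F N N'] (f : F) (hl : ∀ a n, f (E.l a • n) = E.l a • f n)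
    (hr : ∀ b n, f (E.r (op b) • n) = E.r (op b) • f n) (t : T) (n : N) :
    f (t • n) = t • f n := by
  induction t using E.induction_on with
  | h0 => simp
  | h1 a b => rw [mul_smul, mul_smul, hl, hr]
  | h2 s t hs ht => simp [add_smul, hs, ht]

end Env

/-! ### One-sided projectivity -/

variable {N N' N'' : Type*} [AddCommGroup N] [Module K N] [Module T N] [IsScalarTower K T N]
  [AddCommGroup N'] [Module K N'] [Module T N'] [IsScalarTower K T N']
  [AddCommGroup N''] [Module K N''] [Module T N''] [IsScalarTower K T N'']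

/-- A `T`-linear map as an `S`-linear map of restricted modules. -/
def Res.map (φ : S →ₐ[K] T) (f : N →ₗ[T] N') : Res φ N →ₗ[S] Res φ N' where
  toFun n := Res.of φ N' (f ((Res.of φ N).symm n))
  map_add' := f.map_add
  map_smul' s n := f.map_smul (φ s) n

@[simp] theorem Res.map_of (φ : S →ₐ[K] T) (f : N →ₗ[T] N') (n : N) :
    Res.map φ f (Res.of φ N n) = Res.of φ N' (f n) := rfl

variable (N) in
/-- `N` is finitely generated projective over `S` acting through `φ`. -/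
def FPvia (φ : S →ₐ[K] T) : Prop := FP (LinearMap.id : Res φ N →ₗ[S] Res φ N)

theorem FP.res {φ : S →ₐ[K] T} (hT : FPvia T φ) {a : N →ₗ[T] N'} (ha : FP a) :
    FP (Res.map φ a) := by
  induction ha with
  | zero => exact FP.zero.congr fun _ => rfl
  | add _ _ h1 h2 => exact (h1.add h2).congr fun _ => rfl
  | one ψ y =>
    exact ((hT.comp_left (Res.map φ (LinearMap.toSpanSingleton T N' y))).comp_right
      (Res.map φ ψ)).congr fun _ => rfl

theorem FPvia.of_fp {φ : S →ₐ[K] T} (hT : FPvia T φ) (hN : FP (LinearMap.id : N →ₗ[T] N)) :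
    FPvia N φ := (hN.res hT).congr fun _ => rfl

theorem SES.res (φ : S →ₐ[K] T) {i : N' →ₗ[T] N} {j : N →ₗ[T] N''} (h : SES i j) :
    SES (Res.map φ i) (Res.map φ j) := ⟨h.inj, h.surj, h.ji, h.ex⟩

theorem FPvia.ses_left {φ : S →ₐ[K] T} {i : N' →ₗ[T] N} {j : N →ₗ[T] N''} (h : SES i j)
    (h1 : FPvia N φ) (h2 : FPvia N'' φ) : FPvia N' φ := (h.res φ).fp_left h1 h2

theorem FPvia.ses_mid {φ : S →ₐ[K] T} {i : N' →ₗ[T] N} {j : N →ₗ[T] N''} (h : SES i j)
    (h1 : FPvia N' φ) (h2 : FPvia N'' φ) : FPvia N φ := (h.res φ).fp_mid h1 h2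

theorem FPvia.prod {φ : S →ₐ[K] T} (h1 : FPvia N φ) (h2 : FPvia N' φ) : FPvia (N × N') φ :=
  FPvia.ses_mid (i := LinearMap.inl T N N') (j := LinearMap.snd T N N')
    ⟨LinearMap.inl_injective, LinearMap.snd_surjective, fun _ => rfl,
      fun y hy => ⟨y.1, Prod.ext rfl hy.symm⟩⟩ h1 h2

/-- Elementary description. -/
theorem FPvia.exists_fin {φ : S →ₐ[K] T} (h : FPvia N φ) :
    ∃ (m : ℕ) (ψ : Fin m → N →ₗ[K] S) (y : Fin m → N),
      (∀ k s n, ψ k (φ s • n) = s * ψ k n) ∧ ∀ n, ∑ k, φ (ψ k n) • y k = n := by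
  obtain ⟨m, ψ, y, h⟩ := FP.exists_fin h
  exact ⟨m, fun k => (ψ k).restrictScalars K ∘ₗ (Res.of φ N).toLinearMap, y,
    fun k s n => (ψ k).map_smul s n, fun n => (h n).symm⟩

theorem FPvia.of_fin {φ : S →ₐ[K] T} {ι : Type*} [Fintype ι] (ψ : ι → N →ₗ[K] S) (y : ι → N)
    (h1 : ∀ k s n, ψ k (φ s • n) = s * ψ k n) (h2 : ∀ n, ∑ k, φ (ψ k n) • y k = n) :
    FPvia N φ :=
  FP.of_fin (fun k => mkLin (K := K) (X := Res φ N) (ψ k) (h1 k)) (fun k => Res.of φ N (y k))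
    fun n => (h2 n).symm

theorem FPvia.comp_equiv {S' : Type*} [Ring S'] [Algebra K S'] {φ : S →ₐ[K] T} (h : FPvia N φ)
    (e : S' ≃ₐ[K] S) : FPvia N (φ.comp (e : S' →ₐ[K] S)) := by
  obtain ⟨m, ψ, y, h1, h2⟩ := h.exists_fin
  refine FPvia.of_fin (fun k => e.symm.toLinearMap ∘ₗ ψ k) y (fun k s n => ?_) (fun n => ?_)
  · simp [h1]
  · simpa using h2 n

theorem FPvia.finite [Module.Finite K S] {φ : S →ₐ[K] T} (h : FPvia N φ) : Module.Finite K N := by
  have := FP.finite h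
  exact (Module.Finite.trans S (Res φ N) : Module.Finite K (Res φ N))

theorem Env.fpvia_l [Module.Finite K S] (E : Env K S T) : FPvia T E.l := by
  let b := Module.finBasis K S
  refine FPvia.of_fin
    (fun k => E.lift ((LinearMap.smulRight (b.coord k) (LinearMap.id : S →ₗ[K] S)).flip))
    (fun k => E.r (op (b k))) (fun k s t => ?_) (fun t => ?_)
  · induction t using E.induction_on with
    | h0 => simp
    | h1 a c => rw [smul_eq_mul, E.l_mul, E.lift_apply, E.lift_apply]; simp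
    | h2 x y hx hy => simp only [smul_add, map_add, hx, hy, mul_add]
  · induction t using E.induction_on with
    | h0 => simp
    | h1 a c =>
      conv_rhs => rw [← b.sum_repr c, Finset.op_sum, map_sum, Finset.mul_sum]
      simp
    | h2 x y hx hy => simp only [map_add, add_smul, Finset.sum_add_distrib, hx, hy]

theorem Env.fpvia_r [Module.Finite K S] (E : Env K S T) : FPvia T E.r := by
  let b := Module.finBasis K S
  refine FPvia.of_fin
    (fun k => E.lift (LinearMap.smulRight (b.coord k) (opLinearEquiv K : S ≃ₗ[K] _).toLinearMap))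
    (fun k => E.l (b k)) (fun k s t => ?_) (fun t => ?_)
  · induction t using E.induction_on with
    | h0 => simp
    | h1 a c =>
      obtain ⟨s, rfl⟩ := op_surjective s
      rw [smul_eq_mul, E.r_mul, E.lift_apply, E.lift_apply]; simp
    | h2 x y hx hy => simp only [smul_add, map_add, hx, hy, mul_add]
  · induction t using E.induction_on with
    | h0 => simp
    | h1 a c =>
      conv_rhs => rw [← b.sum_repr a, map_sum, Finset.sum_mul]
      simp only [E.lift_apply]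
      simp [E.comm]
    | h2 x y hx hy => simp only [map_add, add_smul, Finset.sum_add_distrib, hx, hy]

/-! ### Augmentation submodules -/

variable (K N) in
/-- The span of `𝔪 • N`. -/
def MS (𝔪 : Set T) : Submodule K N := Submodule.span K {x | ∃ m ∈ 𝔪, ∃ n, m • n = x}

theorem MS.mem {𝔪 : Set T} {m : T} (hm : m ∈ 𝔪) (n : N) : m • n ∈ MS K N 𝔪 :=
  Submodule.subset_span ⟨m, hm, n, rfl⟩

theorem MS.le {𝔪 : Set T} {V : Type*} [AddCommGroup V] [Module K V] (f : N →ₗ[K] V)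
    (p : Submodule K V) (h : ∀ m ∈ 𝔪, ∀ n, f (m • n) ∈ p) {x : N} (hx : x ∈ MS K N 𝔪) :
    f x ∈ p := by
  have : MS K N 𝔪 ≤ p.comap f := Submodule.span_le.2 (by rintro _ ⟨m, hm, n, rfl⟩; exact h m hm n)
  exact this hx

theorem MS.eq_zero {𝔪 : Set T} {V : Type*} [AddCommGroup V] [Module K V] (f : N →ₗ[K] V)
    (h : ∀ m ∈ 𝔪, ∀ n, f (m • n) = 0) {x : N} (hx : x ∈ MS K N 𝔪) : f x = 0 :=
  MS.le f ⊥ h hx

theorem MS.map {𝔪 : Set T} (f : N →ₗ[T] N') {x : N} (hx : x ∈ MS K N 𝔪) :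
    f x ∈ MS K N' 𝔪 :=
  MS.le (f.restrictScalars K) _ (fun m hm n => by simpa using MS.mem hm (f n)) hx

/-- The kernel of a character. -/
def kerSet (χ : S →ₐ[K] K) : Set S := {m | χ m = 0}

/-- The kernel of a character acting on the right. -/
def Env.rker (E : Env K S T) (χ : S →ₐ[K] K) : Set T := {t | ∃ m, χ m = 0 ∧ E.r (op m) = t}

end

section Box

variable {K S₁ S₂ T₁ T₂ : Type*} [Field K] [Ring S₁] [Ring S₂] [Algebra K S₁] [Algebra K S₂]
  [Ring T₁] [Ring T₂] [Algebra K T₁] [Algebra K T₂]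

/-- Product of two characters. -/
noncomputable def chiBox (χ₁ : S₁ →ₐ[K] K) (χ₂ : S₂ →ₐ[K] K) : S₁ ⊗[K] S₂ →ₐ[K] K :=
  Algebra.TensorProduct.lift χ₁ χ₂ fun _ _ => Commute.all _ _

@[simp] theorem chiBox_tmul (χ₁ : S₁ →ₐ[K] K) (χ₂ : S₂ →ₐ[K] K) (a : S₁) (b : S₂) :
    chiBox χ₁ χ₂ (a ⊗ₜ[K] b) = χ₁ a * χ₂ b := rfl

/-- Tensor product of enveloping algebras. -/
noncomputable def Env.box (E₁ : Env K S₁ T₁) (E₂ : Env K S₂ T₂) :
    Env K (S₁ ⊗[K] S₂) (T₁ ⊗[K] T₂) where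
  l := Algebra.TensorProduct.map E₁.l E₂.l
  r := (Algebra.TensorProduct.map E₁.r E₂.r).comp
    ((Algebra.TensorProduct.opAlgEquiv K K S₁ S₂).symm : _ →ₐ[K] _)
  comm a b := by
    obtain ⟨b, rfl⟩ := op_surjective b
    induction a using TensorProduct.induction_on with
    | zero => simp
    | add x y hx hy => simp only [map_add, add_mul, mul_add, hx, hy]
    | tmul a a' =>
      induction b using TensorProduct.induction_on with
      | zero => simp
      | add x y hx hy => simp only [op_add, map_add, add_mul, mul_add, hx, hy]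
      | tmul b b' => simp [E₁.comm, E₂.comm]
  β := (TensorProduct.tensorTensorTensorComm K S₁ S₂ S₁ S₂).trans (TensorProduct.congr E₁.β E₂.β)
  β_tmul a b := by
    induction a using TensorProduct.induction_on with
    | zero => simp
    | add x y hx hy => simp only [TensorProduct.add_tmul, map_add, add_mul, hx, hy]
    | tmul a a' =>
      induction b using TensorProduct.induction_on with
      | zero => simp
      | add x y hx hy => simp only [TensorProduct.tmul_add, op_add, map_add, mul_add, hx, hy]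
      | tmul b b' => simp [E₁.β_tmul, E₂.β_tmul]

@[simp] theorem Env.box_l (E₁ : Env K S₁ T₁) (E₂ : Env K S₂ T₂) (a : S₁) (b : S₂) :
    (E₁.box E₂).l (a ⊗ₜ[K] b) = E₁.l a ⊗ₜ[K] E₂.l b := rfl

@[simp] theorem Env.box_r (E₁ : Env K S₁ T₁) (E₂ : Env K S₂ T₂) (a : S₁) (b : S₂) :
    (E₁.box E₂).r (op (a ⊗ₜ[K] b)) = E₁.r (op a) ⊗ₜ[K] E₂.r (op b) := rfl

variable {N₁ N₂ : Type*} [AddCommGroup N₁] [Module K N₁] [Module T₁ N₁] [IsScalarTower K T₁ N₁]
  [AddCommGroup N₂] [Module K N₂] [Module T₂ N₂] [IsScalarTower K T₂ N₂]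

theorem FPvia.box {φ₁ : S₁ →ₐ[K] T₁} {φ₂ : S₂ →ₐ[K] T₂} (h₁ : FPvia N₁ φ₁) (h₂ : FPvia N₂ φ₂) :
    FPvia (Box K T₁ T₂ N₁ N₂) (Algebra.TensorProduct.map φ₁ φ₂) := by
  obtain ⟨m₁, ψ₁, y₁, a₁, b₁⟩ := h₁.exists_fin
  obtain ⟨m₂, ψ₂, y₂, a₂, b₂⟩ := h₂.exists_fin
  refine FPvia.of_fin (ι := Fin m₁ × Fin m₂)
    (fun k => Box.lift ((TensorProduct.mk K S₁ S₂).compl₁₂ (ψ₁ k.1) (ψ₂ k.2)))
    (fun k => Box.mk K T₁ T₂ (y₁ k.1) (y₂ k.2)) (fun k s n => ?_) (fun n => ?_)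
  · induction s using TensorProduct.induction_on with
    | zero => simp
    | add x y hx hy => simp only [map_add, add_smul, add_mul, hx, hy]
    | tmul s s' =>
      induction n using Box.induction_on with
      | h0 => simp
      | h1 x y => simp [a₁, a₂]
      | h2 x y hx hy => simp only [smul_add, map_add, mul_add, hx, hy]
  · induction n using Box.induction_on with
    | h0 => simp
    | h1 x y =>
      conv_rhs => rw [← b₁ x, ← b₂ y]
      simp [Fintype.sum_prod_type, map_sum, LinearMap.sum_apply]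
      rw [Finset.sum_comm]
    | h2 x y hx hy => simp only [map_add, add_smul, Finset.sum_add_distrib, hx, hy]

theorem FPvia.box_l {E₁ : Env K S₁ T₁} {E₂ : Env K S₂ T₂} (h₁ : FPvia N₁ E₁.l)
    (h₂ : FPvia N₂ E₂.l) : FPvia (Box K T₁ T₂ N₁ N₂) (E₁.box E₂).l := h₁.box h₂

theorem FPvia.box_r {E₁ : Env K S₁ T₁} {E₂ : Env K S₂ T₂} (h₁ : FPvia N₁ E₁.r)
    (h₂ : FPvia N₂ E₂.r) : FPvia (Box K T₁ T₂ N₁ N₂) (E₁.box E₂).r :=
  (h₁.box h₂).comp_equiv _

theorem MS.mk_left {𝔪₁ : Set T₁} {𝔪 : Set (T₁ ⊗[K] T₂)} (h : ∀ m ∈ 𝔪₁, m ⊗ₜ[K] (1 : T₂) ∈ 𝔪)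
    {x : N₁} (hx : x ∈ MS K N₁ 𝔪₁) (y : N₂) :
    Box.mk K T₁ T₂ x y ∈ MS K (Box K T₁ T₂ N₁ N₂) 𝔪 :=
  MS.le ((Box.mk K T₁ T₂).flip y) _
    (fun m hm n => by simpa using MS.mem (K := K) (h m hm) (Box.mk K T₁ T₂ n y)) hx

theorem MS.mk_right {𝔪₂ : Set T₂} {𝔪 : Set (T₁ ⊗[K] T₂)} (h : ∀ m ∈ 𝔪₂, (1 : T₁) ⊗ₜ[K] m ∈ 𝔪)
    (x : N₁) {y : N₂} (hy : y ∈ MS K N₂ 𝔪₂) :
    Box.mk K T₁ T₂ x y ∈ MS K (Box K T₁ T₂ N₁ N₂) 𝔪 :=
  MS.le (Box.mk K T₁ T₂ x) _
    (fun m hm n => by simpa using MS.mem (K := K) (h m hm) (Box.mk K T₁ T₂ x n)) hy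

theorem kerSet_left (χ₁ : S₁ →ₐ[K] K) (χ₂ : S₂ →ₐ[K] K) :
    ∀ m ∈ kerSet χ₁, m ⊗ₜ[K] (1 : S₂) ∈ kerSet (chiBox χ₁ χ₂) := fun m hm => by
  simpa [kerSet] using hm

theorem kerSet_right (χ₁ : S₁ →ₐ[K] K) (χ₂ : S₂ →ₐ[K] K) :
    ∀ m ∈ kerSet χ₂, (1 : S₁) ⊗ₜ[K] m ∈ kerSet (chiBox χ₁ χ₂) := fun m hm => by
  simpa [kerSet] using hm

theorem rker_left (E₁ : Env K S₁ T₁) (E₂ : Env K S₂ T₂) (χ₁ : S₁ →ₐ[K] K) (χ₂ : S₂ →ₐ[K] K) :
    ∀ m ∈ E₁.rker χ₁, m ⊗ₜ[K] (1 : T₂) ∈ (E₁.box E₂).rker (chiBox χ₁ χ₂) := by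
  rintro _ ⟨m, hm, rfl⟩
  exact ⟨m ⊗ₜ 1, by simpa using hm, by simp⟩

theorem rker_right (E₁ : Env K S₁ T₁) (E₂ : Env K S₂ T₂) (χ₁ : S₁ →ₐ[K] K) (χ₂ : S₂ →ₐ[K] K) :
    ∀ m ∈ E₂.rker χ₂, (1 : T₁) ⊗ₜ[K] m ∈ (E₁.box E₂).rker (chiBox χ₁ χ₂) := by
  rintro _ ⟨m, hm, rfl⟩
  exact ⟨1 ⊗ₜ m, by simpa using hm, by simp⟩

end Box

end Crest.Agent.R186
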