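import Crest.Agent.R186.Basic
import Crest.Prelude.Def_GorensteinProjective

/-! Row 186: translation of the `Cx` toolkit into Mathlib's `Ext` and the Prelude's
Gorenstein-projective modules. -/

set_option autoImplicit false
set_option linter.unusedSectionVars false

namespace Crest.Agent.R186

universe u

open CategoryTheory

variable {S X N : Type u} [Ring S] [AddCommGroup X] [Module S X] [AddCommGroup N] [Module S N]
  {P : Cx S X}

theorem SES.exact {S A B C : Type*} [Ring S] [AddCommGroup A] [Module S A] [AddCommGroup B]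
    [Module S B] [AddCommGroup C] [Module S C] {i : A →ₗ[S] B} {j : B →ₗ[S] C} (h : SES i j) :
    Function.Exact i j := fun y =>
  ⟨fun hy => h.ex y hy, by rintro ⟨x, rfl⟩; exact h.ji x⟩

/-- The short complex of `ModuleCat` attached to a short exact sequence. -/
noncomputable abbrev SES.sc {A B C : Type u} [AddCommGroup A] [Module S A] [AddCommGroup B]
    [Module S B] [AddCommGroup C] [Module S C] {i : A →ₗ[S] B} {j : B →ₗ[S] C} (h : SES i j) :
    ShortComplex (ModuleCat.{u} S) :=
  ShortComplex.mk (ModuleCat.ofHom i) (ModuleCat.ofHom j) (by ext x; exact h.ji x)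

theorem SES.shortExact {A B C : Type u} [AddCommGroup A] [Module S A] [AddCommGroup B]
    [Module S B] [AddCommGroup C] [Module S C] {i : A →ₗ[S] B} {j : B →ₗ[S] C} (h : SES i j) :
    h.sc.ShortExact :=
  ModuleCat.shortComplex_shortExact _ h.exact h.inj h.surj

theorem SES.ext_succ {A B C : Type u} [AddCommGroup A] [Module S A] [AddCommGroup B]
    [Module S B] [AddCommGroup C] [Module S C] {i : A →ₗ[S] B} {j : B →ₗ[S] C} (h : SES i j)
    (hB : Module.Projective S B) (n : ℕ)
    (x : Abelian.Ext (ModuleCat.of S C) (ModuleCat.of S N) (n + 1)) :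
    ∃ y : Abelian.Ext (ModuleCat.of S A) (ModuleCat.of S N) n,
      h.shortExact.extClass.comp y (add_comm 1 n) = x := by
  have : Projective h.sc.X₂ := ModuleCat.projective_of_categoryTheory_projective _
  exact Abelian.Ext.contravariant_sequence_exact₃ h.shortExact (ModuleCat.of S N) x
    (Abelian.Ext.eq_zero_of_projective _) (add_comm 1 n)

theorem ext_subsingleton (hP : P.IsFP) (hex : ∀ n, P.ExactAt n) (k : ℤ) (i : ℕ)
    (h : P.HZ N (k + i + 1)) :
    Subsingleton (CategoryTheory.Abelian.Ext (ModuleCat.of S (P.cok k)) (ModuleCat.of S N)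
      (i + 1)) := by
  induction i generalizing k with
  | zero =>
    refine subsingleton_of_forall_eq 0 fun x => ?_
    have hs := P.cok_ses k (hex (k + 1))
    obtain ⟨y, rfl⟩ := hs.ext_succ (P.tm_fp hP k).projective 0 x
    obtain ⟨f, rfl⟩ := (Abelian.Ext.mk₀_bijective _ _).2 y
    simp only [Nat.cast_zero, add_zero] at h
    obtain ⟨g, hg⟩ := h (f.hom ∘ₗ P.pr (k + 1)) ((P.pr_coc (k + 1)).comp f.hom)
    simp only [add_sub_cancel_right] at hg
    have hf : f = hs.sc.f ≫ ModuleCat.ofHom (g ∘ₗ (P.tm k).subtype) := by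
      ext w
      exact (hg w).symm
    rw [hf, ← Abelian.Ext.mk₀_comp_mk₀]
    exact hs.shortExact.extClass_comp_assoc _
  | succ i ih =>
    refine subsingleton_of_forall_eq 0 fun x => ?_
    have hs := P.cok_ses k (hex (k + 1))
    obtain ⟨y, rfl⟩ := hs.ext_succ (P.tm_fp hP k).projective (i + 1) x
    have h' : P.HZ N (k + 1 + i + 1) := by
      have e : k + 1 + (i : ℤ) + 1 = k + ((i + 1 : ℕ) : ℤ) + 1 := by push_cast; ring
      rw [e]; exact h
    have := ih (k + 1) h'
    rw [Subsingleton.elim y 0]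
    exact Abelian.Ext.comp_zero _ _ _ _ _

theorem cok_finite (hP : P.IsFP) (k : ℤ) : Module.Finite S (P.cok k) := by
  have := (P.tm_fp hP k).finite
  refine Module.Finite.of_surjective (P.pr k ∘ₗ (P.tm k).subtype) fun z => ?_
  obtain ⟨x, rfl⟩ := P.pr_surj _ z
  exact ⟨⟨P.e k x, x, rfl⟩, by simp [P.pr_e]⟩

theorem TotAc.not_projective (h : TotAc P) (nz : ¬ P.HZ (P.cok 0) 0) :
    ¬ Module.Projective S (P.cok 0) := fun hp => by
  have := cok_finite h.fp 0
  exact nz ((h.hz 0).of_fp FP.of_projective)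

/-- The differential between the terms of the complex. -/
def Cx.dt (P : Cx S X) (n : ℤ) : P.tm (n + 1) →ₗ[S] P.tm n :=
  ((P.d n).codRestrict _ fun x => ⟨_, P.ed n x⟩) ∘ₗ (P.tm (n + 1)).subtype

@[simp] theorem Cx.dt_apply (P : Cx S X) (n : ℤ) (x : P.tm (n + 1)) :
    (P.dt n x : X) = P.d n x := rfl

theorem Cx.tm_e (P : Cx S X) {n : ℤ} (x : P.tm n) : P.e n x = x := by
  obtain ⟨_, y, rfl⟩ := x
  exact P.ee n y

theorem TotAc.gp (h : TotAc P) : Crest.AlgebraR.IsGorensteinProjective S (P.cok 0) := by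
  refine ⟨fun n => P.tm n, fun n => inferInstance, fun n => inferInstance, P.dt,
    fun n => ⟨(P.tm_fp h.fp n).finite, (P.tm_fp h.fp n).projective⟩, fun n x => ?_,
    fun n g => ?_, ⟨?_⟩⟩
  · constructor
    · intro hx
      have hx' : P.d n x = 0 := congrArg Subtype.val hx
      obtain ⟨w, hw⟩ := h.ex (n + 1) x (P.tm_e x) (by simpa using hx')
      exact ⟨⟨P.e _ w, w, rfl⟩, Subtype.ext (by simp [P.de, hw])⟩
    · rintro ⟨w, rfl⟩
      exact Subtype.ext (P.dd n w)
  · constructor
    · intro hg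
      have hg' : ∀ w, g (P.dt (n + 1) w) = 0 := fun w => LinearMap.congr_fun hg w
      have hc : P.Coc (n + 1) (g ∘ₗ (P.e (n + 1)).rangeRestrict) := by
        refine ⟨fun x => ?_, fun x => ?_⟩
        · simp only [LinearMap.comp_apply]
          congr 1
          exact Subtype.ext (P.ee _ x)
        · simp only [LinearMap.comp_apply]
          rw [← hg' ⟨P.e _ x, x, rfl⟩]
          congr 1
          exact Subtype.ext (by simp [P.ed, P.de])
      obtain ⟨f, hf⟩ := h.hz _ _ hc
      simp only [add_sub_cancel_right] at hf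
      refine ⟨f ∘ₗ (P.tm n).subtype, ?_⟩
      ext x
      simp only [LinearMap.comp_apply, Submodule.subtype_apply, Cx.dt_apply, hf]
      congr 1
      exact Subtype.ext (P.tm_e x)
    · rintro ⟨f, rfl⟩
      ext x
      have : P.dt n (P.dt (n + 1) x) = 0 := Subtype.ext (P.dd n x)
      simp [this]
  · have hs := P.cok_ses 0 (h.ex _)
    refine ((LinearMap.quotKerEquivOfSurjective _ hs.surj).symm).trans
      (Submodule.quotEquivOfEq _ _ ?_)
    ext y
    constructor
    · intro hy
      obtain ⟨z, rfl⟩ := hs.ex y hy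
      obtain ⟨x, rfl⟩ := P.pr_surj _ z
      exact ⟨⟨P.e _ x, x, rfl⟩, Subtype.ext (P.de 0 x)⟩
    · rintro ⟨w, rfl⟩
      exact P.pr_d 0 w

end Crest.Agent.R186
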