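import Crest.Agent.R186.GorAux

/-! The algebra `B = (C ⊗ C) ⊗ D` is Gorenstein; its radical. -/

set_option autoImplicit false

namespace Crest.Agent.R186

open scoped TensorProduct

universe u

open GorAux CA

variable {K : Type u} [Field K]

theorem gor_B (q : K) (hq : q ≠ 0) : Gor K ((CA q ⊗[K] CA q) ⊗[K] DualNumber K) := by
  have : Module.Finite K (DualNumber K) := inferInstanceAs (Module.Finite K (K × K))
  exact (fi_tensor (fi_tensor (fi_C hq) (fi_C hq)) fi_dual).gor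

namespace GorAux

/-- The projection of `B` onto `K⁴`. -/
noncomputable def phiB (q : K) : ((CA q ⊗[K] CA q) ⊗[K] DualNumber K) →ₐ[K] (Fin 4 → K) :=
  (chr4 K).comp (Algebra.TensorProduct.map
    (Algebra.TensorProduct.map ((chu q).prod (chi q)) ((chu q).prod (chi q)))
    (TrivSqZeroExt.fstHom K K K))

theorem phiB_tmul (q : K) (a b : CA q) (c : DualNumber K) : phiB q ((a ⊗ₜ[K] b) ⊗ₜ[K] c) =
    ![a.u * b.u * c.fst, a.u * b.e * c.fst, a.e * b.u * c.fst, a.e * b.e * c.fst] := by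
  rw [phiB, AlgHom.comp_apply, Algebra.TensorProduct.map_tmul, Algebra.TensorProduct.map_tmul,
    chr4_tmul]
  rfl

theorem nilKer_phiB (q : K) :
    NilKer (K := K) (S := (CA q ⊗[K] CA q) ⊗[K] DualNumber K) (T := Fin 4 → K) (phiB q) := by
  have h1 := ((nilKer_C q).map (nilKer_C q)).map (nilKer_D (K := K))
  have h2 : NilKer (K := K) (S := ((K × K) ⊗[K] (K × K)) ⊗[K] K) (T := Fin 4 → K) (chr4 K) :=
    NilKer.of_injective chr4_injective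
  exact h2.comp h1

theorem phiB_surjective (q : K) : Function.Surjective (phiB q) := fun v => by
  refine ⟨v 0 • (bu q ⊗ₜ[K] bu q) ⊗ₜ[K] 1 + v 1 • (bu q ⊗ₜ[K] be q) ⊗ₜ[K] 1 +
    v 2 • (be q ⊗ₜ[K] bu q) ⊗ₜ[K] 1 + v 3 • (be q ⊗ₜ[K] be q) ⊗ₜ[K] 1, ?_⟩
  simp only [map_add, map_smul, phiB_tmul]
  ext t
  fin_cases t <;> simp

theorem prod_ne_zero (q : K) :
    (((by' q ⊗ₜ[K] 1) ⊗ₜ[K] 1) * ((bx q ⊗ₜ[K] 1) ⊗ₜ[K] 1) * ((1 ⊗ₜ[K] by' q) ⊗ₜ[K] 1) *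
      ((1 ⊗ₜ[K] bx q) ⊗ₜ[K] 1) : (CA q ⊗[K] CA q) ⊗[K] DualNumber K) ≠ 0 := by
  let l : ((CA q ⊗[K] CA q) ⊗[K] DualNumber K) →ₗ[K] K :=
    LinearMap.mul' K K ∘ₗ TensorProduct.map
      (LinearMap.mul' K K ∘ₗ TensorProduct.map (cs q) (cs q))
      (TrivSqZeroExt.fstHom K K K).toLinearMap
  have hl : ∀ (a b : CA q) (c : DualNumber K), l ((a ⊗ₜ[K] b) ⊗ₜ[K] c) = a.s * b.s * c.fst :=
    fun a b c => by simp [l]
  intro h
  have := congrArg l h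
  simp only [Algebra.TensorProduct.tmul_mul_tmul, hl, map_zero] at this
  simp at this

end GorAux

theorem rad_B (q : K) : ∃ φ : ((CA q ⊗[K] CA q) ⊗[K] DualNumber K) →ₐ[K] (Fin 4 → K),
    Function.Surjective φ ∧ (∀ x, φ x = 0 → IsNilpotent x) ∧
      ∃ a b c d, φ a = 0 ∧ φ b = 0 ∧ φ c = 0 ∧ φ d = 0 ∧ a * b * c * d ≠ 0 := by
  refine ⟨phiB q, phiB_surjective q, fun x hx => (nilKer_phiB q).isNilpotent hx, _, _, _, _,
    ?_, ?_, ?_, ?_, prod_ne_zero q⟩ <;>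
  · rw [phiB_tmul]; ext t; fin_cases t <;> simp

end Crest.Agent.R186
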