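import Crest.Agent.R186.Main2
import Crest.Agent.R186.CDat
import Crest.Agent.R186.DDat
import Crest.Agent.R186.Gor
import Crest.Agent.R186.Assemble

/-! The main construction over every extension of `𝔽₂(x₀, x₁, x₂)`. -/

set_option autoImplicit false

namespace Crest.Agent.R186

open scoped TensorProduct

universe u

theorem coreExists_of_param {K : Type u} [Field K] (h2 : (2 : K) = 0) (q : K) (hq0 : q ≠ 0)
    (hq : ∀ n : ℕ, 0 < n → q ^ n ≠ 1) : CoreExists K := by
  have : Module.Finite K (DualNumber K) := inferInstanceAs (Module.Finite K (K × K))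
  have hl : ∀ n : ℤ, n ≠ 0 → q ^ n ≠ 1 := fun n hn h => by
    obtain ⟨m, rfl | rfl⟩ := n.eq_nat_or_neg
    · exact hq m (by omega) (by simpa using h)
    · exact hq m (by omega) (by simpa using h)
  have hR := TopExists.box h2 (topExists_C q hq0 hq) (topExists_C q hq0 hq)
  obtain ⟨X, U, _, _, _, _, _, _, _, _, ⟨M⟩⟩ := exists_MD _ (Env.std K (DualNumber K)) _
    (TrivSqZeroExt.fstHom K K K) h2 q hl hR (twExists_dual q hq0) (gor_B q hq0)
  exact M.coreExists (gor_B q hq0) (rad_B q)

theorem coreExists (K : Type u) [Field K]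
    [Algebra (FractionRing (MvPolynomial (Fin 3) (ZMod 2))) K] : CoreExists K := by
  let φ : MvPolynomial (Fin 3) (ZMod 2) →+* K :=
    (algebraMap (FractionRing (MvPolynomial (Fin 3) (ZMod 2))) K).comp (algebraMap _ _)
  have hφ : Function.Injective φ :=
    (algebraMap (FractionRing (MvPolynomial (Fin 3) (ZMod 2))) K).injective.comp
      (IsFractionRing.injective _ _)
  refine coreExists_of_param ?_ (φ (MvPolynomial.X 0)) ?_ fun n hn h => ?_
  · have : (2 : MvPolynomial (Fin 3) (ZMod 2)) = 0 := CharTwo.two_eq_zero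
    rw [← map_ofNat φ 2, this, map_zero]
  · rw [map_ne_zero_iff φ hφ]; exact MvPolynomial.X_ne_zero _
  · rw [← map_pow, ← map_one φ] at h
    have := congrArg (MvPolynomial.eval (fun _ => (0 : ZMod 2))) (hφ h)
    simp [hn.ne'] at this

end Crest.Agent.R186
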