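import Crest.Agent.R186.GammaMid

/-! Row 186: S0282-S0285 from the symmetric core. -/

set_option autoImplicit false
set_option linter.unusedSectionVars false

open CategoryTheory Crest.AlgebraR

namespace Crest.Agent.R186

universe u

namespace Gam

variable {A X : Type u} [Ring A] [AddCommGroup X] [Module A X] {P : Cx A X}

theorem exists_iota (hP : TotAc P) (i : ℤ) : ∃ ι : P.cok i →ₗ[A] X, Function.Injective ι ∧
    ∀ x, ι (P.pr i x) = P.d (i - 1) x := by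
  obtain ⟨ι, hι⟩ := Cx.Coc.desc (P := P) (n := i) (f := P.d (i - 1)) ⟨P.de' i, P.dd' i⟩
  refine ⟨ι, ?_, hι⟩
  rw [← LinearMap.ker_eq_bot, LinearMap.ker_eq_bot']
  intro z hz
  obtain ⟨x, rfl⟩ := P.pr_surj _ z
  exact P.pr_eq_zero.2 (hP.ex i _ (P.ee _ _) (by rw [P.de', ← hι, hz]))

theorem lift_cok (hP : TotAc P) (pos : ∀ i : ℤ, 1 ≤ i → P.HZ (P.cok 0) i) {m : ℤ} (hm : m ≤ -1)
    (ψ : P.cok 0 →ₗ[A] X) (hψ : ∀ z, ∃ w, P.d (m - 1) w = ψ z) :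
    ∃ g : P.cok 0 →ₗ[A] X, ∀ z, P.d (m - 1) (g z) = ψ z := by
  obtain ⟨ι, hι, hιd⟩ := exists_iota hP m
  obtain ⟨ψ₁, hψ₁⟩ := exists_fac ι hι ψ fun z => by
    obtain ⟨w, hw⟩ := hψ z
    exact ⟨P.pr m w, (hιd w).trans hw⟩
  have hz := (P.hz_cok_shift hP.fp hP.hz hP.ex 0 (-m) m).2 (pos _ (by omega))
  rw [zero_add, neg_add_cancel] at hz
  obtain ⟨g, hge, hg⟩ := (hz _ ((P.pr_coc 0).comp ψ₁)).exists_homog
  obtain ⟨g₁, -, hg₁⟩ := hP.fp.lift _ g hge (P.pr m) fun x => P.pr_surj _ _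
  obtain ⟨g₂, hg₂⟩ := Cx.Coc.desc (P := P) (n := 0) (f := g₁ ∘ₗ P.d (0 - 1))
    ⟨fun x => by rw [LinearMap.comp_apply, P.de', LinearMap.comp_apply],
      fun x => by rw [LinearMap.comp_apply, P.dd', map_zero]⟩
  refine ⟨g₂, fun z => ?_⟩
  obtain ⟨x, rfl⟩ := P.pr_surj _ z
  rw [hg₂, LinearMap.comp_apply, ← hιd, hg₁, hg, LinearMap.comp_apply, hψ₁]

/-- The differential between the terms. -/
def dtm (P : Cx A X) (a b : ℤ) : P.tm a →ₗ[A] P.tm b :=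
  ((P.d b).codRestrict _ fun x => ⟨_, P.ed b x⟩) ∘ₗ (P.tm a).subtype

/-- The differential on the contractible part. -/
def alt (A : Type u) [Ring A] (j : ℕ) : A →ₗ[A] A := if Even j then 0 else LinearMap.id

theorem e_tm {n : ℤ} (t : P.tm n) : P.e n t = t := by
  obtain ⟨_, x, rfl⟩ := t
  exact P.ee _ _

theorem exists_abs {K : Type u} [Field K] (h : CoreSymExists K) :
    ∃ (Γ : Type u) (_ : Ring Γ) (_ : Algebra K Γ), FiniteDimensional K Γ ∧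
      ∃ (W : Type u) (_ : AddCommGroup W) (_ : Module Γ W)
        (C : ℕ → Type u) (_ : ∀ j, AddCommGroup (C j)) (_ : ∀ j, Module Γ (C j))
        (ε : Γ →ₗ[Γ] C 0) (d : ∀ j : ℕ, C j →ₗ[Γ] C (j + 1)) (𝔞 : Ideal Γ),
        Abs Γ W C ε d 𝔞 := by
  obtain ⟨A, _, _, X, _, _, _, _, P, hfin, ⟨φ, hφ⟩, hP, pos, nz⟩ := h
  have h1 : Module.Finite A (P.tm 0) := (P.tm_fp hP.fp 0).finite
  have h2 : Module.Finite A (P.cok 0) :=
    Module.Finite.of_surjective _ (P.cok_ses 0 (hP.ex _)).surj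
  have h3 : Module.Finite K (A × P.cok 0) := Module.Finite.trans A _
  obtain ⟨ι, hι, hιd⟩ := exists_iota hP 0
  have n0 : (-1 - ((0 : ℕ) : ℤ)) = 0 - 1 := by simp
  have ns : ∀ j : ℕ, (-1 - ((j + 1 : ℕ) : ℤ)) = -1 - (j : ℤ) - 1 := fun j => by push_cast; ring
  let ι' : P.cok 0 →ₗ[A] P.tm (-1 - ((0 : ℕ) : ℤ)) := ι.codRestrict _ fun z => by
    obtain ⟨x, rfl⟩ := P.pr_surj _ z
    exact ⟨_, by rw [hιd, n0, P.ed]⟩
  refine ⟨(Module.End A (A × P.cok 0))ᵐᵒᵖ, inferInstance, inferInstance, end_finite, _, _, _, _,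
    _, _, _, _, _, mid φ hφ (p := LinearMap.fst A A (P.cok 0)) (w₁ := (1, 0)) rfl
    (fun j => A × P.tm (-1 - (j : ℤ))) (fun j => FP.id_self.prod (P.tm_fp hP.fp _))
    (LinearMap.id.prodMap ι') (fun j => (alt A j).prodMap (dtm P _ _)) ?_ ?_ ?_ ?_ ?_⟩
  · rintro ⟨a, z⟩ ⟨a', z'⟩ hh
    simp only [LinearMap.prodMap_apply, LinearMap.id_apply, Prod.mk.injEq] at hh
    exact Prod.ext hh.1 (hι (congrArg Subtype.val hh.2))
  · rintro ⟨a, t⟩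
    constructor
    · intro hh
      have h4 : P.d (-1 - ((0 + 1 : ℕ) : ℤ)) t = 0 := congrArg (fun y => (y.2 : X)) hh
      rw [ns] at h4
      obtain ⟨w, hw⟩ := hP.ex _ _ (e_tm t) h4
      refine ⟨(a, P.pr 0 w), Prod.ext rfl (Subtype.ext ?_)⟩
      change ι (P.pr 0 w) = t
      rw [hιd, ← hw, n0]
    · rintro ⟨⟨a', z⟩, hh⟩
      obtain ⟨x, rfl⟩ := P.pr_surj _ z
      rw [← hh]
      refine Prod.ext (by simp [alt]) (Subtype.ext ?_)
      change P.d (-1 - ((0 + 1 : ℕ) : ℤ)) (ι (P.pr 0 x)) = 0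
      rw [hιd, ns, n0, P.dd']
  · rintro j ⟨a, t⟩
    refine Prod.ext ?_ (Subtype.ext ?_)
    · by_cases hj : Even j <;> simp [alt, hj, Nat.even_add_one]
    · change P.d (-1 - ((j + 1 + 1 : ℕ) : ℤ)) (P.d (-1 - ((j + 1 : ℕ) : ℤ)) t) = 0
      rw [ns (j + 1), P.dd']
  · intro j f hf
    let ψ : A × P.cok 0 →ₗ[A] X := (P.tm _).subtype ∘ₗ LinearMap.snd A A _ ∘ₗ f
    have hψ : ∀ w, ∃ x, P.d (-1 - (j : ℤ) - 1) x = ψ w := fun w => by
      have h4 : P.d (-1 - ((j + 1 + 1 : ℕ) : ℤ)) (f w).2 = 0 :=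
        congrArg (fun y => (y.2 : X)) (hf w)
      rw [ns (j + 1)] at h4
      rw [← ns]
      exact hP.ex _ _ (e_tm (f w).2) h4
    obtain ⟨g₁, hg₁⟩ := FP.id_self.lift' (ψ ∘ₗ LinearMap.inl A A _) (P.d (-1 - (j : ℤ) - 1))
      fun a => hψ _
    obtain ⟨g₂, hg₂⟩ := lift_cok hP pos (m := -1 - (j : ℤ)) (by omega) (ψ ∘ₗ LinearMap.inr A A _)
      fun a => hψ _
    refine ⟨(LinearMap.fst A A _ ∘ₗ f).prod
      ((P.e (-1 - (j : ℤ))).rangeRestrict ∘ₗ g₁.coprod g₂), fun w => Prod.ext ?_ (Subtype.ext ?_)⟩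
    · have h4 : alt A (j + 1) (f w).1 = 0 := congrArg Prod.fst (hf w)
      change alt A j (f w).1 = (f w).1
      by_cases hj : Even j
      · simp only [alt, Nat.even_add_one, hj, not_true, if_false, LinearMap.id_apply] at h4
        rw [h4, map_zero]
      · simp [alt, hj]
    · change P.d (-1 - ((j + 1 : ℕ) : ℤ)) (P.e (-1 - (j : ℤ)) (g₁ w.1 + g₂ w.2)) = ψ w
      rw [ns, P.de', map_add, hg₁, hg₂]
      change ψ (w.1, 0) + ψ (0, w.2) = ψ w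
      rw [← map_add]
      simp
  · intro hfp
    exact nz ((hP.hz 0).of_fp (FP.retract (i := LinearMap.inr A A (P.cok 0))
      (r := LinearMap.snd A A (P.cok 0)) hfp fun _ => rfl))

end Gam

variable {K : Type u} [Field K]

theorem s0282_of_coreSym (h : CoreSymExists K) :
    ∃ (Γ : Type u) (_ : Ring Γ) (_ : Algebra K Γ), FiniteDimensional K Γ ∧
      ∃ S : ModuleCat.{u} Γ, IsSimpleModule Γ S ∧
        ∀ i : ℕ, Subsingleton (Abelian.Ext S (ModuleCat.of Γ Γ) i) := by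
  obtain ⟨Γ, _, _, hf, W, _, _, C, _, _, ε, d, 𝔞, H⟩ := Gam.exists_abs h
  exact ⟨Γ, _, _, hf, H.s0282⟩

theorem s0283_of_coreSym (h : CoreSymExists K) :
    ∃ (Γ : Type u) (_ : Ring Γ) (_ : Algebra K Γ), FiniteDimensional K Γ ∧
      ∀ n : ℕ, 1 ≤ n → ∃ C : ModuleCat.{u} Γ, Module.Finite Γ C ∧
        projectiveDimension C = (n : WithBot ℕ∞) := by
  obtain ⟨Γ, _, _, hf, W, _, _, C, _, _, ε, d, 𝔞, H⟩ := Gam.exists_abs h
  exact ⟨Γ, _, _, hf, H.s0283⟩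

theorem s0284_of_coreSym (h : CoreSymExists K) :
    ∃ (Γ : Type u) (_ : Ring Γ) (_ : Algebra K Γ), FiniteDimensional K Γ ∧
      (∃ (I : ℕ → ModuleCat.{u} Γ) (ε : Γ →ₗ[Γ] I 0) (d : ∀ j : ℕ, I j →ₗ[Γ] I (j + 1)),
        Function.Injective ε ∧ Function.Exact ε (d 0) ∧ (∀ j, Function.Exact (d j) (d (j + 1))) ∧
        ∀ j, Module.Projective Γ (I j) ∧ Module.Injective Γ (I j)) ∧
      ∀ n : ℕ, ¬ HasInjectiveDimensionLT (ModuleCat.of Γ Γ) n := by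
  obtain ⟨Γ, _, _, hf, W, _, _, C, _, _, ε, d, 𝔞, H⟩ := Gam.exists_abs h
  exact ⟨Γ, _, _, hf, H.s0284⟩

theorem s0285_of_coreSym (h : CoreSymExists K) :
    ∃ (Γ : Type u) (_ : Ring Γ) (_ : Algebra K Γ), FiniteDimensional K Γ ∧
      ∃ (W : Type u) (_ : AddCommGroup W) (_ : Module Γ W), Module.Finite Γ W ∧
        Module.Projective Γ W ∧ Module.Injective Γ W ∧
        IsWakamatsuTilting Γ W ∧ ¬ IsTilting Γ W := by
  obtain ⟨Γ, _, _, hf, W, _, _, C, _, _, ε, d, 𝔞, H⟩ := Gam.exists_abs h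
  exact ⟨Γ, _, _, hf, W, _, _, H.s0285⟩

end Crest.Agent.R186
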