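import Crest.Agent.R186.Basic
import Crest.Prelude.Def_Tilting

/-! Row 186: the abstract part of S0282-S0285. -/

set_option autoImplicit false
set_option linter.unusedSectionVars false

open CategoryTheory Crest.AlgebraR

namespace Crest.Agent.R186.Gam

universe u

variable {Γ : Type u} [Ring Γ]

/-- `X` is a retract of a finite power of `W`. -/
def Ret (Γ : Type u) [Ring Γ] (W X : Type u) [AddCommGroup W] [Module Γ W] [AddCommGroup X]
    [Module Γ X] : Prop :=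
  ∃ (n : ℕ) (α : X →ₗ[Γ] (Fin n → W)) (β : (Fin n → W) →ₗ[Γ] X), ∀ x, β (α x) = x

section Ret
variable {W X : Type u} [AddCommGroup W] [Module Γ W] [AddCommGroup X] [Module Γ X]

theorem Ret.of_inAdd (h : InAdd Γ W X) : Ret Γ W X := by
  obtain ⟨n, Y, _, _, ⟨e⟩⟩ := h
  exact ⟨n, e.toLinearMap ∘ₗ LinearMap.inl Γ X Y, LinearMap.fst Γ X Y ∘ₗ e.symm.toLinearMap,
    by simp⟩

theorem Ret.inAdd (h : Ret Γ W X) : InAdd Γ W X := by
  obtain ⟨n, α, β, h⟩ := h
  refine ⟨n, LinearMap.ker β, inferInstance, inferInstance, ⟨LinearEquiv.ofBijective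
    (α.coprod (LinearMap.ker β).subtype) ⟨?_, fun y => ?_⟩⟩⟩
  · rw [← LinearMap.ker_eq_bot, LinearMap.ker_eq_bot']
    rintro ⟨x, y, hy⟩ hxy
    simp only [LinearMap.coprod_apply, Submodule.subtype_apply] at hxy
    have hx : x = 0 := by
      have := congrArg β hxy
      rwa [map_add, h, LinearMap.mem_ker.1 hy, add_zero, map_zero] at this
    subst hx
    simp only [map_zero, zero_add] at hxy
    subst hxy
    rfl
  · exact ⟨(β y, ⟨y - α (β y), by simp [h]⟩), by simp⟩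

theorem Ret.fp (h : Ret Γ W X) (hW : FP (LinearMap.id : W →ₗ[Γ] W)) :
    FP (LinearMap.id : X →ₗ[Γ] X) := by
  obtain ⟨n, α, β, h⟩ := h
  refine FP.retract (i := α) (r := β) ?_ h
  refine (FP.sum Finset.univ (fun k : Fin n => LinearMap.single Γ (fun _ => W) k ∘ₗ
    LinearMap.id ∘ₗ LinearMap.proj k) fun k _ => (hW.comp_right _).comp_left _).congr fun x => ?_
  simp [Finset.univ_sum_single]

theorem Ret.injective (h : Ret Γ W X) (hW : Module.Injective Γ W) : Module.Injective Γ X := by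
  obtain ⟨n, α, β, h⟩ := h
  refine ⟨fun A B _ _ _ _ f hf g => ?_⟩
  obtain ⟨l, hl⟩ := (inferInstance : Module.Injective Γ (Fin n → W)).out f hf (α ∘ₗ g)
  exact ⟨β ∘ₗ l, fun x => by simp [hl, h]⟩

end Ret

section Syz
variable (C : ℕ → Type u) [∀ j, AddCommGroup (C j)] [∀ j, Module Γ (C j)]
  (ε : Γ →ₗ[Γ] C 0) (d : ∀ j : ℕ, C j →ₗ[Γ] C (j + 1))

/-- The cosyzygies. -/
def Z : ℕ → ModuleCat.{u} Γ
  | 0 => ModuleCat.of Γ Γ
  | k + 1 => ModuleCat.of Γ (LinearMap.range (d k))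

/-- Inclusions of the cosyzygies. -/
def zι : ∀ k, Z C d k →ₗ[Γ] C k
  | 0 => ε
  | k + 1 => (LinearMap.range (d k)).subtype

/-- Projections onto the cosyzygies. -/
def zπ (k : ℕ) : C k →ₗ[Γ] Z C d (k + 1) := (d k).rangeRestrict

variable {C ε d}

theorem z_ses (h0 : Function.Injective ε) (h1 : Function.Exact ε (d 0))
    (h2 : ∀ j, Function.Exact (d j) (d (j + 1))) (k : ℕ) : SES (zι C ε d k) (zπ C d k) := by
  cases k with
  | zero =>
    exact ⟨h0, (d 0).surjective_rangeRestrict, fun x => Subtype.ext (h1.apply_apply_eq_zero x),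
      fun y hy => (h1 y).1 (congrArg Subtype.val hy)⟩
  | succ k =>
    refine ⟨Subtype.val_injective, (d (k + 1)).surjective_rangeRestrict, ?_, fun y hy => ?_⟩
    · rintro ⟨_, x, rfl⟩
      exact Subtype.ext ((h2 k).apply_apply_eq_zero x)
    · exact ⟨⟨y, (h2 k y).1 (congrArg Subtype.val hy)⟩, rfl⟩

end Syz

/-- The short complex of a short exact sequence. -/
def sc {X Z : ModuleCat.{u} Γ} {Y : Type u} [AddCommGroup Y] [Module Γ Y] {i : X →ₗ[Γ] Y}
    {j : Y →ₗ[Γ] Z} (h : SES i j) : ShortComplex (ModuleCat.{u} Γ) where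
  X₁ := X
  X₂ := ModuleCat.of Γ Y
  X₃ := Z
  f := ModuleCat.ofHom i
  g := ModuleCat.ofHom j
  zero := by ext x; exact h.ji x

theorem sc_exact {X Z : ModuleCat.{u} Γ} {Y : Type u} [AddCommGroup Y] [Module Γ Y]
    {i : X →ₗ[Γ] Y} {j : Y →ₗ[Γ] Z} (h : SES i j) : (sc h).ShortExact :=
  ModuleCat.shortComplex_shortExact _
    (fun y => ⟨h.ex y, by rintro ⟨x, rfl⟩; exact h.ji x⟩) h.inj h.surj

/-- The abstract situation. -/
structure Abs (Γ : Type u) [Ring Γ] (W : Type u) [AddCommGroup W] [Module Γ W]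
    (C : ℕ → Type u) [∀ j, AddCommGroup (C j)] [∀ j, Module Γ (C j)]
    (ε : Γ →ₗ[Γ] C 0) (d : ∀ j : ℕ, C j →ₗ[Γ] C (j + 1)) (𝔞 : Ideal Γ) : Prop where
  fp : FP (LinearMap.id : W →ₗ[Γ] W)
  inj : Module.Injective Γ W
  ret : ∀ j, Ret Γ W (C j)
  h0 : Function.Injective ε
  h1 : Function.Exact ε (d 0)
  h2 : ∀ j, Function.Exact (d j) (d (j + 1))
  ne : 𝔞 ≠ ⊤
  tr : ∀ (f : W →ₗ[Γ] Γ) w, f w ∈ 𝔞
  faith : ∀ w : W, (∀ γ ∈ 𝔞, γ • w = 0) → w = 0

namespace Abs
variable {W : Type u} [AddCommGroup W] [Module Γ W]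
  {C : ℕ → Type u} [∀ j, AddCommGroup (C j)] [∀ j, Module Γ (C j)]
  {ε : Γ →ₗ[Γ] C 0} {d : ∀ j : ℕ, C j →ₗ[Γ] C (j + 1)} {𝔞 : Ideal Γ}

theorem ses (h : Abs Γ W C ε d 𝔞) (k : ℕ) : SES (zι C ε d k) (zπ C d k) := z_ses h.h0 h.h1 h.h2 k

theorem not_fp (h : Abs Γ W C ε d 𝔞) (k : ℕ) :
    ¬ FP (LinearMap.id : Z C d (k + 1) →ₗ[Γ] Z C d (k + 1)) := by
  induction k with
  | zero =>
    intro hfp
    obtain ⟨r, -, hr, -, -⟩ := (h.ses 0).split hfp
    obtain ⟨n, α, β, hαβ⟩ := h.ret 0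
    apply h.ne
    rw [Ideal.eq_top_iff_one]
    have e1 : (1 : Γ) = (show C 0 →ₗ[Γ] Γ from r) (β (α (ε 1))) := by
      rw [hαβ]; exact (hr (1 : Γ)).symm
    rw [e1, ← Finset.univ_sum_single (α (ε 1)), map_sum, map_sum]
    exact Ideal.sum_mem _ fun k _ => h.tr ((show C 0 →ₗ[Γ] Γ from r) ∘ₗ β ∘ₗ
      LinearMap.single Γ (fun _ => W) k) _
  | succ k ih => exact fun hfp => ih ((h.ses (k + 1)).fp_left ((h.ret _).fp h.fp) hfp)

theorem finite (h : Abs Γ W C ε d 𝔞) (k : ℕ) : Module.Finite Γ (Z C d (k + 1)) := by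
  have := ((h.ret k).fp h.fp).finite
  exact Module.Finite.of_surjective _ (h.ses k).surj

theorem proj (h : Abs Γ W C ε d 𝔞) (k : ℕ) : Module.Projective Γ (C k) :=
  ((h.ret k).fp h.fp).projective

theorem injC (h : Abs Γ W C ε d 𝔞) (k : ℕ) : Module.Injective Γ (C k) := (h.ret k).injective h.inj

theorem s0282 (h : Abs Γ W C ε d 𝔞) : ∃ S : ModuleCat.{u} Γ, IsSimpleModule Γ S ∧
    ∀ i : ℕ, Subsingleton (Abelian.Ext S (ModuleCat.of Γ Γ) i) := by
  obtain ⟨𝔫, h𝔫, hle⟩ := Ideal.exists_le_maximal 𝔞 h.ne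
  refine ⟨ModuleCat.of Γ (Γ ⧸ 𝔫), isSimpleModule_iff_isCoatom.2 (Ideal.isMaximal_def.1 h𝔫), ?_⟩
  have hW : ∀ f : (Γ ⧸ 𝔫) →ₗ[Γ] W, f = 0 := by
    intro f
    have : f (Submodule.Quotient.mk 1) = 0 := h.faith _ fun γ hγ => by
      rw [← map_smul, ← Submodule.Quotient.mk_smul, smul_eq_mul, mul_one,
        (Submodule.Quotient.mk_eq_zero _).2 (hle hγ), map_zero]
    ext
    simpa using this
  have key : ∀ (i k : ℕ) (x : Abelian.Ext (ModuleCat.of Γ (Γ ⧸ 𝔫)) (Z C d k) i), x = 0 := by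
    intro i
    induction i with
    | zero =>
      intro k x
      obtain ⟨f, rfl⟩ := (Abelian.Ext.mk₀_bijective _ _).2 x
      have : f = 0 := by
        obtain ⟨n, α, β, hαβ⟩ := h.ret k
        refine ModuleCat.hom_ext (LinearMap.ext fun y => (h.ses k).inj ?_)
        rw [← hαβ (zι C ε d k (f.hom y))]
        have e : α (zι C ε d k (f.hom y)) = 0 := by
          funext l
          exact LinearMap.congr_fun
            (hW (LinearMap.proj l ∘ₗ α ∘ₗ zι C ε d k ∘ₗ f.hom)) y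
        rw [e]; simp
      rw [this, Abelian.Ext.mk₀_zero]
    | succ i ih =>
      intro k x
      have := Module.injective_object_of_injective_module Γ (C k) (inj := h.injC k)
      obtain ⟨y, rfl⟩ := Abelian.Ext.covariant_sequence_exact₁ _ (sc_exact (h.ses k)) x
        (Abelian.Ext.eq_zero_of_injective (I := ModuleCat.of Γ (C k)) _) rfl
      obtain rfl : y = 0 := ih (k + 1) y
      exact Abelian.Ext.zero_comp _ _ _ _ _
  exact fun i => ⟨fun x y => (key i 0 x).trans (key i 0 y).symm⟩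

theorem s0283 (h : Abs Γ W C ε d 𝔞) (n : ℕ) (hn : 1 ≤ n) : ∃ M : ModuleCat.{u} Γ,
    Module.Finite Γ M ∧ projectiveDimension M = (n : WithBot ℕ∞) := by
  have hP : ∀ k, Projective (ModuleCat.of Γ (C k)) := fun k =>
    (IsProjective.iff_projective _).1 (h.proj k)
  have up : ∀ k, HasProjectiveDimensionLT (Z C d k) (k + 1) := by
    intro k
    induction k with
    | zero =>
      have : Projective (Z C d 0) := (IsProjective.iff_projective Γ).1 inferInstance
      infer_instance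
    | succ k ih => exact ((sc_exact (h.ses k)).hasProjectiveDimensionLT_X₃_iff k (hP k)).2 ih
  have low : ∀ k, ¬ HasProjectiveDimensionLT (Z C d (k + 1)) (k + 1) := by
    intro k
    induction k with
    | zero =>
      intro hh
      have h1 : Projective (Z C d 1) := projective_iff_hasProjectiveDimensionLT_one.2 hh
      have := h.finite 0
      exact h.not_fp 0 FP.of_projective
    | succ k ih =>
      exact fun hh =>
        ih (((sc_exact (h.ses (k + 1))).hasProjectiveDimensionLT_X₃_iff k (hP _)).1 hh)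
  obtain ⟨k, rfl⟩ : ∃ k, n = k + 1 := ⟨n - 1, by omega⟩
  exact ⟨Z C d (k + 1), h.finite k, le_antisymm ((projectiveDimension_le_iff _ _).2 (up _))
    ((projectiveDimension_ge_iff _ _).2 (low k))⟩

theorem not_injdim (h : Abs Γ W C ε d 𝔞) (n k : ℕ) : ¬ HasInjectiveDimensionLT (Z C d k) (n + 1) := by
  induction n generalizing k with
  | zero =>
    intro hh
    have h1 : Injective (Z C d k) := injective_iff_hasInjectiveDimensionLT_one.2 hh
    have h2 : Module.Injective Γ (Z C d k) := Module.injective_module_of_injective_object Γ _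
    obtain ⟨r, hr⟩ := h2.out (zι C ε d k) (h.ses k).inj LinearMap.id
    obtain ⟨s, hs⟩ := exists_desc (zπ C d k) (h.ses k).surj (LinearMap.id - zι C ε d k ∘ₗ r)
      (fun x hx => by
        obtain ⟨y, rfl⟩ := (h.ses k).ex x hx
        simp [hr])
    refine h.not_fp k (FP.retract (i := s) (r := zπ C d k) ((h.ret k).fp h.fp) fun x => ?_)
    obtain ⟨y, rfl⟩ := (h.ses k).surj x
    simp [hs, (h.ses k).ji]
  | succ n ih =>
    exact fun hh => ih (k + 1) (((sc_exact (h.ses k)).hasInjectiveDimensionLT_X₃_iff n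
      (Module.injective_object_of_injective_module Γ (C k) (inj := h.injC k))).2 hh)

theorem s0284 (h : Abs Γ W C ε d 𝔞) :
    (∃ (I : ℕ → ModuleCat.{u} Γ) (ε : Γ →ₗ[Γ] I 0) (d : ∀ j : ℕ, I j →ₗ[Γ] I (j + 1)),
        Function.Injective ε ∧ Function.Exact ε (d 0) ∧ (∀ j, Function.Exact (d j) (d (j + 1))) ∧
        ∀ j, Module.Projective Γ (I j) ∧ Module.Injective Γ (I j)) ∧
      ∀ n : ℕ, ¬ HasInjectiveDimensionLT (ModuleCat.of Γ Γ) n :=
  ⟨⟨fun j => ModuleCat.of Γ (C j), ε, d, h.h0, h.h1, h.h2, fun j => ⟨h.proj j, h.injC j⟩⟩,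
    fun n _ => h.not_injdim n 0
      (hasInjectiveDimensionLT_of_ge (ModuleCat.of Γ Γ) n (n + 1) (Nat.le_succ n))⟩

theorem hom_exact {X Y Z : Type u} [AddCommGroup X] [Module Γ X] [AddCommGroup Y] [Module Γ Y]
    [AddCommGroup Z] [Module Γ Z] (hW : Module.Injective Γ W) {a : X →ₗ[Γ] Y} {b : Y →ₗ[Γ] Z}
    (hab : Function.Exact a b) :
    Function.Exact (fun f : Z →ₗ[Γ] W => f ∘ₗ b) (fun f : Y →ₗ[Γ] W => f ∘ₗ a) := by
  intro f
  constructor
  · intro hf
    obtain ⟨g, hg⟩ := exists_desc b.rangeRestrict b.surjective_rangeRestrict f fun y hy => by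
      obtain ⟨x, rfl⟩ := (hab y).1 (congrArg Subtype.val hy)
      exact LinearMap.congr_fun hf x
    obtain ⟨l, hl⟩ := hW.out (LinearMap.range b).subtype Subtype.val_injective g
    exact ⟨l, LinearMap.ext fun y => (hl (b.rangeRestrict y)).trans (hg y)⟩
  · rintro ⟨g, rfl⟩
    exact LinearMap.ext fun x => by simp [hab.apply_apply_eq_zero]

theorem s0285 (h : Abs Γ W C ε d 𝔞) : Module.Finite Γ W ∧ Module.Projective Γ W ∧
    Module.Injective Γ W ∧ IsWakamatsuTilting Γ W ∧ ¬ IsTilting Γ W := by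
  refine ⟨h.fp.finite, h.fp.projective, h.inj, ⟨fun i hi => ?_, C, inferInstance, inferInstance,
    ε, d, ⟨fun j => (h.ret j).inAdd, h.h0, h.h1, h.h2⟩, fun f => ?_, hom_exact h.inj h.h1,
    fun j => hom_exact h.inj (h.h2 j)⟩, ?_⟩
  · have := Module.injective_object_of_injective_module Γ W (inj := h.inj)
    obtain ⟨j, rfl⟩ : ∃ j, i = j + 1 := ⟨i - 1, by omega⟩
    exact ⟨fun x y => (Abelian.Ext.eq_zero_of_injective x).trans
      (Abelian.Ext.eq_zero_of_injective y).symm⟩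
  · obtain ⟨l, hl⟩ := h.inj.out ε h.h0 f
    exact ⟨l, LinearMap.ext hl⟩
  · rintro ⟨-, -, C', _, _, ε', d', r, ⟨a1, a2, a3, a4⟩, hr⟩
    have h' : Abs Γ W C' ε' d' 𝔞 :=
      ⟨h.fp, h.inj, fun j => Ret.of_inAdd (a1 j), a2, a3, a4, h.ne, h.tr, h.faith⟩
    have := hr (r + 1) (by omega)
    exact h'.not_fp r (FP.zero.congr fun x => (h'.ses (r + 1)).inj (Subsingleton.elim _ _))

end Abs

end Crest.Agent.R186.Gam
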