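import Crest.Agent.R186.GammaAbs

/-! Row 186: the endomorphism algebra of a generator over a symmetric algebra. -/

set_option autoImplicit false
set_option linter.unusedSectionVars false

open MulOpposite

namespace Crest.Agent.R186.Gam

universe u

/-- `Hom_A(W, N)` as a left module over the opposite endomorphism ring of `W`. -/
def Hm (A W N : Type u) [Ring A] [AddCommGroup W] [Module A W] [AddCommGroup N] [Module A N] :
    Type u := W →ₗ[A] N

variable {A W N N' : Type u} [Ring A] [AddCommGroup W] [Module A W] [AddCommGroup N] [Module A N]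
  [AddCommGroup N'] [Module A N']

instance : AddCommGroup (Hm A W N) := inferInstanceAs (AddCommGroup (W →ₗ[A] N))

/-- The underlying linear map. -/
def Hm.out (f : Hm A W N) : W →ₗ[A] N := f

/-- The element given by a linear map. -/
def Hm.mk (f : W →ₗ[A] N) : Hm A W N := f

@[simp] theorem Hm.out_mk (f : W →ₗ[A] N) : (Hm.mk f).out = f := rfl
@[simp] theorem Hm.out_add (f g : Hm A W N) : (f + g).out = f.out + g.out := rfl
@[simp] theorem Hm.out_zero : (0 : Hm A W N).out = 0 := rfl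

theorem Hm.ext {f g : Hm A W N} (h : ∀ w, f.out w = g.out w) : f = g := LinearMap.ext h

instance : Module (Module.End A W)ᵐᵒᵖ (Hm A W N) where
  smul γ f := Hm.mk (f.out ∘ₗ γ.unop)
  one_smul _ := rfl
  mul_smul _ _ _ := rfl
  smul_zero _ := rfl
  smul_add _ _ _ := rfl
  add_smul γ δ f := Hm.ext fun w => f.out.map_add (γ.unop w) (δ.unop w)
  zero_smul f := Hm.ext fun _ => f.out.map_zero

@[simp] theorem Hm.out_smul (γ : (Module.End A W)ᵐᵒᵖ) (f : Hm A W N) :
    (γ • f).out = f.out ∘ₗ γ.unop := rfl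

/-- Postcomposition. -/
def Hm.map (W : Type u) [AddCommGroup W] [Module A W] (g : N →ₗ[A] N') :
    Hm A W N →ₗ[(Module.End A W)ᵐᵒᵖ] Hm A W N' where
  toFun f := Hm.mk (g ∘ₗ f.out)
  map_add' f f' := Hm.ext fun w => g.map_add (f.out w) (f'.out w)
  map_smul' _ _ := rfl

@[simp] theorem Hm.out_map (g : N →ₗ[A] N') (f : Hm A W N) : (Hm.map W g f).out = g ∘ₗ f.out := rfl

theorem Hm.out_sum {ι : Type} (s : Finset ι) (f : ι → Hm A W N) (w : W) :
    (∑ i ∈ s, f i).out w = ∑ i ∈ s, (f i).out w := LinearMap.sum_apply s f w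

theorem Hm.ret (h : FP (LinearMap.id : N →ₗ[A] N)) :
    Ret (Module.End A W)ᵐᵒᵖ (Hm A W A) (Hm A W N) := by
  obtain ⟨m, φ, y, hy⟩ := h.exists_fin
  refine ⟨m, LinearMap.pi fun k => Hm.map W (φ k),
    ∑ k, Hm.map W (LinearMap.toSpanSingleton A N (y k)) ∘ₗ LinearMap.proj k, fun f => ?_⟩
  refine Hm.ext fun w => ?_
  rw [LinearMap.sum_apply, Hm.out_sum]
  simpa using (hy (f.out w)).symm

/-- The ideal of finite-rank endomorphisms. -/
def fpIdeal (A W : Type u) [Ring A] [AddCommGroup W] [Module A W] : Ideal (Module.End A W)ᵐᵒᵖ where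
  carrier := {γ | FP γ.unop}
  add_mem' := FP.add
  zero_mem' := FP.zero
  smul_mem' c _ h := FP.comp_right h c.unop

/-- The embedding of `Hom(W, A)` given by an element of `W`. -/
def Hm.emb (w : W) : Hm A W A →ₗ[(Module.End A W)ᵐᵒᵖ] (Module.End A W)ᵐᵒᵖ where
  toFun f := op (f.out.smulRight w)
  map_add' f g := unop_injective (LinearMap.ext fun x => by simp [add_smul])
  map_smul' _ _ := rfl

theorem Hm.emb_smul {p : W →ₗ[A] A} {w : W} (hp : p w = 1) (f : Hm A W A) :
    Hm.emb w f • Hm.mk p = f :=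
  Hm.ext fun x => by simp [Hm.emb, hp]

section K
variable {K : Type u} [Field K] [Algebra K A] [Module K W] [IsScalarTower K A W]

theorem Hm.injective (φ : A ≃ₗ[K] Module.Dual K A)
    (hφ : ∀ a x b y : A, φ (a * x * b) y = φ x (b * y * a)) {p : W →ₗ[A] A} {w₁ : W}
    (hp : p w₁ = 1) : Module.Injective (Module.End A W)ᵐᵒᵖ (Hm A W A) := by
  refine Module.Baer.injective fun I g => ?_
  let ν : I.restrictScalars K →ₗ[K] K :=
    { toFun := fun γ => φ 1 ((g ⟨γ.1, γ.2⟩).out w₁)
      map_add' := fun γ δ => by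
        rw [← map_add, ← LinearMap.add_apply, ← Hm.out_add, ← map_add]; rfl
      map_smul' := fun k γ => by
        have e : (⟨(k • γ).1, (k • γ).2⟩ : I) =
            algebraMap K (Module.End A W)ᵐᵒᵖ k • (⟨γ.1, γ.2⟩ : I) :=
          Subtype.ext (Algebra.smul_def k γ.1)
        rw [e, map_smul]
        simp [LinearMap.map_smul_of_tower] }
  obtain ⟨μ, hμ⟩ := LinearMap.exists_extend ν
  let Gm : W →ₗ[K] (Module.End A W)ᵐᵒᵖ :=
    { toFun := fun w => op (p.smulRight w)
      map_add' := fun w w' => unop_injective (LinearMap.ext fun x => by simp)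
      map_smul' := fun k w => unop_injective (LinearMap.ext fun x => by simp [smul_comm k]) }
  let ξ : W → Module.Dual K A := fun w =>
    μ ∘ₗ Gm ∘ₗ (LinearMap.toSpanSingleton A W w).restrictScalars K
  have hξ : ∀ w a, ξ w a = μ (Gm (a • w)) := fun _ _ => rfl
  let ψ : W →ₗ[A] A :=
    { toFun := fun w => φ.symm (ξ w)
      map_add' := fun w w' => by
        rw [← map_add]; congr 1; ext a; simp [hξ]
      map_smul' := fun a w => by
        apply φ.injective
        ext y
        have := hφ a (φ.symm (ξ w)) 1 y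
        rw [mul_one, one_mul] at this
        simp [this, hξ, mul_smul] }
  refine ⟨LinearMap.toSpanSingleton _ _ (Hm.mk ψ), fun γ hγ => Hm.ext fun w => ?_⟩
  apply φ.injective
  ext y
  have e1 : Gm (y • γ.unop w) = Gm (y • w) * γ :=
    unop_injective (LinearMap.ext fun x => by simp [Gm])
  have e2 : μ (Gm (y • w) * γ) = φ 1 ((g (Gm (y • w) • ⟨γ, hγ⟩)).out w₁) :=
    LinearMap.congr_fun hμ ⟨Gm (y • w) * γ, I.mul_mem_left _ hγ⟩
  have e3 := hφ ((g ⟨γ, hγ⟩).out w) 1 1 y
  rw [mul_one, mul_one, one_mul] at e3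
  change φ (φ.symm (ξ (γ.unop w))) y = _
  rw [LinearEquiv.apply_symm_apply, hξ, e1, e2, map_smul, e3]
  simp [Gm, hp]

theorem end_finite [Module.Finite K W] : FiniteDimensional K (Module.End A W)ᵐᵒᵖ := by
  have : Module.Finite K (Module.End A W) :=
    Module.Finite.of_injective (LinearMap.restrictScalarsₗ K A W W K)
      (LinearMap.restrictScalars_injective K)
  infer_instance

theorem mid (φ : A ≃ₗ[K] Module.Dual K A)
    (hφ : ∀ a x b y : A, φ (a * x * b) y = φ x (b * y * a)) {p : W →ₗ[A] A} {w₁ : W}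
    (hp : p w₁ = 1) (I : ℕ → Type u) [∀ j, AddCommGroup (I j)] [∀ j, Module A (I j)]
    (hI : ∀ j, FP (LinearMap.id : I j →ₗ[A] I j)) (ε : W →ₗ[A] I 0)
    (d : ∀ j, I j →ₗ[A] I (j + 1)) (h0 : Function.Injective ε) (h1 : Function.Exact ε (d 0))
    (dd : ∀ j x, d (j + 1) (d j x) = 0)
    (h2 : ∀ j (f : W →ₗ[A] I (j + 1)), (∀ w, d (j + 1) (f w) = 0) →
      ∃ g : W →ₗ[A] I j, ∀ w, d j (g w) = f w)
    (nfp : ¬ FP (LinearMap.id : W →ₗ[A] W)) :
    Abs (Module.End A W)ᵐᵒᵖ (Hm A W A) (fun j => Hm A W (I j))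
      (LinearMap.toSpanSingleton _ _ (Hm.mk ε)) (fun j => Hm.map W (d j)) (fpIdeal A W) where
  fp := (FP.one (Hm.emb w₁) (Hm.mk p)).congr fun f => Hm.emb_smul hp f
  inj := Hm.injective φ hφ hp
  ret j := Hm.ret (hI j)
  h0 γ δ h := unop_injective (LinearMap.ext fun w => h0 (LinearMap.congr_fun h w))
  h1 f := by
    constructor
    · intro hf
      obtain ⟨g, hg⟩ := exists_fac ε h0 f.out fun w => (h1 _).1 (LinearMap.congr_fun hf w)
      exact ⟨op g, Hm.ext hg⟩
    · rintro ⟨γ, rfl⟩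
      exact Hm.ext fun w => h1.apply_apply_eq_zero _
  h2 j f := by
    constructor
    · intro hf
      obtain ⟨g, hg⟩ := h2 j f.out fun w => LinearMap.congr_fun hf w
      exact ⟨Hm.mk g, Hm.ext hg⟩
    · rintro ⟨g, rfl⟩
      exact Hm.ext fun w => dd j _
  ne h := nfp ((Ideal.eq_top_iff_one _).1 h)
  tr f ψ := by
    rw [← Hm.emb_smul hp ψ, map_smul]
    exact (FP.one ψ.out w₁).comp_left (f (Hm.mk p)).unop
  faith ψ h := Hm.ext fun w => by
    have := LinearMap.congr_fun (h (op (p.smulRight w)) (FP.one p w)) w₁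
    change ψ.out (p w₁ • w) = 0 at this
    simpa [hp] using this

end K

end Crest.Agent.R186.Gam
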