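import Crest.Agent.R186.Box
import Crest.Agent.R186.CAlg

/-! The algebra `B = (C ⊗ C) ⊗ D` has finite self-injective dimension (so every acyclic complex
of finitely generated projectives is totally acyclic), and its radical. -/

set_option autoImplicit false
set_option linter.unusedSectionVars false

namespace Crest.Agent.R186

open scoped TensorProduct

universe u

/-- Acyclic complexes of finitely generated projectives are totally acyclic. -/
def Gor (K S : Type u) [Field K] [Ring S] [Algebra K S] : Prop :=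
  ∀ (X : Type u) [AddCommGroup X] [Module K X] [Module S X] [IsScalarTower K S X] (P : Cx S X),
    P.IsFP → (∀ n, P.ExactAt n) → ∀ n, P.HZ S n

namespace GorAux

/-! ### The dual module -/

section DM

variable (K S : Type u) [Field K] [Ring S] [Algebra K S]

/-- The `K`-dual of `S` as a left `S`-module. -/
def DM : Type u := S →ₗ[K] K

instance : AddCommGroup (DM K S) := inferInstanceAs (AddCommGroup (S →ₗ[K] K))
instance : Module K (DM K S) := inferInstanceAs (Module K (S →ₗ[K] K))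

/-- The underlying functional. -/
def DM.val : DM K S ≃ₗ[K] (S →ₗ[K] K) := LinearEquiv.refl K _

variable {K S}

theorem DM.ext {ξ η : DM K S} (h : ∀ c, DM.val K S ξ c = DM.val K S η c) : ξ = η :=
  (DM.val K S).injective (LinearMap.ext h)

instance : SMul S (DM K S) :=
  ⟨fun s ξ => (DM.val K S).symm (DM.val K S ξ ∘ₗ LinearMap.mulRight K s)⟩

@[simp] theorem DM.val_smul (s : S) (ξ : DM K S) (c : S) :
    DM.val K S (s • ξ) c = DM.val K S ξ (c * s) := rfl

instance : Module S (DM K S) where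
  one_smul ξ := DM.ext fun c => by simp
  mul_smul a b ξ := DM.ext fun c => by simp [mul_assoc]
  smul_zero a := DM.ext fun c => by simp
  smul_add a ξ η := DM.ext fun c => by simp
  add_smul a b ξ := DM.ext fun c => by simp [mul_add]
  zero_smul ξ := DM.ext fun c => by simp

instance : IsScalarTower K S (DM K S) := ⟨fun k s ξ => DM.ext fun c => by simp⟩

/-- The map `v ↦ (c ↦ l (c * v))`. -/
def toD (l : S →ₗ[K] K) : S →ₗ[S] DM K S :=
  LinearMap.toSpanSingleton S (DM K S) ((DM.val K S).symm l)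

@[simp] theorem val_toD (l : S →ₗ[K] K) (v c : S) : DM.val K S (toD l v) c = l (c * v) := rfl

/-- The endomorphism `ξ ↦ ξ (a * ·)`. -/
def lmulD (a : S) : DM K S →ₗ[S] DM K S where
  toFun ξ := (DM.val K S).symm (DM.val K S ξ ∘ₗ LinearMap.mulLeft K a)
  map_add' ξ η := DM.ext fun c => by simp
  map_smul' s ξ := DM.ext fun c => by simp [mul_assoc]

@[simp] theorem val_lmulD (a : S) (ξ : DM K S) (c : S) :
    DM.val K S (lmulD a ξ) c = DM.val K S ξ (a * c) := rfl

end DM

/-! ### Modules with a finite coresolution by summands of the dual module -/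

/-- The smallest class of modules that contains the dual module and is stable under summands of
binary sums and kernels of surjections. -/
inductive FI (K S : Type u) [Field K] [Ring S] [Algebra K S] :
    (N : Type u) → [AddCommGroup N] → [Module K N] → [Module S N] → [IsScalarTower K S N] → Prop
  | base : FI K S (DM K S)
  | sum {N N₁ N₂ : Type u} [AddCommGroup N] [Module K N] [Module S N] [IsScalarTower K S N]
      [AddCommGroup N₁] [Module K N₁] [Module S N₁] [IsScalarTower K S N₁]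
      [AddCommGroup N₂] [Module K N₂] [Module S N₂] [IsScalarTower K S N₂]
      (α₁ : N →ₗ[S] N₁) (β₁ : N₁ →ₗ[S] N) (α₂ : N →ₗ[S] N₂) (β₂ : N₂ →ₗ[S] N)
      (h : ∀ y, β₁ (α₁ y) + β₂ (α₂ y) = y) : FI K S N₁ → FI K S N₂ → FI K S N
  | ker {N N₁ N₂ : Type u} [AddCommGroup N] [Module K N] [Module S N] [IsScalarTower K S N]
      [AddCommGroup N₁] [Module K N₁] [Module S N₁] [IsScalarTower K S N₁]
      [AddCommGroup N₂] [Module K N₂] [Module S N₂] [IsScalarTower K S N₂]
      (i : N →ₗ[S] N₁) (j : N₁ →ₗ[S] N₂) (h : SES i j) : FI K S N₁ → FI K S N₂ → FI K S N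

section FI

variable {K S : Type u} [Field K] [Ring S] [Algebra K S]
variable {N N₁ N₂ N₃ : Type u} [AddCommGroup N] [Module K N] [Module S N] [IsScalarTower K S N]
  [AddCommGroup N₁] [Module K N₁] [Module S N₁] [IsScalarTower K S N₁]
  [AddCommGroup N₂] [Module K N₂] [Module S N₂] [IsScalarTower K S N₂]
  [AddCommGroup N₃] [Module K N₃] [Module S N₃] [IsScalarTower K S N₃]

theorem FI.retract (h : FI K S N₁) (α : N →ₗ[S] N₁) (β : N₁ →ₗ[S] N) (hαβ : ∀ y, β (α y) = y) :
    FI K S N :=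
  FI.sum α β 0 0 (by simpa using hαβ) h h

/-- A module that embeds onto the range of an endomorphism fixing it. -/
theorem FI.of_idem (h : FI K S N₁) (α : N →ₗ[S] N₁) (hα : Function.Injective α)
    (g : N₁ →ₗ[S] N₁) (h1 : ∀ z, ∃ y, α y = g z) (h2 : ∀ y, g (α y) = α y) : FI K S N := by
  obtain ⟨β, hβ⟩ := exists_fac α hα g h1
  exact h.retract α β fun y => hα (by rw [hβ, h2])

theorem FI.of_exact (i : N →ₗ[S] N₁) (j : N₁ →ₗ[S] N₂) (k : N₂ →ₗ[S] N₃)
    (hi : Function.Injective i) (hji : ∀ x, j (i x) = 0) (hex : ∀ y, j y = 0 → ∃ x, i x = y)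
    (hkj : ∀ y, k (j y) = 0) (hex' : ∀ z, k z = 0 → ∃ y, j y = z)
    (h₁ : FI K S N₁) (h₂ : FI K S N₂) (h₃ : FI K S (LinearMap.range k)) : FI K S N := by
  have hk : FI K S (LinearMap.ker k) :=
    FI.ker (LinearMap.ker k).subtype k.rangeRestrict
      ⟨Subtype.val_injective, k.surjective_rangeRestrict, fun x => Subtype.ext x.2,
        fun y hy => ⟨⟨y, congrArg Subtype.val hy⟩, rfl⟩⟩ h₂ h₃
  exact FI.ker i (j.codRestrict (LinearMap.ker k) hkj)
    ⟨hi, fun z => (hex' z.1 z.2).imp fun y hy => Subtype.ext hy, fun x => Subtype.ext (hji x),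
      fun y hy => hex y (congrArg Subtype.val hy)⟩ h₁ hk

variable {X : Type u} [AddCommGroup X] [Module K X] [Module S X] [IsScalarTower K S X]

theorem hz_DM (P : Cx S X) (n : ℤ) (hex : P.ExactAt n) : P.HZ (DM K S) n := by
  intro f hf
  obtain ⟨σ, hσ⟩ := exists_geninv ((P.d (n - 1)).restrictScalars K)
  simp only [LinearMap.restrictScalars_apply] at hσ
  have h0 : ∀ x, P.d (n - 1) x = 0 → f x = 0 := fun x hx => by
    obtain ⟨w, hw⟩ := hex (P.e n x) (P.ee n x) (by rw [P.de', hx])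
    rw [← hf.he, ← hw, hf.hd]
  have h1 : ∀ x, f (σ (P.d (n - 1) x)) = f x := fun x => by
    rw [← sub_eq_zero, ← map_sub]
    exact h0 _ (by rw [map_sub, hσ, sub_self])
  let g0 : X →ₗ[K] K :=
    (LinearMap.applyₗ (1 : S) ∘ₗ (DM.val K S).toLinearMap ∘ₗ f.restrictScalars K) ∘ₗ σ
  have hg0 : ∀ x, g0 x = DM.val K S (f (σ x)) 1 := fun _ => rfl
  let g : X →ₗ[S] DM K S :=
    { toFun := fun x => (DM.val K S).symm
        (g0 ∘ₗ (LinearMap.toSpanSingleton S X x).restrictScalars K)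
      map_add' := fun x y => DM.ext fun c => by simp
      map_smul' := fun s x => DM.ext fun c => by simp [mul_smul] }
  have hg : ∀ x c, DM.val K S (g x) c = g0 (c • x) := fun _ _ => rfl
  refine ⟨g, fun x => DM.ext fun c => ?_⟩
  rw [hg, ← map_smul, hg0, h1, map_smul, DM.val_smul, one_mul]

theorem FI.hz (h : FI K S N) (P : Cx S X) (hP : P.IsFP) (hex : ∀ n, P.ExactAt n) (n : ℤ) :
    P.HZ N n := by
  induction h generalizing n with
  | base => exact hz_DM P n (hex n)
  | sum α₁ β₁ α₂ β₂ h _ _ h₁ h₂ =>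
    exact ((h₁ n).prod (h₂ n)).retract (α₁.prod α₂) (β₁.coprod β₂) (by simpa using h)
  | ker i j h _ _ h₁ h₂ =>
    have := Cx.HZ.ses_sub hP h (h₁ (n - 1 + 1)) (h₂ (n - 1))
    rwa [sub_add_cancel] at this

theorem FI.gor (h : FI K S S) : Gor K S := fun _ _ _ _ _ P hP hex n => h.hz P hP hex n

theorem SES.ksplit {i : N →ₗ[S] N₁} {j : N₁ →ₗ[S] N₂} (h : SES i j) :
    ∃ (r : N₁ →ₗ[K] N) (s : N₂ →ₗ[K] N₁), (∀ x, r (i x) = x) ∧ (∀ z, j (s z) = z) ∧
      ∀ y, i (r y) + s (j y) = y := by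
  obtain ⟨s, hs⟩ := (j.restrictScalars K).exists_rightInverse_of_surjective
    (LinearMap.range_eq_top.2 h.surj)
  have hs' : ∀ z, j (s z) = z := fun z => LinearMap.congr_fun hs z
  obtain ⟨r, hr⟩ := exists_fac (i.restrictScalars K) h.inj
    (LinearMap.id - s ∘ₗ j.restrictScalars K) (fun y => h.ex _ (by simp [hs']))
  simp only [LinearMap.restrictScalars_apply] at hr
  refine ⟨r, s, fun x => h.inj ?_, hs', fun y => ?_⟩
  · simp [hr, h.ji]
  · simp [hr]

end FI

section BoxFI

variable {K S₁ S₂ : Type u} [Field K] [Ring S₁] [Ring S₂] [Algebra K S₁] [Algebra K S₂]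

theorem ses_box_left {N N₁ N₂ M : Type u}
    [AddCommGroup N] [Module K N] [Module S₁ N] [IsScalarTower K S₁ N]
    [AddCommGroup N₁] [Module K N₁] [Module S₁ N₁] [IsScalarTower K S₁ N₁]
    [AddCommGroup N₂] [Module K N₂] [Module S₁ N₂] [IsScalarTower K S₁ N₂]
    [AddCommGroup M] [Module K M] [Module S₂ M] [IsScalarTower K S₂ M]
    {i : N →ₗ[S₁] N₁} {j : N₁ →ₗ[S₁] N₂} (h : SES i j) :
    SES (Box.map (K := K) i (LinearMap.id : M →ₗ[S₂] M))
      (Box.map (K := K) j (LinearMap.id : M →ₗ[S₂] M)) := by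
  obtain ⟨r, s, hr, hs, hy⟩ := SES.ksplit (K := K) h
  let R : Box K S₁ S₂ N₁ M →ₗ[K] Box K S₁ S₂ N M := Box.kmap r LinearMap.id
  let T : Box K S₁ S₂ N₂ M →ₗ[K] Box K S₁ S₂ N₁ M := Box.kmap s LinearMap.id
  let I := (Box.map (K := K) i (LinearMap.id : M →ₗ[S₂] M)).restrictScalars K
  let J := (Box.map (K := K) j (LinearMap.id : M →ₗ[S₂] M)).restrictScalars K
  have h1 : ∀ z, (R ∘ₗ I) z = LinearMap.id (R := K) z :=
    Box.ext_add _ _ fun x y => by simp [R, I, hr]
  have h2 : ∀ z, (J ∘ₗ T) z = LinearMap.id (R := K) z :=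
    Box.ext_add _ _ fun x y => by simp [J, T, hs]
  have h3 : ∀ z, (J ∘ₗ I) z = (0 : _ →ₗ[K] _) z :=
    Box.ext_add _ _ fun x y => by simp [J, I, h.ji]
  have h4 : ∀ z, (I ∘ₗ R + T ∘ₗ J) z = LinearMap.id (R := K) z :=
    Box.ext_add _ _ fun x y => by
      simp only [R, I, J, T, LinearMap.add_apply, LinearMap.comp_apply, Box.kmap_mk,
        LinearMap.restrictScalars_apply, Box.map_mk, LinearMap.id_apply]
      rw [← LinearMap.add_apply, ← map_add, hy]
  refine ⟨Function.LeftInverse.injective (g := R) h1, fun z => ⟨T z, h2 z⟩, h3,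
    fun y hy0 => ⟨R y, ?_⟩⟩
  have h5 : J y = 0 := hy0
  have h6 : I (R y) = y := by simpa [h5] using h4 y
  exact h6

theorem ses_box_right {N N₁ N₂ M : Type u}
    [AddCommGroup N] [Module K N] [Module S₂ N] [IsScalarTower K S₂ N]
    [AddCommGroup N₁] [Module K N₁] [Module S₂ N₁] [IsScalarTower K S₂ N₁]
    [AddCommGroup N₂] [Module K N₂] [Module S₂ N₂] [IsScalarTower K S₂ N₂]
    [AddCommGroup M] [Module K M] [Module S₁ M] [IsScalarTower K S₁ M]
    {i : N →ₗ[S₂] N₁} {j : N₁ →ₗ[S₂] N₂} (h : SES i j) :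
    SES (Box.map (K := K) (LinearMap.id : M →ₗ[S₁] M) i)
      (Box.map (K := K) (LinearMap.id : M →ₗ[S₁] M) j) := by
  obtain ⟨r, s, hr, hs, hy⟩ := SES.ksplit (K := K) h
  let R : Box K S₁ S₂ M N₁ →ₗ[K] Box K S₁ S₂ M N := Box.kmap LinearMap.id r
  let T : Box K S₁ S₂ M N₂ →ₗ[K] Box K S₁ S₂ M N₁ := Box.kmap LinearMap.id s
  let I := (Box.map (K := K) (LinearMap.id : M →ₗ[S₁] M) i).restrictScalars K
  let J := (Box.map (K := K) (LinearMap.id : M →ₗ[S₁] M) j).restrictScalars K
  have h1 : ∀ z, (R ∘ₗ I) z = LinearMap.id (R := K) z :=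
    Box.ext_add _ _ fun x y => by simp [R, I, hr]
  have h2 : ∀ z, (J ∘ₗ T) z = LinearMap.id (R := K) z :=
    Box.ext_add _ _ fun x y => by simp [J, T, hs]
  have h3 : ∀ z, (J ∘ₗ I) z = (0 : _ →ₗ[K] _) z :=
    Box.ext_add _ _ fun x y => by simp [J, I, h.ji]
  have h4 : ∀ z, (I ∘ₗ R + T ∘ₗ J) z = LinearMap.id (R := K) z :=
    Box.ext_add _ _ fun x y => by
      simp only [R, I, J, T, LinearMap.add_apply, LinearMap.comp_apply, Box.kmap_mk,
        LinearMap.restrictScalars_apply, Box.map_mk, LinearMap.id_apply]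
      rw [← map_add, hy]
  refine ⟨Function.LeftInverse.injective (g := R) h1, fun z => ⟨T z, h2 z⟩, h3,
    fun y hy0 => ⟨R y, ?_⟩⟩
  have h5 : J y = 0 := hy0
  have h6 : I (R y) = y := by simpa [h5] using h4 y
  exact h6

variable [Module.Finite K S₁] [Module.Finite K S₂]

theorem fi_box_base : FI K (S₁ ⊗[K] S₂) (Box K S₁ S₂ (DM K S₁) (DM K S₂)) := by
  let a : Box K S₁ S₂ (DM K S₁) (DM K S₂) ≃ₗ[K] DM K (S₁ ⊗[K] S₂) :=
    TensorProduct.dualDistribEquiv K S₁ S₂
  have ha : ∀ ξ η c d, DM.val K _ (a (Box.mk K S₁ S₂ ξ η)) (c ⊗ₜ[K] d) =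
      DM.val K _ ξ c * DM.val K _ η d := fun ξ η c d =>
    TensorProduct.dualDistrib_apply (DM.val K _ ξ) (DM.val K _ η) c d
  let α : Box K S₁ S₂ (DM K S₁) (DM K S₂) →ₗ[S₁ ⊗[K] S₂] DM K (S₁ ⊗[K] S₂) :=
    mkLin a.toLinearMap (Box.eqv_of_mk a.toLinearMap (smulAddHom (S₁ ⊗[K] S₂) _)
      fun s t ξ η => (DM.val K _).injective (TensorProduct.ext' fun c d => by simp [ha]))
  exact FI.base.of_idem α a.injective LinearMap.id (fun z => a.surjective z) fun _ => rfl

theorem fi_box_left {N : Type u} [AddCommGroup N] [Module K N] [Module S₁ N]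
    [IsScalarTower K S₁ N] (h : FI K S₁ N) : FI K (S₁ ⊗[K] S₂) (Box K S₁ S₂ N (DM K S₂)) := by
  induction h with
  | base => exact fi_box_base
  | sum α₁ β₁ α₂ β₂ h _ _ h₁ h₂ =>
    refine FI.sum (Box.map α₁ LinearMap.id) (Box.map β₁ LinearMap.id) (Box.map α₂ LinearMap.id)
      (Box.map β₂ LinearMap.id) ?_ h₁ h₂
    let E : DM K S₂ →ₗ[S₂] DM K S₂ := LinearMap.id
    refine Box.ext_add (Box.map (K := K) β₁ E ∘ₗ Box.map (K := K) α₁ E +
      Box.map (K := K) β₂ E ∘ₗ Box.map (K := K) α₂ E) (LinearMap.id (R := K)) fun x y => ?_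
    simp only [E, LinearMap.add_apply, LinearMap.comp_apply, Box.map_mk, LinearMap.id_apply]
    rw [← LinearMap.add_apply, ← map_add, h]
  | ker i j h _ _ h₁ h₂ => exact FI.ker _ _ (ses_box_left h) h₁ h₂

theorem fi_box {N M : Type u} [AddCommGroup N] [Module K N] [Module S₁ N]
    [IsScalarTower K S₁ N] [AddCommGroup M] [Module K M] [Module S₂ M]
    [IsScalarTower K S₂ M] (hN : FI K S₁ N) (hM : FI K S₂ M) :
    FI K (S₁ ⊗[K] S₂) (Box K S₁ S₂ N M) := by
  induction hM with
  | base => exact fi_box_left hN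
  | sum α₁ β₁ α₂ β₂ h _ _ h₁ h₂ =>
    refine FI.sum (Box.map LinearMap.id α₁) (Box.map LinearMap.id β₁) (Box.map LinearMap.id α₂)
      (Box.map LinearMap.id β₂) ?_ h₁ h₂
    let E : N →ₗ[S₁] N := LinearMap.id
    refine Box.ext_add (Box.map (K := K) E β₁ ∘ₗ Box.map (K := K) E α₁ +
      Box.map (K := K) E β₂ ∘ₗ Box.map (K := K) E α₂) (LinearMap.id (R := K)) fun x y => ?_
    simp only [E, LinearMap.add_apply, LinearMap.comp_apply, Box.map_mk, LinearMap.id_apply]
    rw [← map_add, h]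
  | ker i j h _ _ h₁ h₂ => exact FI.ker _ _ (ses_box_right h) h₁ h₂

theorem fi_tensor (h₁ : FI K S₁ S₁) (h₂ : FI K S₂ S₂) : FI K (S₁ ⊗[K] S₂) (S₁ ⊗[K] S₂) :=
  (fi_box h₁ h₂).retract (Box.reg K S₁ S₂).symm.toLinearMap (Box.reg K S₁ S₂).toLinearMap
    (by simp)

end BoxFI

/-! ### The dual numbers -/

theorem fi_dual {K : Type u} [Field K] : FI K (DualNumber K) (DualNumber K) := by
  refine FI.base.of_idem (toD (TrivSqZeroExt.sndHom K K)) ?_ LinearMap.id (fun ξ => ?_)
    fun _ => rfl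
  · rw [← LinearMap.ker_eq_bot, LinearMap.ker_eq_bot']
    intro v hv
    have h : ∀ c : DualNumber K, (c * v).snd = 0 := fun c => by
      simpa using congrArg (fun ξ => DM.val K _ ξ c) hv
    ext
    · simpa using h DualNumber.eps
    · simpa using h 1
  · refine ⟨TrivSqZeroExt.inl (DM.val K _ ξ DualNumber.eps) +
      TrivSqZeroExt.inr (DM.val K _ ξ 1), DM.ext fun c => ?_⟩
    have hc : c = c.fst • (1 : DualNumber K) + c.snd • DualNumber.eps := by ext <;> simp
    conv_rhs => rw [hc]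
    simp only [LinearMap.id_apply, map_add, map_smul]
    simp [mul_comm, add_comm]

/-! ### The algebra `C` -/

section C

variable {K : Type u} [Field K] (q : K)

open CA

/-- Right multiplication. -/
def rmul (a : CA q) : CA q →ₗ[CA q] CA q := LinearMap.toSpanSingleton (CA q) (CA q) a

@[simp] theorem rmul_apply (a v : CA q) : rmul q a v = v * a := rfl

/-- The projective `C u`. -/
def PA : Submodule (CA q) (CA q) := LinearMap.ker (rmul q (be q))

/-- The projective `C e`. -/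
def PM : Submodule (CA q) (CA q) := LinearMap.ker (rmul q (bu q))

theorem mem_PA (v : CA q) : v ∈ PA q ↔ v.p = 0 ∧ v.pp = 0 ∧ v.e = 0 ∧ v.z = 0 := by
  simp [PA, CA.ext_iff]

theorem mem_PM (v : CA q) :
    v ∈ PM q ↔ v.u = 0 ∧ v.x = 0 ∧ v.y = 0 ∧ v.s = 0 ∧ v.i = 0 ∧ v.k = 0 := by
  simp [PM, CA.ext_iff]

/-- The coordinate `s`. -/
def cs : CA q →ₗ[K] K := { toFun := fun a => a.s, map_add' := fun _ _ => rfl, map_smul' := fun _ _ => rfl }

/-- The coordinate `k`. -/
def ck : CA q →ₗ[K] K := { toFun := fun a => a.k, map_add' := fun _ _ => rfl, map_smul' := fun _ _ => rfl }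

@[simp] theorem cs_apply (a : CA q) : cs q a = a.s := rfl
@[simp] theorem ck_apply (a : CA q) : ck q a = a.k := rfl

theorem bu_mul (c : CA q) : bu q * c = c.u • bu q + c.x • bx q + c.y • by' q + c.s • bs q +
    c.p • bp q + c.pp • bpp q := by ext <;> simp

theorem be_mul (c : CA q) : be q * c = c.i • bi q + c.k • bk q + c.e • be q + c.z • bz q := by
  ext <;> simp

variable {q}

theorem fi_PA (hq : q ≠ 0) : FI K (CA q) (PA q) := by
  refine FI.base.of_idem (toD (cs q) ∘ₗ (PA q).subtype) ?_ (lmulD (bu q)) (fun ξ => ?_)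
    fun v => DM.ext fun c => by simp
  · rw [← LinearMap.ker_eq_bot, LinearMap.ker_eq_bot']
    rintro ⟨v, hv⟩ h0
    have h : ∀ c : CA q, (c * v).s = 0 := fun c => by
      simpa using congrArg (fun ξ => DM.val K _ ξ c) h0
    obtain ⟨h1, h2, h3, h4⟩ := (mem_PA q v).1 hv
    have h5 := h (bu q)
    have h6 := h (bs q)
    have h7 := h (bx q)
    have h8 := h (by' q)
    have h9 := h (bp q)
    have h10 := h (bpp q)
    simp [hq] at h5 h6 h7 h8 h9 h10
    ext <;> simp [*]
  · let l := DM.val K _ ξ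
    refine ⟨⟨⟨l (bs q), l (by' q), -l (bx q) / q, l (bu q), 0, 0, l (bpp q) / q, l (bp q), 0, 0⟩,
      (mem_PA q _).2 ⟨rfl, rfl, rfl, rfl⟩⟩, DM.ext fun c => ?_⟩
    rw [val_lmulD, bu_mul]
    simp only [map_add, map_smul]
    simp [l]
    field_simp
    ring

theorem fi_PM (hq : q ≠ 0) : FI K (CA q) (PM q) := by
  let i : PM q →ₗ[CA q] PA q := (rmul q (bi q) ∘ₗ (PM q).subtype).codRestrict (PA q)
    fun v => by simp [mem_PA]
  let j : PA q →ₗ[CA q] PA q :=
    (rmul q (q ^ 2 • bx q + by' q) ∘ₗ (PA q).subtype).codRestrict (PA q) fun v => by simp [mem_PA]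
  let k : PA q →ₗ[CA q] DM K (CA q) := toD (ck q) ∘ₗ (PA q).subtype
  have hi : ∀ v, (i v : CA q) = v * bi q := fun _ => rfl
  have hj : ∀ v, (j v : CA q) = v * (q ^ 2 • bx q + by' q) := fun _ => rfl
  have hk : ∀ v c, DM.val K _ (k v) c = (c * v).k := fun _ _ => rfl
  refine FI.of_exact i j k ?_ ?_ ?_ ?_ ?_ (fi_PA hq) (fi_PA hq) ?_
  · rw [← LinearMap.ker_eq_bot, LinearMap.ker_eq_bot']
    rintro ⟨v, hv⟩ h0
    have h := congrArg Subtype.val h0
    rw [hi] at h
    obtain ⟨h1, h2, h3, h4, h5, h6⟩ := (mem_PM q v).1 hv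
    simp [CA.ext_iff, hq] at h
    ext <;> simp [*]
  · rintro ⟨v, hv⟩
    apply Subtype.ext
    rw [hj, hi]
    ext <;> simp <;> ring
  · rintro ⟨v, hv⟩ h0
    have h := congrArg Subtype.val h0
    rw [hj] at h
    obtain ⟨h1, h2, h3, h4⟩ := (mem_PA q v).1 hv
    have hu : v.u = 0 := by simpa using congrArg CA.y h
    have hx : v.x = q * v.y := by
      have := congrArg CA.s h
      simp at this
      apply mul_left_cancel₀ hq
      linear_combination -this
    refine ⟨⟨⟨0, 0, 0, 0, v.y, v.s / q, 0, 0, v.i, v.k / q⟩,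
      (mem_PM q _).2 ⟨rfl, rfl, rfl, rfl, rfl, rfl⟩⟩, Subtype.ext ?_⟩
    rw [hi]
    ext <;> simp [*] <;> field_simp
  · rintro ⟨v, hv⟩
    refine DM.ext fun c => ?_
    rw [hk, hj]
    simp
    ring
  · rintro ⟨v, hv⟩ h0
    have h : ∀ c : CA q, (c * v).k = 0 := fun c => by
      rw [← hk ⟨v, hv⟩, h0]; simp
    obtain ⟨h1, h2, h3, h4⟩ := (mem_PA q v).1 hv
    have h5 := h (be q)
    have h6 := h (bk q)
    have h7 := h (bi q)
    have h8 := h (bz q)
    simp [hq, sub_eq_zero] at h5 h6 h7 h8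
    refine ⟨⟨⟨v.y, -v.s / q, 0, 0, 0, 0, 0, 0, 0, 0⟩, (mem_PA q _).2 ⟨rfl, rfl, rfl, rfl⟩⟩,
      Subtype.ext ?_⟩
    rw [hj]
    ext <;> simp [*] <;> field_simp
  · refine FI.base.of_idem (LinearMap.range k).subtype Subtype.val_injective (lmulD (be q))
      (fun ξ => ?_) ?_
    · let l := DM.val K _ ξ
      refine ⟨⟨k ⟨⟨l (bk q), l (bi q), 0, 0, 0, 0, l (bz q) / q, l (be q), 0, 0⟩,
        (mem_PA q _).2 ⟨rfl, rfl, rfl, rfl⟩⟩, _, rfl⟩, DM.ext fun c => ?_⟩
      rw [val_lmulD, be_mul, Submodule.subtype_apply, hk]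
      simp only [map_add, map_smul]
      simp [l]
      field_simp
      ring
    · rintro ⟨_, v, rfl⟩
      refine DM.ext fun c => ?_
      rw [val_lmulD, Submodule.subtype_apply, hk, hk]
      simp

theorem fi_C (hq : q ≠ 0) : FI K (CA q) (CA q) :=
  FI.sum ((rmul q (bu q)).codRestrict (PA q) fun v => by simp [mem_PA]) (PA q).subtype
    ((rmul q (be q)).codRestrict (PM q) fun v => by simp [mem_PM]) (PM q).subtype
    (fun v => by ext <;> simp) (fi_PA hq) (fi_PM hq)

end C

/-! ### Algebra maps with nilpotent kernel -/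

section Nil

variable {K S T U V : Type*} [Field K] [Ring S] [Ring T] [Ring U] [Ring V] [Algebra K S]
  [Algebra K T] [Algebra K U] [Algebra K V]

/-- The kernel of `f` is a nilpotent ideal. -/
def NilKer (f : S →ₐ[K] T) : Prop := ∃ n : ℕ, (LinearMap.ker f.toLinearMap) ^ (n + 1) = ⊥

theorem NilKer.isNilpotent {f : S →ₐ[K] T} (h : NilKer f) {x : S} (hx : f x = 0) :
    IsNilpotent x := by
  obtain ⟨n, hn⟩ := h
  refine ⟨n + 1, ?_⟩
  have := Submodule.pow_mem_pow (LinearMap.ker f.toLinearMap) (x := x) hx (n + 1)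
  rwa [hn, Submodule.mem_bot] at this

theorem NilKer.of_injective {f : S →ₐ[K] T} (h : Function.Injective f) : NilKer f :=
  ⟨0, by rw [zero_add, pow_one, LinearMap.ker_eq_bot]; exact h⟩

theorem NilKer.comp {f : S →ₐ[K] T} {g : T →ₐ[K] U} (hg : NilKer g) (hf : NilKer f) :
    NilKer (g.comp f) := by
  obtain ⟨m, hm⟩ := hg
  obtain ⟨n, hn⟩ := hf
  have h1 : (LinearMap.ker (g.comp f).toLinearMap) ^ (m + 1) ≤ LinearMap.ker f.toLinearMap := by
    rw [LinearMap.le_ker_iff_map, Submodule.map_pow, ← le_bot_iff, ← hm]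
    refine pow_le_pow_left' ?_ _
    rintro _ ⟨x, hx, rfl⟩
    exact hx
  refine ⟨(m + 1) * n + m, ?_⟩
  rw [show (m + 1) * n + m + 1 = (m + 1) * (n + 1) by ring, pow_mul, ← le_bot_iff, ← hn]
  exact pow_le_pow_left' h1 _

theorem NilKer.map_id {f : S →ₐ[K] T} (hf : NilKer f) :
    NilKer (Algebra.TensorProduct.map f (AlgHom.id K U)) := by
  obtain ⟨n, hn⟩ := hf
  let τ : Submodule K S → Submodule K (S ⊗[K] U) := fun P =>
    Submodule.map₂ (TensorProduct.mk K S U) P ⊤
  have hτ : ∀ P Q, τ P * τ Q ≤ τ (P * Q) := fun P Q => by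
    rw [Submodule.mul_le]
    intro a ha b hb
    have : τ P ≤ (τ (P * Q)).comap (LinearMap.mulRight K b) := by
      refine Submodule.map₂_le.2 fun x hx y _ => ?_
      have : τ Q ≤ (τ (P * Q)).comap (LinearMap.mulLeft K (x ⊗ₜ[K] y)) := by
        refine Submodule.map₂_le.2 fun x' hx' y' _ => ?_
        have := Submodule.apply_mem_map₂ (TensorProduct.mk K S U) (Submodule.mul_mem_mul hx hx')
          (Submodule.mem_top (x := y * y'))
        simpa using this
      exact this hb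
    exact this ha
  have hpow : ∀ P k, τ P ^ (k + 1) ≤ τ (P ^ (k + 1)) := fun P k => by
    induction k with
    | zero => simp
    | succ k ih =>
      rw [pow_succ, pow_succ P (k + 1)]
      exact (mul_le_mul_left ih _).trans (hτ _ _)
  have hker : LinearMap.ker (Algebra.TensorProduct.map f (AlgHom.id K U)).toLinearMap ≤
      τ (LinearMap.ker f.toLinearMap) := by
    obtain ⟨σ, hσ⟩ := exists_geninv f.toLinearMap
    have key : ∀ z, z - TensorProduct.map σ LinearMap.id
        (Algebra.TensorProduct.map f (AlgHom.id K U) z) ∈ τ (LinearMap.ker f.toLinearMap) := by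
      intro z
      induction z using TensorProduct.induction_on with
      | zero => simp
      | add a b ha hb =>
        rw [map_add, map_add, add_sub_add_comm]
        exact add_mem ha hb
      | tmul a b =>
        have h1 : a - σ (f a) ∈ LinearMap.ker f.toLinearMap := by
          rw [LinearMap.mem_ker, map_sub, sub_eq_zero]
          exact (hσ a).symm
        have := Submodule.apply_mem_map₂ (TensorProduct.mk K S U) h1 (Submodule.mem_top (x := b))
        simpa [TensorProduct.sub_tmul] using this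
    intro z hz
    have hz' : Algebra.TensorProduct.map f (AlgHom.id K U) z = 0 := hz
    simpa [hz'] using key z
  refine ⟨n, le_bot_iff.1 (((pow_le_pow_left' hker _).trans (hpow _ n)).trans ?_)⟩
  rw [hn]
  exact (Submodule.map₂_bot_left _ _).le

theorem NilKer.map {f : S →ₐ[K] T} {g : U →ₐ[K] V} (hf : NilKer f) (hg : NilKer g) :
    NilKer (Algebra.TensorProduct.map f g) := by
  have : Algebra.TensorProduct.map f g =
      (Algebra.TensorProduct.comm K V T).toAlgHom.comp
        ((Algebra.TensorProduct.map g (AlgHom.id K T)).comp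
          ((Algebra.TensorProduct.comm K T U).toAlgHom.comp
            (Algebra.TensorProduct.map f (AlgHom.id K U)))) := by
    ext <;> simp
  rw [this]
  exact (NilKer.of_injective (Algebra.TensorProduct.comm K V T).injective).comp
    (hg.map_id.comp ((NilKer.of_injective (Algebra.TensorProduct.comm K T U).injective).comp
      hf.map_id))

theorem mul_le_ker (M N : Submodule K S) (t : S)
    (h : ∀ n ∈ N, M ≤ LinearMap.ker (LinearMap.mulRight K (n * t))) :
    M * N ≤ LinearMap.ker (LinearMap.mulRight K t) :=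
  Submodule.mul_le.2 fun m hm n hn => by simpa [mul_assoc] using h n hn hm

theorem NilKer.of_five {f : S →ₐ[K] T} (h : ∀ a b c d e, f a = 0 → f b = 0 → f c = 0 → f d = 0 →
    f e = 0 → a * (b * (c * (d * (e * 1)))) = 0) : NilKer f := by
  refine ⟨4, le_bot_iff.1 ?_⟩
  have : (⊥ : Submodule K S) = LinearMap.ker (LinearMap.mulRight K 1) := by simp
  rw [this, pow_succ, pow_succ, pow_succ, pow_succ, pow_one]
  exact mul_le_ker _ _ _ fun e he => mul_le_ker _ _ _ fun d hd => mul_le_ker _ _ _ fun c hc =>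
    mul_le_ker _ _ _ fun b hb a ha => h a b c d e ha hb hc hd he

end Nil

section Rad

variable {K : Type u} [Field K] (q : K)

open CA

/-- The character of the simple module at the vertex `A`. -/
def chu : CA q →ₐ[K] K :=
  AlgHom.ofLinearMap { toFun := fun a => a.u, map_add' := fun _ _ => rfl, map_smul' := fun _ _ => rfl }
    rfl (fun _ _ => rfl)

@[simp] theorem chu_apply (a : CA q) : chu q a = a.u := rfl

theorem nilKer_C : NilKer ((chu q).prod (chi q)) := by
  refine NilKer.of_five fun a b c d e ha hb hc hd he => ?_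
  simp only [AlgHom.prod_apply, chu_apply, chi_apply, Prod.mk_eq_zero] at ha hb hc hd he
  ext <;> simp [ha.1, ha.2, hb.1, hb.2, hc.1, hc.2, hd.1, hd.2, he.1, he.2]

theorem nilKer_D : NilKer (TrivSqZeroExt.fstHom K K K) := by
  refine NilKer.of_five fun a b c d e ha hb hc hd he => ?_
  simp only [TrivSqZeroExt.fstHom_apply] at ha hb hc hd he
  ext <;> simp [ha, hb]

/-- The four characters of `((K × K) ⊗ (K × K)) ⊗ K`. -/
noncomputable def chr4 (K : Type u) [Field K] :
    ((K × K) ⊗[K] (K × K)) ⊗[K] K →ₐ[K] (Fin 4 → K) :=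
  AlgHom.pi fun t : Fin 4 => Algebra.TensorProduct.productMap
    (Algebra.TensorProduct.productMap
      (![AlgHom.fst K K K, AlgHom.fst K K K, AlgHom.snd K K K, AlgHom.snd K K K] t)
      (![AlgHom.fst K K K, AlgHom.snd K K K, AlgHom.fst K K K, AlgHom.snd K K K] t))
    (AlgHom.id K K)

theorem chr4_tmul (a b : K × K) (c : K) : chr4 K ((a ⊗ₜ[K] b) ⊗ₜ[K] c) =
    ![a.1 * b.1 * c, a.1 * b.2 * c, a.2 * b.1 * c, a.2 * b.2 * c] := by
  ext t
  fin_cases t <;> simp [chr4]

theorem chr4_injective : Function.Injective (chr4 K) := by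
  let v : Fin 4 → ((K × K) ⊗[K] (K × K)) ⊗[K] K :=
    ![(((1, 0) : K × K) ⊗ₜ[K] ((1, 0) : K × K)) ⊗ₜ[K] (1 : K),
      (((1, 0) : K × K) ⊗ₜ[K] ((0, 1) : K × K)) ⊗ₜ[K] (1 : K),
      (((0, 1) : K × K) ⊗ₜ[K] ((1, 0) : K × K)) ⊗ₜ[K] (1 : K),
      (((0, 1) : K × K) ⊗ₜ[K] ((0, 1) : K × K)) ⊗ₜ[K] (1 : K)]
  have : Fintype.linearCombination K v ∘ₗ (chr4 K).toLinearMap = LinearMap.id := by
    ext <;> simp [chr4_tmul, Fintype.linearCombination_apply, Fin.sum_univ_four, v]
  exact Function.LeftInverse.injective (g := Fintype.linearCombination K v)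
    fun z => LinearMap.congr_fun this z

end Rad

end GorAux

end Crest.Agent.R186
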