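import Crest.Agent.R186.BT

/-! Construction of homotopies by recursion in both directions; auxiliary complexes. -/

set_option autoImplicit false
set_option linter.unusedSectionVars false

namespace Crest.Agent.R186

theorem exists_seq_up {α : Type*} (I : ℤ → α → Prop) (R : ℤ → α → α → Prop) (m₀ : ℤ) (a₀ : α)
    (h₀ : I m₀ a₀) (step : ∀ m, m₀ ≤ m → ∀ a, I m a → ∃ a', I (m + 1) a' ∧ R m a a') :
    ∃ f : ℤ → α, f m₀ = a₀ ∧ ∀ m, m₀ ≤ m → I m (f m) ∧ R m (f m) (f (m + 1)) := by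
  choose nx h1 h2 using step
  let g : ∀ k : ℕ, {a // I (m₀ + k) a} := fun k => Nat.rec ⟨a₀, by simpa using h₀⟩
    (fun k p => ⟨nx (m₀ + k) (by omega) p.1 p.2, by
      have := h1 (m₀ + k) (by omega) p.1 p.2
      rwa [add_assoc] at this⟩) k
  let g' : ℕ → α := fun k => (g k).1
  have hg0 : g' 0 = a₀ := rfl
  have hg1 : ∀ k : ℕ, I (m₀ + k) (g' k) := fun k => (g k).2
  have hg2 : ∀ k : ℕ, R (m₀ + k) (g' k) (g' (k + 1)) := fun k => h2 _ _ _ (g k).2
  refine ⟨fun m => g' (m - m₀).toNat, by simp [hg0], fun m hm => ?_⟩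
  obtain ⟨k, rfl⟩ : ∃ k : ℕ, m = m₀ + k := ⟨(m - m₀).toNat, by omega⟩
  have e1 : (m₀ + k - m₀).toNat = k := by omega
  have e2 : (m₀ + k + 1 - m₀).toNat = k + 1 := by omega
  simp only [e1, e2]
  exact ⟨hg1 k, hg2 k⟩

theorem exists_seq_down {α : Type*} (I : ℤ → α → Prop) (R : ℤ → α → α → Prop) (m₀ : ℤ) (a₀ : α)
    (h₀ : I m₀ a₀) (step : ∀ m, m < m₀ → ∀ a, I (m + 1) a → ∃ a', I m a' ∧ R m a' a) :
    ∃ f : ℤ → α, f m₀ = a₀ ∧ ∀ m, m < m₀ → I m (f m) ∧ R m (f m) (f (m + 1)) := by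
  obtain ⟨f, h0, hf⟩ := exists_seq_up (fun m a => I (-m) a) (fun m a a' => R (-m - 1) a' a) (-m₀) a₀
    (by simpa using h₀) (fun m hm a ha => by
      obtain ⟨a', h1, h2⟩ := step (-m - 1) (by omega) a (by simpa using ha)
      exact ⟨a', by rwa [neg_add, ← sub_eq_add_neg], h2⟩)
  refine ⟨fun m => f (-m), h0, fun m hm => ⟨by simpa using (hf (-m) (by omega)).1, ?_⟩⟩
  have := (hf (-(m + 1)) (by omega)).2
  rwa [show - -(m + 1) - 1 = m by ring, show -(m + 1) + 1 = -m by ring] at this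

namespace Cx

variable {S V X : Type*} [Ring S] [AddCommGroup V] [Module S V] [AddCommGroup X] [Module S X]
  {A : Cx S V} {B : Cx S X} {Pi : V →ₗ[S] X}

variable (A B Pi) in
/-- The invariant of the recursive construction of a null-homotopy of `Pi`. -/
structure HInv (m : ℤ) (k : V →ₗ[S] X) : Prop where
  ek : ∀ z, B.e (m + 1) (k z) = k z
  ke : ∀ z, k (A.e m z) = k z
  dkd : ∀ z, B.d m (k (A.d m z)) = Pi (A.d m z)

variable (A B Pi) in
/-- The homotopy relation. -/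
def HRel (m : ℤ) (k k' : V →ₗ[S] X) : Prop :=
  ∀ z, B.d (m + 1) (k' z) + k (A.d m z) = Pi (A.e (m + 1) z)

theorem htpy_up (h : Hom A B Pi) (hA : A.IsFP) {m : ℤ} (hB : B.ExactAt (m + 1)) {k : V →ₗ[S] X}
    (hk : HInv A B Pi m k) : ∃ k', HInv A B Pi (m + 1) k' ∧ HRel A B Pi m k k' := by
  obtain ⟨g, hge, hg⟩ := hA.lift (m + 1) (Pi ∘ₗ A.e (m + 1) - k ∘ₗ A.d m)
    (fun z => by simp [A.ee, A.de]) (B.d (m + 1)) (fun z => hB _
      (by simp [h.he, B.ee, hk.ek]) (by simp [h.he, B.de, hk.dkd, h.hd]))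
  refine ⟨B.e (m + 1 + 1) ∘ₗ g, ⟨fun z => by simp [B.ee], fun z => by simp [hge], fun z => ?_⟩,
    fun z => by simp [B.de, hg]⟩
  simp [B.de, hg, A.ed, A.dd]

theorem htpy_down (h : Hom A B Pi) {m : ℤ} (hA : A.HZ S (m + 1)) (hB : FP (B.e (m + 1)))
    {k : V →ₗ[S] X} (hk : HInv A B Pi (m + 1) k) :
    ∃ k', HInv A B Pi m k' ∧ HRel A B Pi m k' k := by
  have hc : A.Coc (m + 1) (Pi ∘ₗ A.e (m + 1) - B.d (m + 1) ∘ₗ k) :=
    ⟨fun z => by simp [A.ee, hk.ke], fun z => by simp [A.ed, hk.dkd]⟩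
  obtain ⟨g, hge, hg⟩ := (hA.fp hc hB).exists_homog
  simp only [add_sub_cancel_right] at hge hg
  have hg' : ∀ z, B.e (m + 1) (g (A.d m z)) = Pi (A.e (m + 1) z) - B.d (m + 1) (k z) := fun z => by
    simp [hg, B.ee, h.he, B.ed]
  refine ⟨B.e (m + 1) ∘ₗ g, ⟨fun z => by simp [B.ee], fun z => by simp [hge], fun z => ?_⟩,
    fun z => by simp [hg']⟩
  simp [hg', B.dd, ← h.hd, A.de]

variable (A B) in
/-- Direct sum of complexes. -/
def prod : Cx S (V × X) where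
  e n := (A.e n).prodMap (B.e n)
  d n := (A.d n).prodMap (B.d n)
  ee n x := by simp [A.ee, B.ee]
  ed n x := by simp [A.ed, B.ed]
  de n x := by simp [A.de, B.de]
  dd n x := by simp [A.dd, B.dd]

@[simp] theorem prod_e (n : ℤ) (x : V × X) : (A.prod B).e n x = (A.e n x.1, B.e n x.2) := rfl
@[simp] theorem prod_d (n : ℤ) (x : V × X) : (A.prod B).d n x = (A.d n x.1, B.d n x.2) := rfl

theorem prod_fp (hA : A.IsFP) (hB : B.IsFP) : (A.prod B).IsFP := fun n =>
  ((((hA n).comp_left (LinearMap.inl S V X)).comp_right (LinearMap.fst S V X)).add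
    (((hB n).comp_left (LinearMap.inr S V X)).comp_right (LinearMap.snd S V X))).congr
    fun x => by simp

theorem prod_exactAt {n : ℤ} (hA : A.ExactAt n) (hB : B.ExactAt n) : (A.prod B).ExactAt n := by
  rintro ⟨x, y⟩ he hd
  simp only [prod_e, prod_d, Prod.mk.injEq, Prod.mk_eq_zero] at he hd
  obtain ⟨a, ha⟩ := hA x he.1 hd.1
  obtain ⟨b, hb⟩ := hB y he.2 hd.2
  exact ⟨(a, b), by simp [ha, hb]⟩

variable (B) in
/-- Brutal truncation to positive degrees. -/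
def trunc : Cx S X where
  e n := if 0 < n then B.e n else 0
  d n := if 0 < n then B.d n else 0
  ee n x := by split_ifs <;> simp [B.ee]
  ed n x := by split_ifs <;> simp [B.ed]
  de n x := by
    by_cases h : 0 < n
    · simp [h, show 0 < n + 1 by omega, B.de]
    · simp [h]
  dd n x := by
    by_cases h : 0 < n
    · simp [h, show 0 < n + 1 by omega, B.dd]
    · simp [h]

theorem trunc_e {n : ℤ} (h : 0 < n) : B.trunc.e n = B.e n := if_pos h
theorem trunc_d {n : ℤ} (h : 0 < n) : B.trunc.d n = B.d n := if_pos h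

theorem trunc_exactAt {n : ℤ} (h : 1 < n) (hB : B.ExactAt n) : B.trunc.ExactAt n := by
  intro x he hd
  rw [trunc_e (by omega)] at he
  rw [trunc_d (by omega)] at hd
  rw [trunc_d (by omega)]
  exact hB x he hd

end Cx

end Crest.Agent.R186
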