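import Crest.Agent.R186.Dat
import Crest.Agent.R186.BT

/-! The complete resolution attached to a datum, and the hypotheses of the main construction. -/

set_option autoImplicit false
set_option linter.unusedSectionVars false

namespace Crest.Agent.R186

open scoped TensorProduct
open MulOpposite

variable {K S T : Type*} [Field K] [Ring S] [Ring T] [Algebra K S] [Algebra K T]

/-- A functional that is linear for the character `χ`, as a map to the module `Res χ K`. -/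
def toChi (χ : S →ₐ[K] K) {X : Type*} [AddCommGroup X] [Module K X] [Module S X]
    (f : X →ₗ[K] K) (hf : ∀ (s : S) x, f (s • x) = χ s * f x) : X →ₗ[S] Res χ K :=
  mkLin ((Res.of χ K).toLinearMap ∘ₗ f) fun s x => congrArg (Res.of χ K) (hf s x)

@[simp] theorem toChi_apply (χ : S →ₐ[K] K) {X : Type*} [AddCommGroup X] [Module K X] [Module S X]
    (f : X →ₗ[K] K) (hf) (x : X) : toChi χ f hf x = Res.of χ K (f x) := rfl

/-- The underlying functional of a map to `Res χ K`. -/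
def ofChi {χ : S →ₐ[K] K} {X : Type*} [AddCommGroup X] [Module K X] [Module S X]
    [IsScalarTower K S X] (f : X →ₗ[S] Res χ K) : X →ₗ[K] K :=
  (Res.of χ K).symm.toLinearMap ∘ₗ f.restrictScalars K

theorem ofChi_apply {χ : S →ₐ[K] K} {X : Type*} [AddCommGroup X] [Module K X] [Module S X]
    [IsScalarTower K S X] (f : X →ₗ[S] Res χ K) (x : X) : Res.of χ K (ofChi f x) = f x := rfl

theorem ofChi_smul {χ : S →ₐ[K] K} {X : Type*} [AddCommGroup X] [Module K X] [Module S X]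
    [IsScalarTower K S X] (f : X →ₗ[S] Res χ K) (s : S) (x : X) :
    ofChi f (s • x) = χ s * ofChi f x := congrArg (Res.of χ K).symm (f.map_smul s x)

theorem chi_smul {χ : S →ₐ[K] K} (s : S) (z : Res χ K) : s • z = χ s • z := rfl

namespace Dat

variable {E : Env K S T} {χ : S →ₐ[K] K} {t : ℤ} {Xp Xq Y H W : Type*}
    [AddCommGroup Xp] [Module K Xp] [Module S Xp] [IsScalarTower K S Xp]
    [AddCommGroup Xq] [Module K Xq] [Module S Xq] [IsScalarTower K S Xq]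
    [AddCommGroup Y] [Module K Y] [Module T Y] [IsScalarTower K T Y]
    [AddCommGroup H] [Module K H] [Module T H] [IsScalarTower K T H]
    [AddCommGroup W] [Module K W] [Module T W] [IsScalarTower K T W]
    (D : Dat E χ t Xp Xq Y H W)

/-- The complete resolution: the cocone of `c : p → q`. -/
def tc (h2 : (2 : K) = 0) : Cx S (Xp × Xq) :=
  (D.p.cocone D.q D.c D.c_e D.c_d (addself h2)).toCx

@[simp] theorem tc_e (h2 : (2 : K) = 0) (n : ℤ) (x : Xp × Xq) :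
    (D.tc h2).e n x = (D.p.e n x.1, D.q.e (n + 1) x.2) := rfl

@[simp] theorem tc_d (h2 : (2 : K) = 0) (n : ℤ) (x : Xp × Xq) :
    (D.tc h2).d n x = (D.p.e n (D.p.d x.1), D.q.e (n + 1) (D.c x.1 + D.q.d x.2)) := rfl

/-- The projective resolution, on the same ambient module. -/
def pc : Cx S (Xp × Xq) where
  e n := (D.p.e n).prodMap 0
  d n := (D.p.e n ∘ₗ D.p.d).prodMap 0
  ee n x := by simp [D.p.ee]
  ed n x := by simp [D.p.ee]
  de n x := by simp [D.p.de, D.p.ee]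
  dd n x := by simp [D.p.de, D.p.dd]

@[simp] theorem pc_e (n : ℤ) (x : Xp × Xq) : D.pc.e n x = (D.p.e n x.1, 0) := rfl
@[simp] theorem pc_d (n : ℤ) (x : Xp × Xq) : D.pc.d n x = (D.p.e n (D.p.d x.1), 0) := rfl

/-- The augmentation. -/
def εc : Xp × Xq →ₗ[S] Res χ K := toChi χ D.ε D.ε_smul ∘ₗ LinearMap.fst S Xp Xq

@[simp] theorem εc_apply (x : Xp × Xq) : D.εc x = Res.of χ K (D.ε x.1) := rfl

theorem tc_fp (h2 : (2 : K) = 0) : (D.tc h2).IsFP := fun n =>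
  ((((D.p_fp n).comp_left (LinearMap.inl S Xp Xq)).comp_right (LinearMap.fst S Xp Xq)).add
    (((D.q_fp (n + 1)).comp_left (LinearMap.inr S Xp Xq)).comp_right
      (LinearMap.snd S Xp Xq))).congr fun x => by simp

theorem pc_fp : D.pc.IsFP := fun n =>
  (((D.p_fp n).comp_left (LinearMap.inl S Xp Xq)).comp_right (LinearMap.fst S Xp Xq)).congr
    fun x => by simp

theorem πq_c (x : Xp) (hx : D.p.d x = 0) : D.πq (D.c x) = D.ε x := by
  have h1 : D.p.d D.v = 0 := D.kp_p.dv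
  obtain ⟨w, hw⟩ := D.kp_p.ex (x - D.ε x • D.v) (by simp [hx, h1]) (by simp [D.kp_p.εv])
  have h2 : x = D.p.d w + D.ε x • D.v := by
    rw [eq_comm, ← eq_sub_iff_add_eq]; exact hw
  have h3 : D.πq (D.q.d (D.c w)) = 0 := D.kp_q.εd _
  conv_lhs => rw [h2, map_add, D.c_d, map_add, h3, LinearMap.map_smul_of_tower, map_smul,
    D.kp_q.εv]
  simp

theorem tc_ex (h2 : (2 : K) = 0) (n : ℤ) : (D.tc h2).ExactAt n := by
  refine GCx.toCx_exactAt _ n ?_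
  rintro ⟨x, y⟩ - hd
  simp only [GCx.cocone_d, Prod.mk_eq_zero] at hd
  obtain ⟨hx, hy⟩ := hd
  have hq : D.πq (D.q.d y) = 0 := D.kp_q.εd _
  have h0 : D.ε x = 0 := by
    rw [← D.πq_c x hx, eq_neg_of_add_eq_zero_left hy, map_neg, hq, neg_zero]
  obtain ⟨x', hx'⟩ := D.kp_p.ex x hx h0
  have hx'' : D.p.d x' = x := hx'
  have hv : D.q.d (D.c D.v) = 0 := D.kp_q.dv
  have hv' : D.p.d D.v = 0 := D.kp_p.dv
  obtain ⟨y', hy'⟩ := D.kp_q.ex (y - D.c x' - D.πq (y - D.c x') • D.c D.v)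
    (by
      have : D.q.d y = D.c x := by
        rw [eq_neg_of_add_eq_zero_right hy, eq_comm, ← add_eq_zero_iff_eq_neg, addself h2]
      simp [hv, ← D.c_d, hx'', this])
    (by simp [D.kp_q.εv])
  have hy'' : D.q.d y' = _ := hy'
  refine ⟨(x' + D.πq (y - D.c x') • D.v, y'), ?_⟩
  simp only [GCx.cocone_d, map_add, LinearMap.map_smul_of_tower, hv', smul_zero, add_zero, hx'',
    hy'']
  congr 1
  abel

theorem pc_ex (n : ℤ) (hn : 0 < n) : D.pc.ExactAt n := by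
  rintro ⟨x, y⟩ he hd
  simp only [pc_e, pc_d, Prod.mk.injEq, Prod.mk_eq_zero, and_true] at he hd
  rw [← D.p.de', he.1] at hd
  obtain ⟨w, hw⟩ := D.kp_p.ex x hd (by rw [← D.ε_e, ← he.1, D.p.eo 0 n hn.ne, map_zero])
  have hw' : D.p.d w = x := hw
  exact ⟨(w, 0), by simp [hw', he.1, he.2]⟩

theorem εc_ex (x : Xp × Xq) (he : D.pc.e 0 x = x) (hε : D.εc x = 0) : ∃ w, D.pc.d 0 w = x := by
  obtain ⟨x, y⟩ := x
  simp only [pc_e, Prod.mk.injEq] at he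
  have hd : D.p.d x = 0 := by rw [← he.1, D.p.de', D.p_lo _ (by norm_num)]; rfl
  obtain ⟨w, hw⟩ := D.kp_p.ex x hd hε
  have hw' : D.p.d w = x := hw
  exact ⟨(w, 0), by simp [hw', he.1, he.2]⟩

theorem agree_e (h2 : (2 : K) = 0) (n : ℤ) (hn : t ≤ n) : D.pc.e n = (D.tc h2).e n :=
  LinearMap.ext fun x => by simp [D.q_hi (n + 1) (by omega)]

theorem agree_d (h2 : (2 : K) = 0) (n : ℤ) (hn : t ≤ n) : D.pc.d n = (D.tc h2).d n :=
  LinearMap.ext fun x => by simp [D.q_hi (n + 1) (by omega)]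

end Dat

/-- Hypotheses of the main construction. -/
structure MD (E : Env K S T) (χ : S →ₐ[K] K) (X U : Type*)
    [AddCommGroup X] [Module K X] [Module S X] [IsScalarTower K S X]
    [AddCommGroup U] [Module K U] [Module T U] [IsScalarTower K T U] where
  t : Cx S X
  t_fp : t.IsFP
  t_ex : ∀ n, t.ExactAt n
  p : Cx S X
  p_fp : p.IsFP
  p_lo : ∀ n, n < 0 → p.e n = 0
  p_ex : ∀ n, 0 < n → p.ExactAt n
  agree_e : ∀ n, 4 ≤ n → p.e n = t.e n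
  agree_d : ∀ n, 4 ≤ n → p.d n = t.d n
  ε : X →ₗ[S] Res χ K
  ε_p : p.Coc 0 ε
  ε_t : ∀ x, ε (t.e 0 x) = ε x
  ε_ex : ∀ x, p.e 0 x = x → ε x = 0 → ∃ w, p.d 0 w = x
  v : X
  v_e : p.e 0 v = v
  ε_v : ε v = Res.of χ K 1
  h : S ≃ₐ[K] S
  χ_h : ∀ a, χ (h a) = χ a
  θ : X ≃ₗ[K] X
  θ_smul : ∀ (s : S) x, θ (s • x) = h s • θ x
  θ_te : ∀ n x, θ (t.e n x) = t.e n (θ x)
  θ_td : ∀ n x, θ (t.d n x) = t.d n (θ x)
  θ_pe : ∀ n x, θ (p.e n x) = p.e n (θ x)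
  θ_pd : ∀ n x, θ (p.d n x) = p.d n (θ x)
  ε_θ : ∀ x, ε (θ x) = ε x
  fd : ∀ (f : X →ₗ[S] Res χ K) n x, f (t.d n x) = 0
  E1 : ∀ n, n ≠ 0 → ∀ f : X →ₗ[S] Res χ K, (∀ x, f (t.e n x) = f x) → (∀ x, f (θ x) = f x) → f = 0
  E2 : ∀ (n : ℤ) (a : X →ₗ[S] Res χ K), (∀ x, a (t.e n x) = a x) →
    ∃ (α : X →ₗ[S] Res χ K) (c : K), (∀ x, α (t.e n x) = α x) ∧ (n ≠ 0 → c = 0) ∧
      ∀ x, α (θ x) - α x + c • ε x = a x
  U_l : FPvia U E.l
  U_r : FPvia U E.r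
  π₁ : U →ₗ[K] S
  π₂ : U →ₗ[K] S
  π₁_l : ∀ a u, π₁ (E.l a • u) = a * π₁ u
  π₁_r : ∀ b u, π₁ (E.r (op b) • u) = π₁ u * b
  π₂_l : ∀ a u, π₂ (E.l a • u) = a * π₂ u
  π₂_r : ∀ b u, π₂ (E.r (op b) • u) = π₂ u * h b
  u₁ : U
  u₂ : U
  π₁_u₁ : π₁ u₁ = 1
  π₂_u₁ : π₂ u₁ = 0
  π₁_u₂ : π₁ u₂ = 0
  π₂_u₂ : π₂ u₂ = 1
  lft : U →ₗ[K] X
  lft_l : ∀ a u, lft (E.l a • u) = a • lft u
  lft_r : ∀ b u, lft (E.r (op b) • u) = χ b • lft u
  lft_e : ∀ u, p.e 0 (lft u) = lft u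
  ε_lft : ∀ u, ε (lft u) = Res.of χ K (χ (π₁ u) - χ (π₂ u))
  Q1 : ∀ n, n ≠ 0 → n ≠ -3 → (t.bt E U).HZ (Res χ K) n
  Q2 : (t.bt E U).HR K (Res χ K) 0 1
  Q3 : ¬ ∃ g : BT E U X →ₗ[S] Res χ K, ∀ u x, g (BT.mk E u (t.d (-1) x)) = ε (π₁ u • x)

end Crest.Agent.R186
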