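import Crest.Agent.R186.BT

/-! The triangular matrix algebra of a bimodule, its modules, and the cone complex. -/

set_option autoImplicit false
set_option linter.unusedSectionVars false

namespace Crest.Agent.R186

open scoped TensorProduct
open MulOpposite

variable {K S T : Type*} [Field K] [Ring S] [Ring T] [Algebra K S] [Algebra K T]

/-- The triangular matrix algebra. -/
def Tri (_E : Env K S T) (F : Type*) : Type _ := S × F × S

namespace Tri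

variable (E : Env K S T) (F : Type*) [AddCommGroup F] [Module K F] [Module T F]
  [IsScalarTower K T F]

instance : AddCommGroup (Tri E F) := inferInstanceAs (AddCommGroup (S × F × S))
instance : Module K (Tri E F) := inferInstanceAs (Module K (S × F × S))
instance [Module.Finite K S] [Module.Finite K F] : Module.Finite K (Tri E F) :=
  inferInstanceAs (Module.Finite K (S × F × S))

variable {E F}

/-- Constructor. -/
def mk (a : S) (f : F) (b : S) : Tri E F := (a, f, b)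
/-- Upper left entry. -/
def a (x : Tri E F) : S := x.1
/-- Off-diagonal entry. -/
def f (x : Tri E F) : F := x.2.1
/-- Lower right entry. -/
def b (x : Tri E F) : S := x.2.2

@[ext] theorem ext {x y : Tri E F} (h1 : x.a = y.a) (h2 : x.f = y.f) (h3 : x.b = y.b) : x = y :=
  Prod.ext h1 (Prod.ext h2 h3)

instance : One (Tri E F) := ⟨mk 1 0 1⟩
instance : Mul (Tri E F) :=
  ⟨fun x y => mk (x.a * y.a) (E.r (op y.a) • x.f + E.l x.b • y.f) (x.b * y.b)⟩

@[simp] theorem mk_a (x : S) (y : F) (z : S) : (mk x y z : Tri E F).a = x := rfl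
@[simp] theorem mk_f (x : S) (y : F) (z : S) : (mk x y z : Tri E F).f = y := rfl
@[simp] theorem mk_b (x : S) (y : F) (z : S) : (mk x y z : Tri E F).b = z := rfl
@[simp] theorem zero_a : (0 : Tri E F).a = 0 := rfl
@[simp] theorem zero_f : (0 : Tri E F).f = 0 := rfl
@[simp] theorem zero_b : (0 : Tri E F).b = 0 := rfl
@[simp] theorem one_a : (1 : Tri E F).a = 1 := rfl
@[simp] theorem one_f : (1 : Tri E F).f = 0 := rfl
@[simp] theorem one_b : (1 : Tri E F).b = 1 := rfl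
@[simp] theorem add_a (x y : Tri E F) : (x + y).a = x.a + y.a := rfl
@[simp] theorem add_f (x y : Tri E F) : (x + y).f = x.f + y.f := rfl
@[simp] theorem add_b (x y : Tri E F) : (x + y).b = x.b + y.b := rfl
@[simp] theorem smul_a (c : K) (x : Tri E F) : (c • x).a = c • x.a := rfl
@[simp] theorem smul_f (c : K) (x : Tri E F) : (c • x).f = c • x.f := rfl
@[simp] theorem smul_b (c : K) (x : Tri E F) : (c • x).b = c • x.b := rfl
@[simp] theorem mul_a (x y : Tri E F) : (x * y).a = x.a * y.a := rfl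
@[simp] theorem mul_f (x y : Tri E F) : (x * y).f = E.r (op y.a) • x.f + E.l x.b • y.f := rfl
@[simp] theorem mul_b (x y : Tri E F) : (x * y).b = x.b * y.b := rfl

instance : Ring (Tri E F) :=
  { (inferInstance : AddCommGroup (Tri E F)) with
    mul := (· * ·)
    one := 1
    mul_assoc := fun x y z => by
      ext
      · simp [mul_assoc]
      · simp only [mul_f, mul_a, mul_b, smul_add, E.r_smul_r, E.l_smul_l, E.smul_comm]
        abel
      · simp [mul_assoc]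
    one_mul := fun x => by ext <;> simp
    mul_one := fun x => by ext <;> simp
    zero_mul := fun x => by ext <;> simp
    mul_zero := fun x => by ext <;> simp
    left_distrib := fun x y z => by
      ext
      · simp [mul_add]
      · simp only [mul_f, add_a, add_f, op_add, map_add, add_smul, smul_add]; abel
      · simp [mul_add]
    right_distrib := fun x y z => by
      ext
      · simp [add_mul]
      · simp only [mul_f, add_b, add_f, map_add, add_smul, smul_add]; abel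
      · simp [add_mul] }

instance : Algebra K (Tri E F) :=
  Algebra.ofModule
    (fun c x y => by
      ext
      · simp
      · simp [smul_comm c]
      · simp)
    (fun c x y => by
      ext
      · simp
      · simp [smul_comm c]
      · simp)

theorem pow_a (x : Tri E F) (n : ℕ) : (x ^ n).a = x.a ^ n := by
  induction n with
  | zero => simp
  | succ n ih => simp [pow_succ, ih]

theorem pow_b (x : Tri E F) (n : ℕ) : (x ^ n).b = x.b ^ n := by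
  induction n with
  | zero => simp
  | succ n ih => simp [pow_succ, ih]

theorem isNilpotent {x : Tri E F} (ha : IsNilpotent x.a) (hb : IsNilpotent x.b) :
    IsNilpotent x := by
  obtain ⟨m, hm⟩ := ha
  obtain ⟨n, hn⟩ := hb
  refine ⟨(m + n) * 2, ?_⟩
  have h1 : (x ^ (m + n)).a = 0 := by rw [pow_a, pow_add, hm, zero_mul]
  have h2 : (x ^ (m + n)).b = 0 := by rw [pow_b, pow_add, hn, mul_zero]
  rw [pow_mul, pow_two]
  ext <;> simp [h1, h2]

/-- Projection to the upper left entry. -/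
def aHom : Tri E F →ₐ[K] S :=
  AlgHom.ofLinearMap { toFun := a, map_add' := fun _ _ => rfl, map_smul' := fun _ _ => rfl } rfl
    fun _ _ => rfl

/-- Projection to the lower right entry. -/
def bHom : Tri E F →ₐ[K] S :=
  AlgHom.ofLinearMap { toFun := b, map_add' := fun _ _ => rfl, map_smul' := fun _ _ => rfl } rfl
    fun _ _ => rfl

theorem rad (h : ∃ φ : S →ₐ[K] (Fin 4 → K), Function.Surjective φ ∧
    (∀ x, φ x = 0 → IsNilpotent x) ∧
    ∃ a b c d, φ a = 0 ∧ φ b = 0 ∧ φ c = 0 ∧ φ d = 0 ∧ a * b * c * d ≠ 0) :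
    ∃ φ : Tri E F →ₐ[K] (Fin 8 → K), Function.Surjective φ ∧
    (∀ x, φ x = 0 → x ∈ Ring.jacobson (Tri E F)) ∧
    ∃ a b c d : Tri E F, φ a = 0 ∧ φ b = 0 ∧ φ c = 0 ∧ φ d = 0 ∧ a * b * c * d ≠ 0 := by
  obtain ⟨φ, hs, hn, a, b, c, d, ha, hb, hc, hd, hne⟩ := h
  let e : ((Fin 4 → K) × (Fin 4 → K)) ≃ₐ[K] (Fin 8 → K) :=
    (AlgEquiv.sumArrowEquivProdArrow (Fin 4) (Fin 4) K K).symm.trans
      (AlgEquiv.piCongrLeft' K (fun _ => K) (finSumFinEquiv (m := 4) (n := 4)))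
  let ψ : Tri E F →ₐ[K] (Fin 8 → K) :=
    (e : _ →ₐ[K] _).comp ((φ.comp aHom).prod (φ.comp bHom))
  have hψ : ∀ x, ψ x = e (φ x.a, φ x.b) := fun _ => rfl
  have hker : ∀ x, ψ x = 0 → IsNilpotent x := fun x hx => by
    rw [hψ, map_eq_zero_iff e e.injective, Prod.mk_eq_zero] at hx
    exact isNilpotent (hn _ hx.1) (hn _ hx.2)
  have h0 : ∀ x : S, φ x = 0 → ψ (mk x 0 0) = 0 := fun x hx => by
    rw [hψ, mk_a, mk_b, hx, map_zero]; exact map_zero e
  refine ⟨ψ, fun w => ?_, fun x hx => ?_, mk a 0 0, mk b 0 0, mk c 0 0, mk d 0 0, h0 _ ha, h0 _ hb,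
    h0 _ hc, h0 _ hd, fun h => hne (congrArg Tri.a h)⟩
  · obtain ⟨⟨w1, w2⟩, rfl⟩ := e.surjective w
    obtain ⟨x, rfl⟩ := hs w1
    obtain ⟨y, rfl⟩ := hs w2
    exact ⟨mk x 0 y, rfl⟩
  · rw [← Ideal.jacobson_bot, Ideal.mem_jacobson_iff]
    intro y
    obtain ⟨u, hu⟩ := (hker (y * x) (by rw [map_mul, hx, mul_zero])).isUnit_add_one
    refine ⟨(u⁻¹ : (Tri E F)ˣ), ?_⟩
    rw [Ideal.mem_bot, sub_eq_zero, mul_assoc, ← mul_add_one, ← hu, Units.inv_mul]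

end Tri

/-! ### Modules over the triangular algebra -/

variable (E : Env K S T) (F : Type*) [AddCommGroup F] [Module K F] [Module T F]
  [IsScalarTower K T F]

/-- Structure maps `F ⊗ X₁ → X₂`. -/
structure TD (X₁ X₂ : Type*) [AddCommGroup X₁] [Module K X₁] [Module S X₁]
    [AddCommGroup X₂] [Module K X₂] [Module S X₂] where
  φ : F →ₗ[K] X₁ →ₗ[K] X₂
  hr : ∀ a f x, φ (E.r (op a) • f) x = φ f (a • x)
  hl : ∀ b f x, φ (E.l b • f) x = b • φ f x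

variable {E F}
variable {X₁ X₂ Y₁ Y₂ : Type*}
  [AddCommGroup X₁] [Module K X₁] [Module S X₁] [IsScalarTower K S X₁]
  [AddCommGroup X₂] [Module K X₂] [Module S X₂] [IsScalarTower K S X₂]
  [AddCommGroup Y₁] [Module K Y₁] [Module S Y₁] [IsScalarTower K S Y₁]
  [AddCommGroup Y₂] [Module K Y₂] [Module S Y₂] [IsScalarTower K S Y₂]

/-- The module attached to a structure map. -/
def TM (_τ : TD E F X₁ X₂) : Type _ := X₁ × X₂

namespace TM

variable (τ : TD E F X₁ X₂)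

instance : AddCommGroup (TM τ) := inferInstanceAs (AddCommGroup (X₁ × X₂))
instance : Module K (TM τ) := inferInstanceAs (Module K (X₁ × X₂))

/-- Constructor. -/
def mk (x : X₁) (y : X₂) : TM τ := (x, y)

variable {τ}

/-- First component. -/
def x (z : TM τ) : X₁ := z.1
/-- Second component. -/
def y (z : TM τ) : X₂ := z.2

@[ext] theorem ext {z w : TM τ} (h1 : z.x = w.x) (h2 : z.y = w.y) : z = w := Prod.ext h1 h2

instance : SMul (Tri E F) (TM τ) := ⟨fun l z => mk τ (l.a • z.x) (τ.φ l.f z.x + l.b • z.y)⟩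

@[simp] theorem mk_x (a : X₁) (b : X₂) : (mk τ a b).x = a := rfl
@[simp] theorem mk_y (a : X₁) (b : X₂) : (mk τ a b).y = b := rfl
@[simp] theorem zero_x : (0 : TM τ).x = 0 := rfl
@[simp] theorem zero_y : (0 : TM τ).y = 0 := rfl
@[simp] theorem add_x (z w : TM τ) : (z + w).x = z.x + w.x := rfl
@[simp] theorem add_y (z w : TM τ) : (z + w).y = z.y + w.y := rfl
@[simp] theorem ksmul_x (c : K) (z : TM τ) : (c • z).x = c • z.x := rfl
@[simp] theorem ksmul_y (c : K) (z : TM τ) : (c • z).y = c • z.y := rfl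
@[simp] theorem smul_x (l : Tri E F) (z : TM τ) : (l • z).x = l.a • z.x := rfl
@[simp] theorem smul_y (l : Tri E F) (z : TM τ) : (l • z).y = τ.φ l.f z.x + l.b • z.y := rfl

instance : Module (Tri E F) (TM τ) where
  one_smul z := by ext <;> simp
  mul_smul l m z := by
    ext
    · simp [mul_smul]
    · simp [τ.hr, τ.hl, mul_smul, add_assoc]
  smul_zero l := by ext <;> simp
  smul_add l z w := by
    ext
    · simp
    · simp only [smul_y, add_x, add_y, map_add, smul_add]; abel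
  add_smul l m z := by
    ext
    · simp [add_smul]
    · simp only [smul_y, Tri.add_f, Tri.add_b, map_add, LinearMap.add_apply, add_smul, add_y]; abel
  zero_smul z := by ext <;> simp

instance : IsScalarTower K (Tri E F) (TM τ) := ⟨fun c l z => by ext <;> simp⟩

variable {τ' : TD E F Y₁ Y₂}

/-- Module maps from compatible pairs. -/
def hom (g₁ : X₁ →ₗ[S] Y₁) (g₂ : X₂ →ₗ[S] Y₂) (h : ∀ f x, g₂ (τ.φ f x) = τ'.φ f (g₁ x)) :
    TM τ →ₗ[Tri E F] TM τ' where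
  toFun z := mk τ' (g₁ z.x) (g₂ z.y)
  map_add' z w := by ext <;> simp
  map_smul' l z := by ext <;> simp [h]

@[simp] theorem hom_x (g₁ : X₁ →ₗ[S] Y₁) (g₂ : X₂ →ₗ[S] Y₂) (h) (z : TM τ) :
    (hom (τ' := τ') g₁ g₂ h z).x = g₁ z.x := rfl
@[simp] theorem hom_y (g₁ : X₁ →ₗ[S] Y₁) (g₂ : X₂ →ₗ[S] Y₂) (h) (z : TM τ) :
    (hom (τ' := τ') g₁ g₂ h z).y = g₂ z.y := rfl

theorem decomp (ψ : TM τ →ₗ[Tri E F] TM τ') :
    ∃ (g₁ : X₁ →ₗ[S] Y₁) (g₂ : X₂ →ₗ[S] Y₂) (h : ∀ f x, g₂ (τ.φ f x) = τ'.φ f (g₁ x)),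
      ψ = hom g₁ g₂ h := by
  let g₁ : X₁ →ₗ[S] Y₁ :=
    { toFun := fun a => (ψ (mk τ a 0)).x
      map_add' := fun a b => by rw [← add_x, ← map_add]; congr 2; ext <;> simp
      map_smul' := fun s a => by
        have : mk τ (s • a) 0 = (Tri.mk s 0 0 : Tri E F) • mk τ a 0 := by ext <;> simp
        rw [this, map_smul]; rfl }
  let g₂ : X₂ →ₗ[S] Y₂ :=
    { toFun := fun a => (ψ (mk τ 0 a)).y
      map_add' := fun a b => by rw [← add_y, ← map_add]; congr 2; ext <;> simp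
      map_smul' := fun s a => by
        have : mk τ 0 (s • a) = (Tri.mk 0 0 s : Tri E F) • mk τ 0 a := by ext <;> simp
        rw [this, map_smul]; simp }
  refine ⟨g₁, g₂, fun f a => ?_, LinearMap.ext fun z => ?_⟩
  · have : mk τ 0 (τ.φ f a) = (Tri.mk 0 f 0 : Tri E F) • mk τ a 0 := by ext <;> simp
    change (ψ (mk τ 0 (τ.φ f a))).y = _
    rw [this, map_smul]; simp [g₁]
  · ext
    · have : mk τ z.x 0 = (Tri.mk 1 0 0 : Tri E F) • z := by ext <;> simp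
      change _ = (ψ (mk τ z.x 0)).x
      rw [this, map_smul]; simp
    · have : mk τ 0 z.y = (Tri.mk 0 0 1 : Tri E F) • z := by ext <;> simp
      change _ = (ψ (mk τ 0 z.y)).y
      rw [this, map_smul]; simp

/-- Maps supported on the second component. -/
def homJ (g : X₂ →ₗ[S] Y₂) (h : ∀ f x, g (τ.φ f x) = 0) : TM τ →ₗ[Tri E F] TM τ' :=
  hom 0 g (by simpa using h)

theorem fp_homJ {Z : Type*} [AddCommGroup Z] [Module S Z] (p : X₂ →ₗ[S] Z)
    (hp : ∀ f x, p (τ.φ f x) = 0) {a : Z →ₗ[S] Y₂} (ha : FP a) :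
    FP (homJ (τ := τ) (τ' := τ') (a ∘ₗ p) (by simp [hp])) := by
  induction ha with
  | zero => exact FP.zero.congr fun z => by ext <;> simp [homJ]
  | add _ _ h1 h2 => exact (h1.add h2).congr fun z => by ext <;> simp [homJ]
  | one φ y =>
    let ψ : TM τ →ₗ[Tri E F] Tri E F :=
      { toFun := fun z => Tri.mk 0 0 (φ (p z.y))
        map_add' := fun z w => by ext <;> simp
        map_smul' := fun l z => by ext <;> simp [hp] }
    exact (FP.one ψ (mk τ' 0 y)).congr fun z => by ext <;> simp [homJ, ψ]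

end TM

/-- The map `F ⊗ X → Y₂` induced by `α : X → Y₁`. -/
noncomputable def TD.ξ (τ' : TD E F Y₁ Y₂) (α : X₁ →ₗ[S] Y₁) : BT E F X₁ →ₗ[S] Y₂ :=
  BT.liftS (τ'.φ.compl₂ (α.restrictScalars K)) (fun b f x => by simp [τ'.hr])
    (fun b f x => by simp [τ'.hl])

@[simp] theorem TD.ξ_mk (τ' : TD E F Y₁ Y₂) (α : X₁ →ₗ[S] Y₁) (f : F) (x : X₁) :
    τ'.ξ α (BT.mk E f x) = τ'.φ f (α x) := rfl

variable (E F) in
/-- The regular module as a pair. -/
noncomputable def τreg : TD E F S (Res E.l F × S) where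
  φ := LinearMap.mk₂ K (fun f a => (Res.of E.l F (E.r (op a) • f), 0))
    (fun f f' a => by simp) (fun c f a => by rw [smul_comm, map_smul]; simp)
    (fun f a a' => by simp [add_smul])
    (fun c f a => by simp)
  hr a f x := by simp [mul_smul]
  hl b f x := by simp [Res.smul_of, E.smul_comm]

@[simp] theorem τreg_φ (f : F) (a : S) :
    (τreg E F).φ f a = (Res.of E.l F (E.r (op a) • f), 0) := rfl

variable (E F) in
/-- The regular module is the module of the pair `τreg`. -/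
noncomputable def regEquiv : Tri E F ≃ₗ[Tri E F] TM (τreg E F) where
  toFun l := TM.mk _ l.a (Res.of E.l F l.f, l.b)
  invFun z := Tri.mk z.x ((Res.of E.l F).symm z.y.1) z.y.2
  map_add' _ _ := rfl
  map_smul' l m := by ext <;> simp [Res.smul_of]
  left_inv _ := rfl
  right_inv _ := rfl

/-! ### The cone complex -/

variable (E F X₁ X₂) in
/-- Structure map of the ambient module of the cone complex. -/
noncomputable def τ0 : TD E F X₁ (BT E F X₁ × X₂ × BT E F X₁) where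
  φ := (BT.mk E).compr₂ (LinearMap.inl K _ _)
  hr a f x := by simp [BT.mk_r]
  hl b f x := by simp

@[simp] theorem τ0_φ (f : F) (x : X₁) : (τ0 E F X₁ X₂).φ f x = (BT.mk E f x, 0) := rfl

variable (F) in
/-- Anticommuting maps `F ⊗ P₁ → P₂` of degree one. -/
structure TΦ (P₁ : Cx S X₁) (P₂ : Cx S X₂) where
  Φ : ℤ → BT E F X₁ →ₗ[S] X₂
  eΦ : ∀ n w, P₂.e (n + 1) (Φ n w) = Φ n w
  Φe : ∀ n w, Φ n ((P₁.bt E F).e n w) = Φ n w
  dΦ : ∀ n w, P₂.d (n + 1) (Φ (n + 1) w) = - Φ n ((P₁.bt E F).d n w)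

namespace TΦ

variable {P₁ : Cx S X₁} {P₂ : Cx S X₂} (A : TΦ (E := E) F P₁ P₂)

/-- The cone complex over the triangular algebra. -/
noncomputable def cx : Cx (Tri E F) (TM (τ0 E F X₁ X₂)) where
  e n := TM.hom (P₁.e (n + 1))
    (((P₁.bt E F).e (n + 1)).prodMap ((P₂.e (n + 1 + 1)).prodMap ((P₁.bt E F).e n))) (by simp)
  d n := TM.hom (P₁.d (n + 1))
    ((((P₁.bt E F).d (n + 1)).coprod ((0 : X₂ →ₗ[S] _).coprod ((P₁.bt E F).e (n + 1)))).prod
      (((-P₂.d (n + 1 + 1)).coprod (A.Φ (n + 1))).prod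
        (-(P₁.bt E F).d n ∘ₗ LinearMap.snd S _ _) ∘ₗ LinearMap.snd S _ _)) (by simp)
  ee n z := by ext <;> simp [Cx.ee]
  ed n z := by ext <;> simp [Cx.ed, Cx.ee, A.eΦ]
  de n z := by ext <;> simp [Cx.de, Cx.ee, A.Φe]
  dd n z := by ext <;> simp [Cx.dd, Cx.de, Cx.ed, A.dΦ]

@[simp] theorem cx_e_x (n : ℤ) (z) : (A.cx.e n z).x = P₁.e (n + 1) z.x := rfl
@[simp] theorem cx_e_y (n : ℤ) (z) : (A.cx.e n z).y = ((P₁.bt E F).e (n + 1) z.y.1,
    P₂.e (n + 1 + 1) z.y.2.1, (P₁.bt E F).e n z.y.2.2) := rfl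
@[simp] theorem cx_d_x (n : ℤ) (z) : (A.cx.d n z).x = P₁.d (n + 1) z.x := rfl
@[simp] theorem cx_d_y (n : ℤ) (z) : (A.cx.d n z).y =
    ((P₁.bt E F).d (n + 1) z.y.1 + (P₁.bt E F).e (n + 1) z.y.2.2,
      -P₂.d (n + 1 + 1) z.y.2.1 + A.Φ (n + 1) z.y.2.2, -(P₁.bt E F).d n z.y.2.2) := by
  simp [cx]

theorem fp_i {a : X₁ →ₗ[S] X₁} (ha : FP a) :
    FP (TM.hom (τ := τ0 E F X₁ X₂) (τ' := τ0 E F X₁ X₂) a ((BT.mapR a).prodMap 0) (by simp)) := by
  induction ha with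
  | zero =>
    refine FP.zero.congr fun z => ?_
    ext <;> simp
    exact BT.ext_add (0 : _ →ₗ[S] _) (BT.mapR 0) (by simp) _
  | @add a b _ _ h1 h2 =>
    refine (h1.add h2).congr fun z => ?_
    ext <;> simp
    exact BT.ext_add (E := E) (N := F) (BT.mapR a + BT.mapR b) (BT.mapR (a + b)) (by simp) _
  | one φ y =>
    let ψ : TM (τ0 E F X₁ X₂) →ₗ[Tri E F] TM (τreg E F) :=
      TM.hom φ ((τreg E F).ξ φ ∘ₗ LinearMap.fst S _ _) (by simp)
    refine (FP.one ((regEquiv E F).symm.toLinearMap ∘ₗ ψ) (TM.mk _ y 0)).congr fun z => ?_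
    have : ∀ w : BT E F X₁, (((BT.mk E).flip y ∘ₗ (Res.of E.l F).symm.toLinearMap ∘ₗ
        LinearMap.fst K _ _ ∘ₗ ((τreg E F).ξ φ).restrictScalars K : _ →ₗ[K] _) w) =
        BT.mapR (φ.smulRight y) w :=
      BT.ext_add _ _ fun f x => by simp [BT.mk_r]
    ext
    · rfl
    · simpa [regEquiv, ψ] using this z.y.1
    · simp [regEquiv, ψ]
    · simp [regEquiv, ψ]

theorem cx_fp (hF : FPvia F E.l) (n : ℤ) (h1 : FP (P₁.e (n + 1))) (h2 : FP (P₂.e (n + 1 + 1)))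
    (h3 : FP (P₁.e n)) : FP (A.cx.e n) := by
  refine (((fp_i h1).add (TM.fp_homJ (LinearMap.fst S _ _ ∘ₗ LinearMap.snd S _ _) (by simp)
    (h2.comp_left (LinearMap.inr S _ _ ∘ₗ LinearMap.inl S _ _)))).add
    (TM.fp_homJ (LinearMap.snd S _ _ ∘ₗ LinearMap.snd S _ _) (by simp)
    ((BT.fp_mapR hF h3).comp_left (LinearMap.inr S _ _ ∘ₗ LinearMap.inr S _ _)))).congr fun z => ?_
  ext <;> simp [TM.homJ, Cx.bt]

theorem cx_exactAt (n : ℤ) (h1 : P₁.ExactAt (n + 1)) (h2 : P₂.ExactAt (n + 1 + 1)) :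
    A.cx.ExactAt n := by
  intro z he hd
  have e1 := congrArg TM.x he
  have e2 := congrArg TM.y he
  have d1 := congrArg TM.x hd
  have d2 := congrArg TM.y hd
  simp only [cx_e_x, cx_e_y, cx_d_x, cx_d_y, sub_add_cancel, TM.zero_x, TM.zero_y, Prod.ext_iff,
    Prod.fst_zero, Prod.snd_zero] at e1 e2 d1 d2
  obtain ⟨x', hx'⟩ := h1 z.x e1 (by simpa using d1)
  have hw : (P₁.bt E F).d n z.y.1 = - z.y.2.2 := by
    rw [← e2.2.2]; exact eq_neg_of_add_eq_zero_left d2.1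
  obtain ⟨v', hv'⟩ := h2 (A.Φ (n + 1) z.y.1 - z.y.2.1) (by rw [map_sub, A.eΦ, e2.2.1])
    (by
      rw [add_sub_cancel_right, map_sub, A.dΦ, hw, map_neg, neg_neg, ← d2.2.1]; abel)
  refine ⟨TM.mk _ x' (0, v', z.y.1), ?_⟩
  ext <;> simp [hx', hv', hw, e2.1]

variable {τ' : TD E F Y₁ Y₂}

/-- Cochains on the cone complex. -/
noncomputable def coch (τ' : TD E F Y₁ Y₂) (α : X₁ →ₗ[S] Y₁) (β : X₂ →ₗ[S] Y₂)
    (ζ : BT E F X₁ →ₗ[S] Y₂) : TM (τ0 E F X₁ X₂) →ₗ[Tri E F] TM τ' :=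
  TM.hom α ((τ'.ξ α).coprod (β.coprod ζ)) (by simp)

theorem ξ_e (α : X₁ →ₗ[S] Y₁) (g : X₁ →ₗ[S] X₁) (w : BT E F X₁) :
    τ'.ξ α (BT.mapR g w) = τ'.ξ (α ∘ₗ g) w :=
  BT.ext_add (τ'.ξ α ∘ₗ BT.mapR g) (τ'.ξ (α ∘ₗ g)) (fun _ _ => rfl) w

theorem ξ_congr {α α' : X₁ →ₗ[S] Y₁} (h : ∀ x, α x = α' x) (w : BT E F X₁) :
    τ'.ξ α w = τ'.ξ α' w := by rw [LinearMap.ext h]

theorem ξ_zero (w : BT E F X₁) : τ'.ξ (0 : X₁ →ₗ[S] Y₁) w = 0 :=
  BT.ext_add (τ'.ξ 0) (0 : _ →ₗ[S] _) (by simp) w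

theorem coch_coc (n : ℤ) {α : X₁ →ₗ[S] Y₁} {β : X₂ →ₗ[S] Y₂} {ζ : BT E F X₁ →ₗ[S] Y₂}
    (hα : P₁.Coc (n + 1) α) (hβ : P₂.Coc (n + 1 + 1) β)
    (hζ : ∀ w, ζ ((P₁.bt E F).e n w) = ζ w)
    (h : ∀ w, τ'.ξ α w + β (A.Φ (n + 1) w) - ζ ((P₁.bt E F).d n w) = 0) :
    A.cx.Coc n (coch τ' α β ζ) := by
  have a1 : ∀ w, τ'.ξ α ((P₁.bt E F).e (n + 1) w) = τ'.ξ α w := fun w =>
    (ξ_e _ _ w).trans (ξ_congr hα.he w)
  have a2 : ∀ w, τ'.ξ α ((P₁.bt E F).d (n + 1) w) = 0 := fun w =>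
    (ξ_e _ _ w).trans ((ξ_congr (α' := 0) hα.hd w).trans (ξ_zero w))
  refine ⟨fun z => ?_, fun z => ?_⟩
  · ext <;> simp [coch, hα.he, hβ.he, hζ, a1]
  · ext
    · simp [coch, hα.hd]
    · simp only [coch, TM.hom_y, cx_d_y, LinearMap.coprod_apply, map_add, map_neg, a1, a2, hβ.hd,
        TM.zero_y, ← h z.y.2.2]
      abel

theorem coch_not_cob (n : ℤ) {α : X₁ →ₗ[S] Y₁} {β : X₂ →ₗ[S] Y₂} {ζ : BT E F X₁ →ₗ[S] Y₂}
    (h : A.cx.Cob n (coch τ' α β ζ)) : ∃ α' : X₁ →ₗ[S] Y₁, ∀ x, α' (P₁.d n x) = α x := by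
  obtain ⟨g, hg⟩ := h
  obtain ⟨g₁, g₂, hc, rfl⟩ := TM.decomp g
  exact ⟨g₁, fun x => by simpa [coch] using congrArg TM.x (hg (TM.mk _ x 0))⟩

/-- Componentwise criterion for exactness of `Hom` on the cone complex. -/
theorem cx_hz (n : ℤ)
    (H : ∀ (α : X₁ →ₗ[S] Y₁) (β : X₂ →ₗ[S] Y₂) (ζ : BT E F X₁ →ₗ[S] Y₂),
      P₁.Coc (n + 1) α → P₂.Coc (n + 1 + 1) β → (∀ w, ζ ((P₁.bt E F).e n w) = ζ w) →
      (∀ w, τ'.ξ α w + β (A.Φ (n + 1) w) - ζ ((P₁.bt E F).d n w) = 0) →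
      ∃ (α' : X₁ →ₗ[S] Y₁) (β' : X₂ →ₗ[S] Y₂) (ζ' : BT E F X₁ →ₗ[S] Y₂),
        (∀ x, α' (P₁.e n x) = α' x) ∧ (∀ x, α' (P₁.d n x) = α x) ∧
        (∀ v, -β' (P₂.d (n + 1) v) = β v) ∧
        ∀ w, τ'.ξ α' w + β' (A.Φ n w) - ζ' ((P₁.bt E F).d (n - 1) w) = ζ w) :
    A.cx.HZ (TM τ') n := by
  intro ψ hψ
  obtain ⟨α, g, hc, rfl⟩ := TM.decomp ψ
  let β : X₂ →ₗ[S] Y₂ := g ∘ₗ LinearMap.inr S _ _ ∘ₗ LinearMap.inl S _ _
  let ζ : BT E F X₁ →ₗ[S] Y₂ := g ∘ₗ LinearMap.inr S _ _ ∘ₗ LinearMap.inr S _ _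
  have hξ : ∀ w, g (w, 0) = τ'.ξ α w :=
    BT.ext_add (g ∘ₗ LinearMap.inl S _ _) (τ'.ξ α) fun f x => hc f x
  have hg : ∀ y v w, g (y, v, w) = τ'.ξ α y + β v + ζ w := fun y v w => by
    simp only [β, ζ, ← hξ, LinearMap.comp_apply, ← map_add]
    simp
  have hα : P₁.Coc (n + 1) α :=
    ⟨fun x => congrArg TM.x (hψ.he (TM.mk _ x 0)), fun x => congrArg TM.x (hψ.hd (TM.mk _ x 0))⟩
  have a1 : ∀ w, τ'.ξ α ((P₁.bt E F).e (n + 1) w) = τ'.ξ α w := fun w =>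
    (ξ_e _ _ w).trans (ξ_congr hα.he w)
  obtain ⟨α', β', ζ', b0, b1, b2, b3⟩ := H α β ζ hα
    ⟨fun v => by simpa [hg] using congrArg TM.y (hψ.he (TM.mk _ 0 (0, v, 0))),
     fun v => by simpa [hg] using congrArg TM.y (hψ.hd (TM.mk _ 0 (0, v, 0)))⟩
    (fun w => by simpa [hg] using congrArg TM.y (hψ.he (TM.mk _ 0 (0, 0, w))))
    (fun w => by
      simpa [hg, a1, sub_eq_add_neg] using congrArg TM.y (hψ.hd (TM.mk _ 0 (0, 0, w))))
  refine ⟨coch τ' α' β' ζ', fun z => ?_⟩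
  have c1 : ∀ w, τ'.ξ α' ((P₁.bt E F).e n w) = τ'.ξ α' w := fun w =>
    (ξ_e _ _ w).trans (ξ_congr b0 w)
  have c2 : ∀ w, τ'.ξ α' ((P₁.bt E F).d n w) = τ'.ξ α w := fun w =>
    (ξ_e _ _ w).trans (ξ_congr b1 w)
  ext
  · simp [coch, b1]
  · have := hg z.y.1 z.y.2.1 z.y.2.2
    simp only [coch, TM.hom_y, cx_d_y, LinearMap.coprod_apply, map_add, map_neg, sub_add_cancel,
      c1, c2, b2]
    rw [this, ← b3]
    abel

theorem cx_hz_of (n : ℤ) (h1 : P₁.HZ Y₁ (n + 1)) (h2 : P₂.HZ Y₂ (n + 1 + 1))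
    (h3 : (P₁.bt E F).HZ Y₂ n) : A.cx.HZ (TM τ') n := by
  refine A.cx_hz n fun α β ζ hα hβ hζ h => ?_
  obtain ⟨α', a1, a2⟩ := (h1 α hα).exists_homog
  obtain ⟨β', b1, b2⟩ := (h2 β hβ).exists_homog
  simp only [add_sub_cancel_right] at a1 a2 b1 b2
  have c1 : ∀ w, τ'.ξ α' ((P₁.bt E F).e n w) = τ'.ξ α' w := fun w =>
    (ξ_e _ _ w).trans (ξ_congr a1 w)
  have c2 : ∀ w, τ'.ξ α' ((P₁.bt E F).d n w) = τ'.ξ α w := fun w =>
    (ξ_e _ _ w).trans (ξ_congr a2 w)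
  obtain ⟨ζ', hz⟩ := h3 (τ'.ξ α' - β' ∘ₗ A.Φ n - ζ)
    ⟨fun w => by simp [c1, A.Φe, hζ], fun w => by
      have := A.dΦ n w
      rw [← neg_eq_iff_eq_neg] at this
      simp only [LinearMap.sub_apply, LinearMap.comp_apply, c2, ← this, map_neg, b2, ← h w]
      abel⟩
  exact ⟨α', -β', ζ', a1, a2, fun v => by simp [b2], fun w => by simp [hz]; abel⟩

theorem cx_hz_reg (hF : FPvia F E.l) (n : ℤ) (h1 : P₁.HZ S (n + 1)) (h2 : P₂.HZ S (n + 1 + 1))
    (h3 : (P₁.bt E F).HZ S n) : A.cx.HZ (Tri E F) n :=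
  (A.cx_hz_of (τ' := τreg E F) n h1 ((h2.of_fp hF).prod h2) ((h3.of_fp hF).prod h3)).equiv
    (regEquiv E F)

end TΦ

end Crest.Agent.R186
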