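import Crest.Agent.R186.MD
import Crest.Agent.R186.Tri
import Crest.Agent.R186.Htpy

/-! Main construction, part 1: the bimodule `F`, the homotopy `κ`. -/

set_option autoImplicit false
set_option linter.unusedSectionVars false

namespace Crest.Agent.R186

open scoped TensorProduct
open MulOpposite

universe u

variable {K S T : Type u} [Field K] [Ring S] [Ring T] [Algebra K S] [Algebra K T]

variable (K S) in
/-- Every exact complex of finitely generated projectives is totally acyclic. -/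
def GorH : Prop :=
  ∀ (X : Type u) [AddCommGroup X] [Module K X] [Module S X] [IsScalarTower K S X] (P : Cx S X),
    P.IsFP → (∀ n, P.ExactAt n) → ∀ n, P.HZ S n

namespace MD

variable {E : Env K S T} {χ : S →ₐ[K] K} {X U : Type u}
    [AddCommGroup X] [Module K X] [Module S X] [IsScalarTower K S X]
    [AddCommGroup U] [Module K U] [Module T U] [IsScalarTower K T U] (M : MD E χ X U)

/-- The bimodule `F`. -/
def F : Submodule T U where
  carrier := {u | M.π₁ u = 0 ∧ M.π₂ u = 0}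
  add_mem' := fun ha hb => ⟨by simp [ha.1, hb.1], by simp [ha.2, hb.2]⟩
  zero_mem' := ⟨map_zero _, map_zero _⟩
  smul_mem' := fun t u hu => by
    induction t using E.induction_on with
    | h0 => simp
    | h1 a b => simp [mul_smul, M.π₁_l, M.π₁_r, M.π₂_l, M.π₂_r, hu.1, hu.2]
    | h2 s t hs ht => exact ⟨by simp [add_smul, hs.1, ht.1], by simp [add_smul, hs.2, ht.2]⟩

theorem π₁_F (f : M.F) : M.π₁ f = 0 := f.2.1
theorem π₂_F (f : M.F) : M.π₂ f = 0 := f.2.2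

/-- A right-linear retraction onto `F`. -/
def ret : U →ₗ[K] M.F where
  toFun u := ⟨u - E.r (op (M.π₁ u)) • M.u₁ - E.r (op (M.h.symm (M.π₂ u))) • M.u₂,
    by simp [M.π₁_r, M.π₁_u₁, M.π₁_u₂], by simp [M.π₂_r, M.π₂_u₁, M.π₂_u₂]⟩
  map_add' a b := by
    ext
    simp only [map_add, op_add, add_smul, Submodule.coe_add]
    abel
  map_smul' c a := by ext; simp [smul_sub]

theorem ret_val (u : U) : (M.ret u : U) =
    u - E.r (op (M.π₁ u)) • M.u₁ - E.r (op (M.h.symm (M.π₂ u))) • M.u₂ := rfl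

theorem ret_F (f : M.F) : M.ret f = f := by ext; simp [ret_val, π₁_F, π₂_F]

theorem ret_r (b : S) (u : U) : M.ret (E.r (op b) • u) = E.r (op b) • M.ret u := by
  ext; simp [ret_val, M.π₁_r, M.π₂_r, smul_sub, mul_smul]

theorem F_r : FPvia M.F E.r :=
  FP.retract (i := Res.map E.r M.F.subtype)
    (r := mkLin (K := K) (X := Res E.r U) (Y := Res E.r M.F) M.ret fun s u => M.ret_r s.unop u)
    M.U_r M.ret_F

theorem F_l : FPvia M.F E.l := by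
  let j : Res E.l U →ₗ[S] S × S :=
    mkLin (K := K) (X := Res E.l U) (M.π₁.prod M.π₂) fun s u => Prod.ext (M.π₁_l s u) (M.π₂_l s u)
  have hs : SES (Res.map E.l M.F.subtype) j :=
    ⟨M.F.injective_subtype, fun y => ⟨Res.of E.l U (E.l y.1 • M.u₁ + E.l y.2 • M.u₂), by
        ext
        · change M.π₁ (E.l y.1 • M.u₁ + E.l y.2 • M.u₂) = _
          simp [M.π₁_l, M.π₁_u₁, M.π₁_u₂]
        · change M.π₂ (E.l y.1 • M.u₁ + E.l y.2 • M.u₂) = _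
          simp [M.π₂_l, M.π₂_u₁, M.π₂_u₂]⟩,
      fun f => Prod.ext (M.π₁_F f) (M.π₂_F f),
      fun y hy => ⟨⟨y, congrArg Prod.fst hy, congrArg Prod.snd hy⟩, rfl⟩⟩
  exact hs.fp_left M.U_l (FP.id_self.prod FP.id_self)

/-- The map induced by `π₁`. -/
noncomputable def P1 : BT E U X →ₗ[S] X :=
  BT.liftS (LinearMap.mk₂ K (fun u x => M.π₁ u • x) (fun a b x => by simp [add_smul])
    (fun c a x => by simp) (fun a x y => by simp) (fun c a x => by rw [smul_comm]))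
    (fun b u x => by simp [M.π₁_r, mul_smul]) (fun a u x => by simp [M.π₁_l, mul_smul])

/-- The map induced by `π₂` and `θ`. -/
noncomputable def P2 : BT E U X →ₗ[S] X :=
  BT.liftS (LinearMap.mk₂ K (fun u x => M.π₂ u • M.θ x) (fun a b x => by simp [add_smul])
    (fun c a x => by simp) (fun a x y => by simp) (fun c a x => by rw [map_smul, smul_comm]))
    (fun b u x => by simp [M.π₂_r, mul_smul, M.θ_smul]) (fun a u x => by simp [M.π₂_l, mul_smul])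

@[simp] theorem P1_mk (u : U) (x : X) : M.P1 (BT.mk E u x) = M.π₁ u • x := rfl
@[simp] theorem P2_mk (u : U) (x : X) : M.P2 (BT.mk E u x) = M.π₂ u • M.θ x := rfl

theorem P1_mapR (g : X →ₗ[S] X) (z) : M.P1 (BT.mapR g z) = g (M.P1 z) :=
  BT.ext_add (M.P1 ∘ₗ BT.mapR g) (g ∘ₗ M.P1) (fun u x => by simp) z

theorem P2_mapR (g : X →ₗ[S] X) (hg : ∀ x, M.θ (g x) = g (M.θ x)) (z) :
    M.P2 (BT.mapR g z) = g (M.P2 z) :=
  BT.ext_add (M.P2 ∘ₗ BT.mapR g) (g ∘ₗ M.P2) (fun u x => by simp [hg]) z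

/-- The inclusion `F ⊗ X → U ⊗ X`. -/
noncomputable def ii : BT E M.F X →ₗ[S] BT E U X := BT.mapL M.F.subtype

@[simp] theorem ii_mk (f : M.F) (x : X) : M.ii (BT.mk E f x) = BT.mk E (f : U) x := rfl

@[simp] theorem P1_ii (w) : M.P1 (M.ii w) = 0 :=
  BT.ext_add (M.P1 ∘ₗ M.ii) (0 : _ →ₗ[S] _) (fun f x => by simp [π₁_F]) w

@[simp] theorem P2_ii (w) : M.P2 (M.ii w) = 0 :=
  BT.ext_add (M.P2 ∘ₗ M.ii) (0 : _ →ₗ[S] _) (fun f x => by simp [π₂_F]) w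

theorem θ_symm_smul (s : S) (x : X) : M.θ.symm (s • x) = M.h.symm s • M.θ.symm x := by
  apply M.θ.injective
  simp [M.θ_smul]

theorem ses : SES M.ii (M.P1.prod M.P2) := by
  let r' : BT E U X →ₗ[K] BT E M.F X := BT.kmapL M.ret M.ret_r
  have e1 : ∀ w, r' (M.ii w) = w := BT.ext_add (r' ∘ₗ M.ii.restrictScalars K)
    (LinearMap.id (R := K)) fun f x => by simp [r', ret_F]
  have e2 : ∀ z, (M.ii.restrictScalars K ∘ₗ r' + BT.mk E M.u₁ ∘ₗ M.P1.restrictScalars K +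
      BT.mk E M.u₂ ∘ₗ M.θ.symm.toLinearMap ∘ₗ M.P2.restrictScalars K) z = z :=
    BT.ext_add _ (LinearMap.id (R := K)) fun u x => by
      simp [r', ret_val, BT.mk_r, θ_symm_smul]
      abel
  refine ⟨fun a b h => by rw [← e1 a, h, e1], fun y => ⟨BT.mk E M.u₁ y.1 +
    BT.mk E M.u₂ (M.θ.symm y.2), ?_⟩, fun w => by simp, fun z hz => ⟨r' z, ?_⟩⟩
  · ext <;> simp [M.π₁_u₁, M.π₁_u₂, M.π₂_u₁, M.π₂_u₂]
  · have h1 : M.P1 z = 0 := congrArg Prod.fst hz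
    have h2 : M.P2 z = 0 := congrArg Prod.snd hz
    simpa [h1, h2] using e2 z

theorem ii_hom (Q : Cx S X) : Cx.Hom (Q.bt E M.F) (Q.bt E U) M.ii := Cx.bt_hom _

theorem P1_hom (Q : Cx S X) : Cx.Hom (Q.bt E U) Q M.P1 :=
  ⟨fun _ => M.P1_mapR _, fun _ => M.P1_mapR _⟩

theorem P2_hom_t : Cx.Hom (M.t.bt E U) M.t M.P2 :=
  ⟨fun n => M.P2_mapR _ (M.θ_te n), fun n => M.P2_mapR _ (M.θ_td n)⟩

theorem P2_hom_p : Cx.Hom (M.p.bt E U) M.p M.P2 :=
  ⟨fun n => M.P2_mapR _ (M.θ_pe n), fun n => M.P2_mapR _ (M.θ_pd n)⟩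

theorem jj_hom : Cx.Hom (M.t.bt E U) (M.t.prod M.t) (M.P1.prod M.P2) :=
  ⟨fun n z => Prod.ext ((M.P1_hom _).he n z) (M.P2_hom_t.he n z),
   fun n z => Prod.ext ((M.P1_hom _).hd n z) (M.P2_hom_t.hd n z)⟩

theorem PP_hom_t : Cx.Hom (M.t.bt E U) M.t (M.P1 - M.P2) :=
  ⟨fun n z => by simp [(M.P1_hom _).he, M.P2_hom_t.he],
   fun n z => by simp [(M.P1_hom _).hd, M.P2_hom_t.hd]⟩

theorem PP_hom_p : Cx.Hom (M.p.bt E U) M.p (M.P1 - M.P2) :=
  ⟨fun n z => by simp [(M.P1_hom _).he, M.P2_hom_p.he],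
   fun n z => by simp [(M.P1_hom _).hd, M.P2_hom_p.hd]⟩

/-- The map `u ⊗ x ↦ α(x) • lft u`. -/
noncomputable def ξU (α : X →ₗ[S] Res χ K) : BT E U X →ₗ[S] X :=
  BT.liftS (LinearMap.mk₂ K (fun u x => ofChi α x • M.lft u) (fun a b x => by simp)
    (fun c a x => by rw [map_smul, smul_comm]) (fun a x y => by simp [add_smul])
    (fun c a x => by simp [mul_smul]))
    (fun b u x => by simp [M.lft_r, ofChi_smul, smul_smul, mul_comm])
    (fun a u x => by simp [M.lft_l, smul_comm a])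

@[simp] theorem ξU_mk (α : X →ₗ[S] Res χ K) (u : U) (x : X) :
    M.ξU α (BT.mk E u x) = ofChi α x • M.lft u := rfl

theorem ξU_e (α : X →ₗ[S] Res χ K) (z) : M.p.e 0 (M.ξU α z) = M.ξU α z :=
  BT.ext_add (M.p.e 0 ∘ₗ M.ξU α) (M.ξU α) (fun u x => by simp [M.lft_e]) z

theorem ξU_mapR (α α' : X →ₗ[S] Res χ K) (g : X →ₗ[S] X) (h : ∀ x, α (g x) = α' x) (z) :
    M.ξU α (BT.mapR g z) = M.ξU α' z :=
  BT.ext_add (M.ξU α ∘ₗ BT.mapR g) (M.ξU α') (fun u x => by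
    have : ofChi α (g x) = ofChi α' x := congrArg (Res.of χ K).symm (h x)
    simp [this]) z

theorem ξU_zero (z) : M.ξU 0 z = 0 :=
  BT.ext_add (M.ξU 0) (0 : _ →ₗ[S] _) (fun u x => by
    have : ofChi (0 : X →ₗ[S] Res χ K) x = 0 := rfl
    simp [this]) z

theorem ε_ξU (α α₀ : X →ₗ[S] Res χ K) (h : ∀ x, α₀ (M.θ x) = α x) (z) :
    M.ε (M.ξU α z) = α (M.P1 z) - α₀ (M.P2 z) :=
  BT.ext_add (M.ε ∘ₗ M.ξU α) (α ∘ₗ M.P1 - α₀ ∘ₗ M.P2) (fun u x => by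
    simp only [LinearMap.comp_apply, ξU_mk, LinearMap.map_smul_of_tower, M.ε_lft,
      LinearMap.sub_apply, P1_mk, P2_mk, map_smul, h, chi_smul]
    change ofChi α x * (χ (M.π₁ u) - χ (M.π₂ u)) =
      χ (M.π₁ u) * ofChi α x - χ (M.π₂ u) * ofChi α x
    ring) z

/-- Twisting a functional by `θ`. -/
def tw (α : X →ₗ[S] Res χ K) : X →ₗ[S] Res χ K :=
  mkLin (α.restrictScalars K ∘ₗ M.θ.toLinearMap) fun s x => by
    simp [M.θ_smul, chi_smul, M.χ_h]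

@[simp] theorem tw_apply (α : X →ₗ[S] Res χ K) (x : X) : M.tw α x = α (M.θ x) := rfl

/-- Twisting a functional by `θ⁻¹`. -/
def twi (α : X →ₗ[S] Res χ K) : X →ₗ[S] Res χ K :=
  mkLin (α.restrictScalars K ∘ₗ M.θ.symm.toLinearMap) fun s x => by
    have : χ (M.h.symm s) = χ s := by rw [← M.χ_h, AlgEquiv.apply_symm_apply]
    simp [θ_symm_smul, chi_smul, this]

@[simp] theorem twi_apply (α : X →ₗ[S] Res χ K) (x : X) : M.twi α x = α (M.θ.symm x) := rfl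

/-! ### The homotopies -/

theorem exists_κp : ∃ κ : ℤ → BT E U X →ₗ[S] X,
    (∀ z, M.p.d 0 (κ 0 z) = (M.P1 - M.P2) ((M.p.bt E U).e 0 z) - M.ξU M.ε z) ∧
    ∀ m, 0 ≤ m → Cx.HInv (M.p.bt E U) M.p (M.P1 - M.P2) m (κ m) ∧
      Cx.HRel (M.p.bt E U) M.p (M.P1 - M.P2) m (κ m) (κ (m + 1)) := by
  have hA : (M.p.bt E U).IsFP := Cx.bt_fp M.U_l M.p_fp
  have a1 : ∀ z, M.ξU M.ε ((M.p.bt E U).e 0 z) = M.ξU M.ε z := M.ξU_mapR _ _ _ M.ε_p.he
  have a2 : ∀ z, M.ξU M.ε ((M.p.bt E U).d 0 z) = 0 := fun z =>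
    (M.ξU_mapR _ 0 _ M.ε_p.hd z).trans (M.ξU_zero z)
  obtain ⟨g, hge, hg⟩ := hA.lift 0 ((M.P1 - M.P2) ∘ₗ (M.p.bt E U).e 0 - M.ξU M.ε)
    (fun z => by simp [Cx.ee, a1]) (M.p.d 0) (fun z => M.ε_ex _
      (by
        simp only [LinearMap.sub_apply, LinearMap.comp_apply, map_sub, ξU_e, (M.P1_hom _).he,
          M.P2_hom_p.he, M.p.ee])
      (by
        simp only [LinearMap.sub_apply, LinearMap.comp_apply, map_sub, (M.P1_hom _).he,
          M.P2_hom_p.he, M.ε_p.he, M.ε_ξU M.ε M.ε M.ε_θ, sub_self]))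
  obtain ⟨κ, h0, hκ⟩ := exists_seq_up (Cx.HInv (M.p.bt E U) M.p (M.P1 - M.P2))
    (Cx.HRel (M.p.bt E U) M.p (M.P1 - M.P2)) 0 (M.p.e (0 + 1) ∘ₗ g)
    ⟨fun z => by simp [M.p.ee], fun z => by simp [hge], fun z => by
      rw [LinearMap.comp_apply, M.p.de, hg]; simp [a2, Cx.ed]⟩
    (fun m hm a ha => Cx.htpy_up M.PP_hom_p hA (M.p_ex _ (by omega)) ha)
  exact ⟨κ, fun z => by rw [h0, LinearMap.comp_apply, M.p.de, hg]; rfl, hκ⟩

theorem bt_agree_e {N : Type u} [AddCommGroup N] [Module K N] [Module T N] [IsScalarTower K T N]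
    (n : ℤ) (hn : 4 ≤ n) : (M.p.bt E N).e n = (M.t.bt E N).e n :=
  congrArg BT.mapR (M.agree_e n hn)

theorem bt_agree_d {N : Type u} [AddCommGroup N] [Module K N] [Module T N] [IsScalarTower K T N]
    (n : ℤ) (hn : 4 ≤ n) : (M.p.bt E N).d n = (M.t.bt E N).d n :=
  congrArg BT.mapR (M.agree_d n hn)

theorem hz_U (gor : GorH K S) (n : ℤ) : (M.t.bt E U).HZ S n :=
  gor _ _ (Cx.bt_fp M.U_l M.t_fp) (fun n => Cx.bt_exactAt M.U_r (M.t_ex n)) n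

theorem hz_F (gor : GorH K S) (n : ℤ) : (M.t.bt E M.F).HZ S n :=
  gor _ _ (Cx.bt_fp M.F_l M.t_fp) (fun n => Cx.bt_exactAt M.F_r (M.t_ex n)) n

theorem hz_t (gor : GorH K S) (n : ℤ) : M.t.HZ S n := gor _ _ M.t_fp M.t_ex n

theorem hz_tt (gor : GorH K S) (n : ℤ) : (M.t.prod M.t).HZ S n :=
  gor _ _ (Cx.prod_fp M.t_fp M.t_fp) (fun n => Cx.prod_exactAt (M.t_ex n) (M.t_ex n)) n

theorem exists_κt (gor : GorH K S) (κp : ℤ → BT E U X →ₗ[S] X)
    (hκ : ∀ m, 0 ≤ m → Cx.HInv (M.p.bt E U) M.p (M.P1 - M.P2) m (κp m) ∧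
      Cx.HRel (M.p.bt E U) M.p (M.P1 - M.P2) m (κp m) (κp (m + 1))) :
    ∃ κ : ℤ → BT E U X →ₗ[S] X, (∀ m, 4 ≤ m → κ m = κp m) ∧
      ∀ m, Cx.HInv (M.t.bt E U) M.t (M.P1 - M.P2) m (κ m) ∧
        Cx.HRel (M.t.bt E U) M.t (M.P1 - M.P2) m (κ m) (κ (m + 1)) := by
  have hI : ∀ m, 4 ≤ m → Cx.HInv (M.t.bt E U) M.t (M.P1 - M.P2) m (κp m) := fun m hm => by
    obtain ⟨a, b, c⟩ := (hκ m (by omega)).1
    rw [M.agree_e _ (by omega)] at a
    rw [M.bt_agree_e _ hm] at b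
    rw [M.agree_d _ hm, M.bt_agree_d _ hm] at c
    exact ⟨a, b, c⟩
  have hR : ∀ m, 4 ≤ m → Cx.HRel (M.t.bt E U) M.t (M.P1 - M.P2) m (κp m) (κp (m + 1)) :=
    fun m hm => by
      have a := (hκ m (by omega)).2
      unfold Cx.HRel at a ⊢
      rwa [M.agree_d _ (by omega), M.bt_agree_d _ hm, M.bt_agree_e _ (by omega)] at a
  obtain ⟨κ, h0, hd⟩ := exists_seq_down (Cx.HInv (M.t.bt E U) M.t (M.P1 - M.P2))
    (Cx.HRel (M.t.bt E U) M.t (M.P1 - M.P2)) 4 (κp 4) (hI 4 le_rfl)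
    (fun m _ a ha => Cx.htpy_down M.PP_hom_t (M.hz_U gor _) (M.t_fp _) ha)
  refine ⟨fun m => if 4 ≤ m then κp m else κ m, fun m hm => if_pos hm, fun m => ?_⟩
  by_cases hm : 4 ≤ m
  · simp only [hm, show 4 ≤ m + 1 by omega, if_true]
    exact ⟨hI m hm, hR m hm⟩
  · have : (if 4 ≤ m + 1 then κp (m + 1) else κ (m + 1)) = κ (m + 1) := by
      split_ifs with h
      · rw [show m + 1 = 4 by omega, h0]
      · rfl
    simp only [hm, if_false, this]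
    exact hd m (by omega)

end MD

end Crest.Agent.R186
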