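import Crest.Agent.R186.Main1

/-! Main construction, part 2: the diagram chase and the conclusion. -/

set_option autoImplicit false
set_option linter.unusedSectionVars false

namespace Crest.Agent.R186

open scoped TensorProduct
open MulOpposite

universe u

variable {K S T : Type u} [Field K] [Ring S] [Ring T] [Algebra K S] [Algebra K T]

namespace MD

variable {E : Env K S T} {χ : S →ₐ[K] K} {X U : Type u}
    [AddCommGroup X] [Module K X] [Module S X] [IsScalarTower K S X]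
    [AddCommGroup U] [Module K U] [Module T U] [IsScalarTower K T U] (M : MD E χ X U)

section aux

variable {V : Type u} [AddCommGroup V] [Module S V] {Q : Cx S V}

theorem cobY {n : ℤ} (hz : Q.HZ S n) {f : V →ₗ[S] X} (hf : Q.Coc n f)
    (hY : ∀ z, M.p.e 0 (f z) = f z) : ∃ g : V →ₗ[S] X, (∀ z, g (Q.e (n - 1) z) = g z) ∧
      (∀ z, M.p.e 0 (g z) = g z) ∧ ∀ z, g (Q.d (n - 1) z) = f z := by
  obtain ⟨g, h1, h2⟩ := (hz.fp hf (M.p_fp 0)).exists_homog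
  exact ⟨M.p.e 0 ∘ₗ g, fun z => by simp [h1], fun z => by simp [M.p.ee],
    fun z => by simp [h2, hY]⟩

theorem liftY (hQ : Q.IsFP) (n : ℤ) (b : V →ₗ[S] Res χ K) (hb : ∀ z, b (Q.e n z) = b z) :
    ∃ g : V →ₗ[S] X, (∀ z, g (Q.e n z) = g z) ∧ (∀ z, M.p.e 0 (g z) = g z) ∧
      ∀ z, M.ε (g z) = b z := by
  obtain ⟨g, h1, h2⟩ := hQ.lift n b hb M.ε fun z => ⟨(Res.of χ K).symm (b z) • M.v, by
    rw [LinearMap.map_smul_of_tower, M.ε_v, ← map_smul]; simp⟩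
  exact ⟨M.p.e 0 ∘ₗ g, fun z => by simp [h1], fun z => by simp [M.p.ee],
    fun z => by simp [M.ε_p.he, h2]⟩

end aux

theorem fd2 (f : X × X →ₗ[S] Res χ K) (n : ℤ) (x : X × X) : f ((M.t.prod M.t).d n x) = 0 := by
  have h1 := M.fd (f ∘ₗ LinearMap.inl S X X) n x.1
  have h2 := M.fd (f ∘ₗ LinearMap.inr S X X) n x.2
  have : (M.t.prod M.t).d n x = (M.t.d n x.1, 0) + (0, M.t.d n x.2) := by simp
  rw [this, map_add]
  simpa using congrArg₂ (· + ·) h1 h2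

theorem desc {N : Type u} [AddCommGroup N] [Module S N] (a : BT E U X →ₗ[S] N)
    (ha : ∀ w, a (M.ii w) = 0) : ∃ a' : X × X →ₗ[S] N, ∀ z, a' (M.P1 z, M.P2 z) = a z :=
  exists_desc (M.P1.prod M.P2) M.ses.surj a fun z hz => by
    obtain ⟨w, rfl⟩ := M.ses.ex z hz
    exact ha w

theorem L1 (a : BT E U X →ₗ[S] Res χ K) (ha : ∀ w, a (M.ii w) = 0) (m : ℤ) (z) :
    a ((M.t.bt E U).d m z) = 0 := by
  obtain ⟨a', h⟩ := M.desc a ha
  rw [← h, (M.P1_hom _).hd, M.P2_hom_t.hd]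
  exact M.fd2 a' m (M.P1 z, M.P2 z)

theorem L2 (gor : GorH K S) {m : ℤ} (a : BT E U X →ₗ[S] X) (hc : (M.t.bt E U).Coc m a)
    (hY : ∀ z, M.p.e 0 (a z) = a z) (ha : ∀ w, a (M.ii w) = 0) (z) : M.ε (a z) = 0 := by
  obtain ⟨a', h⟩ := M.desc a ha
  have h' : ∀ z, a' ((M.P1.prod M.P2) z) = a z := h
  obtain ⟨g, -, -, hg⟩ := M.cobY (M.hz_tt gor m) (f := a')
    ⟨fun y => by obtain ⟨z, rfl⟩ := M.ses.surj y; rw [← M.jj_hom.he, h', h', hc.he],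
     fun y => by obtain ⟨z, rfl⟩ := M.ses.surj y; rw [← M.jj_hom.hd, h', hc.hd]⟩
    (fun y => by obtain ⟨z, rfl⟩ := M.ses.surj y; rw [h', hY])
  rw [← h', ← hg]
  exact M.fd2 (M.ε ∘ₗ g) _ _

theorem ext_F {N : Type u} [AddCommGroup N] [Module S N] (n : ℤ) (f : BT E M.F X →ₗ[S] N)
    (hf : ∀ w, f ((M.t.bt E M.F).e n w) = f w) : ∃ g : BT E U X →ₗ[S] N,
      (∀ w, g (M.ii w) = f w) ∧ ∀ z, g ((M.t.bt E U).e n z) = g z :=
  Cx.exists_ext M.ses (M.ii_hom _) M.jj_hom (Cx.prod_fp M.t_fp M.t_fp) n f hf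

theorem γ_coc : (M.t.bt E U).Coc 0 (M.ε ∘ₗ M.P1) :=
  ⟨fun z => by simp [(M.P1_hom _).he, M.ε_t], fun z => by simp [(M.P1_hom _).hd, M.fd]⟩

theorem γ_not_cob : ¬ (M.t.bt E U).Cob 0 (M.ε ∘ₗ M.P1) := fun ⟨g, hg⟩ =>
  M.Q3 ⟨g, fun u x => hg (BT.mk E u x)⟩

/-- Cocycles on `U ⊗ T` restrict to coboundaries on `F ⊗ T`. -/
theorem Qres {m : ℤ} (hm : m ≠ -3) (y : BT E U X →ₗ[S] Res χ K) (hy : (M.t.bt E U).Coc m y) :
    ∃ g : BT E U X →ₗ[S] X, (∀ z, M.p.e 0 (g z) = g z) ∧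
      ∀ w, M.ε (g ((M.t.bt E U).d (m - 1) (M.ii w))) = y (M.ii w) := by
  have : ∃ g : BT E U X →ₗ[S] Res χ K, (∀ z, g ((M.t.bt E U).e (m - 1) z) = g z) ∧
      ∀ w, g ((M.t.bt E U).d (m - 1) (M.ii w)) = y (M.ii w) := by
    by_cases h0 : m = 0
    · subst h0
      obtain ⟨c, hc⟩ := M.Q2.span M.γ_coc M.γ_not_cob hy
      obtain ⟨g, h1, h2⟩ := hc.exists_homog
      exact ⟨g, h1, fun w => by rw [h2]; simp⟩
    · obtain ⟨g, h1, h2⟩ := (M.Q1 m h0 hm y hy).exists_homog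
      exact ⟨g, h1, fun w => h2 _⟩
  obtain ⟨g, h1, h2⟩ := this
  obtain ⟨g', -, h3, h4⟩ := M.liftY (Cx.bt_fp M.U_l M.t_fp) (m - 1) g h1
  exact ⟨g', h3, fun w => by rw [h4, h2]⟩

variable {κ : ℤ → BT E U X →ₗ[S] X}
  (hκ : ∀ m, Cx.HInv (M.t.bt E U) M.t (M.P1 - M.P2) m (κ m) ∧
    Cx.HRel (M.t.bt E U) M.t (M.P1 - M.P2) m (κ m) (κ (m + 1)))

include hκ

theorem core (gor : GorH K S) (n : ℤ) (α₀ b : X →ₗ[S] Res χ K)
    (hα : ∀ x, α₀ (M.t.e n x) = α₀ x) (hb : ∀ x, b (M.t.e n x) = b x) :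
    ∃ (β : X →ₗ[S] X) (ζ : BT E U X →ₗ[S] X), M.t.Coc (n + 1) β ∧ (∀ x, M.p.e 0 (β x) = β x) ∧
      (∀ x, M.ε (β x) = 0) ∧ (∀ z, ζ ((M.t.bt E U).e (n - 1) z) = ζ z) ∧
      (∀ z, M.p.e 0 (ζ z) = ζ z) ∧
      (∀ w, ζ ((M.t.bt E U).d (n - 1) (M.ii w)) = M.ξU (M.tw α₀) (M.ii w) + β (κ n (M.ii w))) ∧
      ∀ z, M.ε (ζ ((M.t.bt E U).d (n - 1) z)) =
        M.tw α₀ (M.P1 z) - α₀ (M.P2 z) - b (M.P1 z) + b (M.P2 z) := by
  obtain ⟨β', b1, b2, b3⟩ := M.liftY M.t_fp n b hb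
  have a1 : ∀ z, M.ξU (M.tw α₀) ((M.t.bt E U).e n z) = M.ξU (M.tw α₀) z :=
    M.ξU_mapR _ _ _ fun x => by simp [M.θ_te, hα]
  have a2 : ∀ z, M.ξU (M.tw α₀) ((M.t.bt E U).d n z) = 0 := fun z =>
    (M.ξU_mapR _ 0 _ (M.fd _ n) z).trans (M.ξU_zero z)
  obtain ⟨ζ, z1, z2, z3⟩ := M.cobY (M.hz_U gor n)
    (f := M.ξU (M.tw α₀) + β' ∘ₗ M.t.d n ∘ₗ κ n - β' ∘ₗ (M.P1 - M.P2))
    ⟨fun z => by
      simp only [LinearMap.sub_apply, LinearMap.add_apply, LinearMap.comp_apply, a1, (hκ n).1.ke,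
        (M.P1_hom _).he, M.P2_hom_t.he, map_sub, b1],
     fun z => by
      simp only [LinearMap.sub_apply, LinearMap.add_apply, LinearMap.comp_apply, a2, (hκ n).1.dkd,
        zero_add, sub_self]⟩
    (fun z => by simp [ξU_e, b2])
  refine ⟨β' ∘ₗ M.t.d n, ζ, ⟨fun x => by simp [M.t.de], fun x => by simp [M.t.dd]⟩,
    fun x => by simp [b2], fun x => by simp [b3, M.fd], z1, z2, fun w => by simp [z3],
    fun z => ?_⟩
  simp only [z3, LinearMap.sub_apply, LinearMap.add_apply, LinearMap.comp_apply, map_sub, map_add,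
    b3, M.fd, M.ε_ξU (M.tw α₀) α₀ (fun _ => rfl)]
  abel

theorem dκ_ii (n : ℤ) (w) :
    M.t.d (n + 1) (κ (n + 1) (M.ii w)) = - κ n ((M.t.bt E U).d n (M.ii w)) := by
  have := (hκ n).2 (M.ii w)
  rw [← (M.ii_hom _).he] at this
  simpa [eq_neg_iff_add_eq_zero] using this

theorem stepA (gor : GorH K S) (n : ℤ) (hn : n ≠ -1) (α : X →ₗ[S] Res χ K) (β : X →ₗ[S] X)
    (ζ : BT E M.F X →ₗ[S] X) (hα : ∀ x, α (M.t.e (n + 1) x) = α x)
    (hβ : M.t.Coc (n + 1 + 1) β) (hβY : ∀ x, M.p.e 0 (β x) = β x)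
    (hζ : ∀ w, ζ ((M.t.bt E M.F).e n w) = ζ w) (hζY : ∀ w, M.p.e 0 (ζ w) = ζ w)
    (hζε : ∀ w, M.ε (ζ w) = 0)
    (h : ∀ w, M.ξU α (M.ii w) + β (κ (n + 1) (M.ii w)) - ζ ((M.t.bt E M.F).d n w) = 0) :
    α = 0 ∧ ∃ β' : X →ₗ[S] X, (∀ x, β' (M.t.e (n + 1) x) = β' x) ∧ (∀ x, M.p.e 0 (β' x) = β' x) ∧
      (∀ x, M.ε (β' x) = 0) ∧ ∀ x, β' (M.t.d (n + 1) x) = β x := by
  obtain ⟨β', b1, b2, b3⟩ := M.cobY (M.hz_t gor _) hβ hβY
  simp only [add_sub_cancel_right] at b1 b3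
  obtain ⟨ζ₀, z1, z2⟩ := M.ext_F n ζ hζ
  let ζ' := M.p.e 0 ∘ₗ ζ₀
  have z3 : ∀ w, ζ' (M.ii w) = ζ w := fun w => by simp [ζ', z1, hζY]
  have a1 : ∀ z, M.ξU α ((M.t.bt E U).e (n + 1) z) = M.ξU α z := M.ξU_mapR _ _ _ hα
  have a2 : ∀ z, M.ξU α ((M.t.bt E U).d (n + 1) z) = 0 := fun z =>
    (M.ξU_mapR _ 0 _ (M.fd _ _) z).trans (M.ξU_zero z)
  have key := M.L2 gor (m := n + 1)
    (M.ξU α - β' ∘ₗ κ n ∘ₗ (M.t.bt E U).d n - ζ' ∘ₗ (M.t.bt E U).d n)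
    ⟨fun z => by simp [a1, Cx.de], fun z => by simp [a2, Cx.dd]⟩
    (fun z => by simp [ξU_e, b2, ζ', M.p.ee])
    (fun w => by
      have := h w
      rw [← b3, M.dκ_ii hκ, map_neg, ← z3, (M.ii_hom _).hd] at this
      simpa [sub_eq_add_neg] using this)
  have k2 : ∀ z, M.ε (ζ' ((M.t.bt E U).d n z)) = 0 :=
    M.L1 (M.ε ∘ₗ ζ') (fun w => by simp [z3, hζε]) n
  have k3 : ∀ z, M.ε (β' (κ n ((M.t.bt E U).d n z))) =
      M.ε (β' (M.P1 z)) - M.ε (β' (M.P2 z)) := fun z => by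
    have := (hκ n).2 z
    rw [← eq_sub_iff_add_eq', M.PP_hom_t.he] at this
    rw [this, map_sub, map_sub, b1]
    have h0 := M.fd (M.ε ∘ₗ β') (n + 1) (κ (n + 1) z)
    simpa using h0
  have k4 : ∀ z, α (M.P1 z) - M.twi α (M.P2 z) - (M.ε (β' (M.P1 z)) - M.ε (β' (M.P2 z))) = 0 :=
    fun z => by
      have := key z
      simp only [LinearMap.sub_apply, LinearMap.comp_apply, map_sub, k2, k3,
        M.ε_ξU α (M.twi α) (by simp), sub_zero] at this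
      exact this
  have e1 : ∀ x, α x = M.ε (β' x) := fun x => by
    simpa [M.π₁_u₁, M.π₂_u₁, sub_eq_zero] using k4 (BT.mk E M.u₁ x)
  have e2 : ∀ x, α x = M.ε (β' (M.θ x)) := fun x => by
    simpa [M.π₁_u₂, M.π₂_u₂, neg_add_eq_zero] using k4 (BT.mk E M.u₂ x)
  have e3 : α = 0 := M.E1 (n + 1) (by omega) α hα fun x => by rw [e1, ← e2]
  exact ⟨e3, β', b1, b2, fun x => by rw [← e1, e3]; rfl, b3⟩

theorem stepB (gor : GorH K S) (n : ℤ) (hn : n ≠ -2) (ζ : BT E M.F X →ₗ[S] X)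
    (hζ : (M.t.bt E M.F).Coc n ζ) (hζY : ∀ w, M.p.e 0 (ζ w) = ζ w) (hζε : ∀ w, M.ε (ζ w) = 0) :
    ∃ (α' : X →ₗ[S] Res χ K) (β : X →ₗ[S] X) (ζ' : BT E M.F X →ₗ[S] X),
      (∀ x, α' (M.t.e n x) = α' x) ∧ (∀ x, β (M.t.d (n + 1) x) = 0) ∧
      (∀ x, M.p.e 0 (β x) = β x) ∧ (∀ x, M.ε (β x) = 0) ∧
      (∀ w, M.p.e 0 (ζ' w) = ζ' w) ∧ (∀ w, M.ε (ζ' w) = 0) ∧
      ∀ w, M.ξU α' (M.ii w) + β (κ n (M.ii w)) - ζ' ((M.t.bt E M.F).d (n - 1) w) = ζ w := by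
  obtain ⟨l, l1, l2, l3⟩ := M.cobY (M.hz_F gor n) hζ hζY
  obtain ⟨z, z1, z2⟩ := M.ext_F (n - 1) (M.ε ∘ₗ l) (fun w => by simp [l1])
  obtain ⟨a', ha'⟩ := M.desc (z ∘ₗ (M.t.bt E U).d (n - 1)) fun w => by
    rw [LinearMap.comp_apply, ← (M.ii_hom _).hd, z1, LinearMap.comp_apply, l3, hζε]
  have ha'e : ∀ y, a' ((M.t.prod M.t).e n y) = a' y := fun y => by
    obtain ⟨w, rfl⟩ := M.ses.surj y
    rw [← M.jj_hom.he]
    exact (ha' _).trans ((by simp [Cx.de']) : _ = _ ) |>.trans (ha' w).symm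
  let a₁ := a' ∘ₗ LinearMap.inl S X X
  let a₂ := a' ∘ₗ LinearMap.inr S X X
  have h1 : ∀ x, a₁ (M.t.e n x) = a₁ x := fun x => by simpa [a₁] using ha'e (x, 0)
  have h2 : ∀ x, a₂ (M.t.e n x) = a₂ x := fun x => by simpa [a₂] using ha'e (0, x)
  have h3 : ∀ w, z ((M.t.bt E U).d (n - 1) w) = a₁ (M.P1 w) + a₂ (M.P2 w) := fun w => by
    simp only [a₁, a₂, LinearMap.comp_apply, ← map_add]
    simpa using (ha' w).symm
  obtain ⟨α₀, c, c1, c2, c3⟩ := M.E2 n (a₁ + a₂) (fun x => by simp [h1, h2])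
  obtain ⟨β, ζ₂, d1, d2, d3, d4, d5, d6, d7⟩ := M.core hκ gor n α₀ (α₀ + a₂) c1
    (fun x => by simp [c1, h2])
  have d8 : ∀ w, z ((M.t.bt E U).d (n - 1) w) - M.ε (ζ₂ ((M.t.bt E U).d (n - 1) w)) =
      c • M.ε (M.P1 w) := fun w => by
    have := c3 (M.P1 w)
    rw [d7, h3]
    simp only [LinearMap.add_apply, tw_apply] at this ⊢
    rw [← sub_eq_iff_eq_add'.2 this.symm] 
    abel
  have hc : c = 0 := by
    by_cases h0 : n = 0
    · subst h0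
      by_contra hc
      refine M.γ_not_cob ⟨c⁻¹ • (z - M.ε ∘ₗ ζ₂), fun w => ?_⟩
      rw [LinearMap.smul_apply, LinearMap.sub_apply, LinearMap.comp_apply, d8, smul_smul,
        inv_mul_cancel₀ hc, one_smul]
      rfl
    · exact c2 h0
  obtain ⟨y, y1, y2⟩ := M.Qres (m := n - 1) (by omega) (z - M.ε ∘ₗ ζ₂)
    ⟨fun w => by simp [z2, d4], fun w => by simp [d8, hc]⟩
  refine ⟨M.tw α₀, β, ζ₂ ∘ₗ M.ii - l + y ∘ₗ (M.t.bt E U).d (n - 1 - 1) ∘ₗ M.ii,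
    fun x => by simp [M.θ_te, c1], d1.hd, d2, d3, fun w => by simp [d5, l2, y1],
    fun w => by simp [y2, z1], fun w => ?_⟩
  simp only [LinearMap.add_apply, LinearMap.sub_apply, LinearMap.comp_apply, (M.ii_hom _).hd, d6,
    l3, Cx.dd', map_zero]
  abel

omit hκ

/-- The kernel of the augmentation. -/
def mm : Submodule S X := LinearMap.ker (M.p.e 0 - LinearMap.id) ⊓ LinearMap.ker M.ε

theorem mem_mm {x : X} : x ∈ M.mm ↔ M.p.e 0 x = x ∧ M.ε x = 0 := by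
  simp [mm, sub_eq_zero]

theorem lft_mem (f : M.F) : M.lft f ∈ M.mm :=
  M.mem_mm.2 ⟨M.lft_e _, by simp [M.ε_lft, π₁_F, π₂_F]⟩

/-- The structure map of the module `Z'`. -/
noncomputable def τZ : TD E M.F (Res χ K) M.mm where
  φ := LinearMap.mk₂ K (fun f c => (Res.of χ K).symm c • (⟨M.lft f, M.lft_mem f⟩ : M.mm))
    (fun f g c => by ext; simp) (fun a f c => by ext; simp [smul_comm a])
    (fun f c d => by simp [add_smul]) (fun a f c => by simp [mul_smul])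
  hr a f c := by
    ext
    simp [M.lft_r, chi_smul, smul_smul, mul_comm]
  hl b f c := by
    ext
    simp [M.lft_l, smul_comm b]

theorem τZ_ξ (α : X →ₗ[S] Res χ K) (w) : (M.τZ.ξ α w : X) = M.ξU α (M.ii w) :=
  BT.ext_add (M.mm.subtype ∘ₗ M.τZ.ξ α) (M.ξU α ∘ₗ M.ii) (fun _ _ => rfl) w

include hκ

/-- The gluing maps at the level of the complete resolution. -/
noncomputable def At : TΦ (E := E) M.F M.t M.t where
  Φ n := κ n ∘ₗ M.ii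
  eΦ n w := (hκ n).1.ek _
  Φe n w := by simp [(M.ii_hom _).he, (hκ n).1.ke]
  dΦ n w := by simp [M.dκ_ii hκ, (M.ii_hom _).hd]

theorem hz_Z (gor : GorH K S) (n : ℤ) (h1 : n ≠ -1) (h2 : n ≠ -2) :
    (M.At hκ).cx.HZ (TM M.τZ) n := by
  refine TΦ.cx_hz _ n fun α β ζ hα hβ hζ h => ?_
  have h' : ∀ w, M.ξU α (M.ii w) + (β (κ (n + 1) (M.ii w)) : X) -
      (ζ ((M.t.bt E M.F).d n w) : X) = 0 := fun w => by
    rw [← M.τZ_ξ]; exact congrArg Subtype.val (h w)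
  obtain ⟨rfl, β₁, b1, b2, b3, b4⟩ := M.stepA hκ gor n h1 α (M.mm.subtype ∘ₗ β)
    (M.mm.subtype ∘ₗ ζ) hα.he (hβ.comp _) (fun x => (M.mem_mm.1 (β x).2).1)
    (fun w => by simp [hζ]) (fun x => (M.mem_mm.1 (ζ x).2).1) (fun x => (M.mem_mm.1 (ζ x).2).2) h'
  obtain ⟨α', β₂, ζ', c1, c2, c3, c4, c5, c6, c7⟩ := M.stepB hκ gor n h2
    (M.mm.subtype ∘ₗ ζ + β₁ ∘ₗ κ n ∘ₗ M.ii)
    ⟨fun w => by simp [hζ, (M.ii_hom _).he, (hκ n).1.ke], fun w => by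
      have := h' w
      rw [M.ξU_zero, zero_add, sub_eq_zero] at this
      have e := b4 (κ (n + 1) (M.ii w))
      rw [M.dκ_ii hκ, map_neg] at e
      simp only [LinearMap.add_apply, LinearMap.comp_apply, Submodule.subtype_apply,
        (M.ii_hom _).hd, ← this] at e ⊢
      rw [← e, neg_add_cancel]⟩
    (fun w => by simp [b2, (M.mem_mm.1 (ζ w).2).1]) (fun w => by simp [b3, (M.mem_mm.1 (ζ w).2).2])
  refine ⟨α', (β₂ - β₁).codRestrict M.mm fun x => M.mem_mm.2 ⟨by simp [b2, c3], by simp [b3, c4]⟩,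
    ζ'.codRestrict M.mm fun x => M.mem_mm.2 ⟨c5 x, c6 x⟩, c1, fun x => M.fd _ _ _,
    fun v => Subtype.ext (by simp [c2, b4]), fun w => Subtype.ext ?_⟩
  have := c7 w
  simp only [LinearMap.add_apply, LinearMap.comp_apply, Submodule.subtype_apply] at this
  simp only [AddSubgroupClass.coe_sub, Submodule.coe_add, τZ_ξ, LinearMap.codRestrict_apply,
    LinearMap.sub_apply, At, LinearMap.comp_apply]
  linear_combination (norm := abel) this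

theorem not_hz_Z (gor : GorH K S) : ¬ (M.At hκ).cx.HZ (TM M.τZ) (-1) := by
  intro H
  obtain ⟨β, ζ, d1, d2, d3, d4, d5, d6, d7⟩ := M.core hκ gor 0 M.ε M.ε M.ε_t M.ε_t
  have htw : M.tw M.ε = M.ε := LinearMap.ext M.ε_θ
  rw [htw] at d6 d7
  obtain ⟨y, y1, y2⟩ := M.Qres (m := 0 - 1) (by omega) (M.ε ∘ₗ ζ)
    ⟨fun w => by simp only [LinearMap.comp_apply, d4], fun w => by
      simp only [LinearMap.comp_apply, d7]; abel⟩
  have hc := (M.At hκ).coch_coc (τ' := M.τZ) (-1) (α := M.ε)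
    (β := β.codRestrict M.mm fun x => M.mem_mm.2 ⟨d2 x, d3 x⟩)
    (ζ := (ζ ∘ₗ M.ii - y ∘ₗ (M.t.bt E U).d (0 - 1 - 1) ∘ₗ M.ii).codRestrict M.mm fun w =>
      M.mem_mm.2 ⟨by simp only [LinearMap.sub_apply, LinearMap.comp_apply, map_sub, d5, y1],
        by simp only [LinearMap.sub_apply, LinearMap.comp_apply, map_sub, y2, sub_self]⟩)
    ⟨M.ε_t, M.fd _ _⟩
    ⟨fun x => Subtype.ext (d1.he x), fun x => Subtype.ext (d1.hd x)⟩
    (fun w => Subtype.ext (by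
      have e1 := d4 (M.ii w)
      have e2 := (M.t.bt E U).de' (0 - 1) (M.ii w)
      simp only [zero_sub] at e1 e2
      simp only [LinearMap.codRestrict_apply, LinearMap.sub_apply, LinearMap.comp_apply,
        (M.ii_hom _).he, zero_sub, e1, e2]))
    (fun w => Subtype.ext (by
      have e1 := d6 w
      have e2 := (M.t.bt E U).dd' (0 - 1) (M.ii w)
      simp only [zero_sub] at e1 e2
      simp only [AddSubgroupClass.coe_sub, Submodule.coe_add, τZ_ξ, LinearMap.codRestrict_apply,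
        LinearMap.sub_apply, At, LinearMap.comp_apply, (M.ii_hom _).hd, zero_sub, e1, e2, map_zero,
        neg_add_cancel, ZeroMemClass.coe_zero]
      abel))
  obtain ⟨α', hα'⟩ := TΦ.coch_not_cob _ _ (H _ hc)
  have := hα' M.v
  rw [M.fd, M.ε_v] at this
  exact one_ne_zero ((Res.of χ K).injective (this.symm.trans (map_zero _).symm))

omit hκ

/-- The gluing maps at the level of the projective resolution. -/
noncomputable def Ap {κp : ℤ → BT E U X →ₗ[S] X}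
    (hp : ∀ m, 0 ≤ m → Cx.HInv (M.p.bt E U) M.p (M.P1 - M.P2) m (κp m) ∧
      Cx.HRel (M.p.bt E U) M.p (M.P1 - M.P2) m (κp m) (κp (m + 1))) :
    TΦ (E := E) M.F M.p M.p.trunc where
  Φ n := if 0 ≤ n then κp n ∘ₗ M.ii else 0
  eΦ n w := by
    split_ifs with h
    · rw [Cx.trunc_e (by omega)]; exact (hp n h).1.ek _
    · simp
  Φe n w := by
    split_ifs with h
    · simp [(M.ii_hom _).he, (hp n h).1.ke]
    · simp
  dΦ n w := by
    by_cases h : 0 ≤ n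
    · rw [if_pos h, if_pos (by omega), Cx.trunc_d (by omega)]
      have := (hp n h).2 (M.ii w)
      rw [← (M.ii_hom _).he] at this
      simpa [eq_neg_iff_add_eq_zero, (M.ii_hom _).hd] using this
    · simp [h, Cx.trunc, show ¬ 0 < n + 1 by omega]

theorem cok_equiv {κp : ℤ → BT E U X →ₗ[S] X}
    (h0 : ∀ z, M.p.d 0 (κp 0 z) = (M.P1 - M.P2) ((M.p.bt E U).e 0 z) - M.ξU M.ε z)
    (hp : ∀ m, 0 ≤ m → Cx.HInv (M.p.bt E U) M.p (M.P1 - M.P2) m (κp m) ∧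
      Cx.HRel (M.p.bt E U) M.p (M.P1 - M.P2) m (κp m) (κp (m + 1))) :
    Nonempty ((M.Ap hp).cx.cok (-1) ≃ₗ[Tri E M.F] TM M.τZ) := by
  let β : X →ₗ[S] M.mm :=
    (M.p.d 0).codRestrict M.mm fun x => M.mem_mm.2 ⟨M.p.ed _ _, M.ε_p.hd x⟩
  have hΦ : ∀ w, (M.Ap hp).Φ 0 w = κp 0 (M.ii w) := fun w => rfl
  have h1 : ∀ w, M.p.d 0 (κp 0 (M.ii w)) = - M.ξU M.ε (M.ii w) := fun w => by
    rw [h0, ← (M.ii_hom _).he]; simp
  have hc := (M.Ap hp).coch_coc (τ' := M.τZ) (-1) (α := M.ε) (β := β) (ζ := 0)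
    (by simpa using M.ε_p)
    ⟨fun x => Subtype.ext (by simpa [Cx.trunc, β] using M.p.de 0 x),
      fun x => Subtype.ext (by simpa [Cx.trunc, β] using M.p.dd 0 x)⟩ (fun _ => rfl)
    (fun w => Subtype.ext (by
      simp only [neg_add_cancel, hΦ, LinearMap.zero_apply, sub_zero, Submodule.coe_add, τZ_ξ, β,
        LinearMap.codRestrict_apply, h1, add_neg_cancel, ZeroMemClass.coe_zero]))
  obtain ⟨g, hg⟩ := hc.desc
  refine ⟨LinearEquiv.ofBijective g ⟨?_, fun z => ?_⟩⟩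
  · rw [← LinearMap.ker_eq_bot, LinearMap.ker_eq_bot']
    intro z hz
    obtain ⟨z, rfl⟩ := Cx.pr_surj _ _ z
    rw [hg] at hz
    have e1 : M.ε z.x = 0 := congrArg TM.x hz
    have e2 : M.ξU M.ε (M.ii z.y.1) + M.p.d 0 z.y.2.1 = 0 := by
      have := congrArg Subtype.val (congrArg TM.y hz)
      simpa [TΦ.coch, τZ_ξ, β] using this
    obtain ⟨x', hx'⟩ := M.ε_ex (M.p.e 0 z.x) (M.p.ee _ _) (by rw [M.ε_p.he, e1])
    obtain ⟨v', hv'⟩ := M.p_ex (0 + 1) (by omega) (κp 0 (M.ii z.y.1) - M.p.e (0 + 1) z.y.2.1)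
      (by rw [map_sub, (hp 0 le_rfl).1.ek, M.p.ee])
      (by rw [add_sub_cancel_right, map_sub, M.p.de, h1, ← neg_add', e2, neg_zero])
    have e3 : (M.p.bt E M.F).e (-1) = 0 := by
      change BT.mapR (M.p.e (-1)) = 0
      rw [M.p_lo _ (by omega)]
      exact LinearMap.ext (BT.ext_add _ _ (by simp))
    rw [Cx.pr_eq_zero]
    refine ⟨TM.mk _ x' (0, v', z.y.1), ?_⟩
    ext
    · simpa using hx'
    · simp
    · simp only [TΦ.cx_d_y, TΦ.cx_e_y, neg_add_cancel, TM.mk_y, hΦ, Cx.trunc_d zero_lt_one,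
        Cx.trunc_e zero_lt_one, zero_add] at hv' ⊢
      rw [hv']; abel
    · simp only [TΦ.cx_d_y, TΦ.cx_e_y, TM.mk_y]
      rw [← Cx.ed, e3]; simp
  · obtain ⟨v', hv'⟩ := M.ε_ex z.y (M.mem_mm.1 z.y.2).1 (M.mem_mm.1 z.y.2).2
    refine ⟨Cx.pr _ _ (TM.mk _ ((Res.of χ K).symm z.x • M.v) (0, v', 0)), ?_⟩
    rw [hg]
    ext
    · simp only [TΦ.coch, TM.hom_x, TM.mk_x]
      rw [LinearMap.map_smul_of_tower, M.ε_v, ← map_smul]; simp
    · simp [TΦ.coch, β, hv']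

include M in
theorem coreExists [Module.Finite K S] (gor : GorH K S)
    (rad : ∃ φ : S →ₐ[K] (Fin 4 → K), Function.Surjective φ ∧ (∀ x, φ x = 0 → IsNilpotent x) ∧
      ∃ a b c d, φ a = 0 ∧ φ b = 0 ∧ φ c = 0 ∧ φ d = 0 ∧ a * b * c * d ≠ 0) :
    CoreExists K := by
  obtain ⟨κp, h0, hp⟩ := M.exists_κp
  obtain ⟨κ, ha, hκ⟩ := M.exists_κt gor κp hp
  obtain ⟨eZ⟩ := M.cok_equiv h0 hp
  have : Module.Finite K M.F := M.F_l.finite
  have tot : TotAc (M.At hκ).cx :=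
    ⟨fun n => TΦ.cx_fp _ M.F_l n (M.t_fp _) (M.t_fp _) (M.t_fp _),
     fun n => TΦ.cx_exactAt _ n (M.t_ex _) (M.t_ex _),
     fun n => TΦ.cx_hz_reg _ M.F_l n (M.hz_t gor _) (M.hz_t gor _) (M.hz_F gor _)⟩
  have hrel : (M.Ap hp).cx.rel 4 = (M.At hκ).cx.rel 4 := by
    have e1 : (M.Ap hp).cx.e 4 = (M.At hκ).cx.e 4 := LinearMap.ext fun z => by
      ext <;> simp only [TΦ.cx_e_x, TΦ.cx_e_y]
      · rw [M.agree_e _ (by omega)]
      · rw [M.bt_agree_e _ (by omega)]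
      · rw [Cx.trunc_e (by omega), M.agree_e _ (by omega)]
      · rw [M.bt_agree_e _ (by omega)]
    have e2 : (M.Ap hp).cx.d 4 = (M.At hκ).cx.d 4 := LinearMap.ext fun z => by
      ext <;> simp only [TΦ.cx_d_x, TΦ.cx_d_y]
      · rw [M.agree_d _ (by omega)]
      · rw [M.bt_agree_e _ (by omega), M.bt_agree_d _ (by omega)]
      · rw [Cx.trunc_d (by omega), M.agree_d _ (by omega)]
        have : (M.Ap hp).Φ (4 + 1) = (M.At hκ).Φ (4 + 1) := by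
          change κp (4 + 1) ∘ₗ M.ii = κ (4 + 1) ∘ₗ M.ii
          rw [ha _ (by omega)]
        rw [this]
      · rw [M.bt_agree_d _ (by omega)]
    unfold Cx.rel
    rw [e1, e2]
  have key : ∀ i : ℤ, (M.At hκ).cx.HZ (TM M.τZ) i ↔
      (M.At hκ).cx.HZ ((M.At hκ).cx.cok 0) (i + 1) := fun i => by
    have s1 := (M.At hκ).cx.hz_cok_add (M.Ap hp).cx tot.fp tot.hz (-1) 5
      (fun j hj => TΦ.cx_fp _ M.F_l j (M.p_fp _)
        (by rw [Cx.trunc_e (by omega)]; exact M.p_fp _) (M.p_fp _))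
      (fun j hj => TΦ.cx_exactAt _ j (M.p_ex _ (by omega))
        (Cx.trunc_exactAt (by omega) (M.p_ex _ (by omega)))) i
    have s2 := (M.At hκ).cx.hz_cok_shift tot.fp tot.hz tot.ex 0 (i + 1) 4
    have eq : (M.Ap hp).cx.cok (-1 + ((5 : ℕ) : ℤ)) ≃ₗ[Tri E M.F] (M.At hκ).cx.cok (0 + 4) :=
      Submodule.quotEquivOfEq _ _ hrel
    have hi : i + ((5 : ℕ) : ℤ) = i + 1 + 4 := by push_cast; ring
    rw [hi] at s1
    constructor
    · intro h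
      exact s2.1 ((s1.2 (h.equiv eZ)).equiv eq.symm)
    · intro h
      exact (s1.1 ((s2.2 h).equiv eq)).equiv eZ.symm
  refine ⟨Tri E M.F, inferInstance, inferInstance, _, inferInstance, inferInstance, inferInstance,
    inferInstance, (M.At hκ).cx, inferInstance, tot, fun i hi => ?_, fun i hi => ?_, fun h => ?_,
    Tri.rad rad⟩
  · have := (key (i - 1)).1 (M.hz_Z hκ gor _ (by omega) (by omega))
    rwa [sub_add_cancel] at this
  · have := (key (i - 1)).1 (M.hz_Z hκ gor _ (by omega) (by omega))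
    rwa [sub_add_cancel] at this
  · exact M.not_hz_Z hκ gor ((key (-1)).2 h)

end MD

end Crest.Agent.R186
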