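import Crest.Agent.R186.MD

/-! The bimodule `G` attached to a datum and its cohomology. -/

set_option autoImplicit false
set_option linter.unusedSectionVars false

namespace Crest.Agent.R186

open scoped TensorProduct
open MulOpposite

variable {K S T : Type*} [Field K] [Ring S] [Ring T] [Algebra K S] [Algebra K T]

namespace Dat

variable {E : Env K S T} {χ : S →ₐ[K] K} {t : ℤ} {Xp Xq Y H W : Type*}
    [AddCommGroup Xp] [Module K Xp] [Module S Xp] [IsScalarTower K S Xp]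
    [AddCommGroup Xq] [Module K Xq] [Module S Xq] [IsScalarTower K S Xq]
    [AddCommGroup Y] [Module K Y] [Module T Y] [IsScalarTower K T Y]
    [AddCommGroup H] [Module K H] [Module T H] [IsScalarTower K T H]
    [AddCommGroup W] [Module K W] [Module T W] [IsScalarTower K T W]
    (D : Dat E χ t Xp Xq Y H W)

/-- The relations of `G`. -/
def Ψ : Y × Y →ₗ[T] Y × W :=
  ((LinearMap.id - D.B.e 3).coprod (D.B.d ∘ₗ D.B.e 4)).prod (D.f ∘ₗ LinearMap.snd T Y Y)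

@[simp] theorem Ψ_apply (y : Y × Y) :
    D.Ψ y = (y.1 - D.B.e 3 y.1 + D.B.d (D.B.e 4 y.2), D.f y.2) := rfl

/-- The pushout of `W ← Ω⁴ → P₃`. -/
abbrev G := (Y × W) ⧸ LinearMap.range D.Ψ

theorem B_ex (n : ℤ) (hn : 0 < n) (x : Y) (he : D.B.e n x = x) (hd : D.B.d x = 0) :
    ∃ w, D.B.d w = x :=
  D.kp_B.ex x hd (by
    change D.π x = 0
    rw [← D.π_e, ← he, D.B.eo 0 n hn.ne, map_zero])

theorem B_exactAt (n : ℤ) (hn : 0 < n) : D.B.toCx.ExactAt n :=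
  GCx.toCx_exactAt _ n (D.B_ex n hn)

theorem ses_H : SES (D.B.toCx.cokι 0) (D.π ∘ₗ (D.B.toCx.tm 0).subtype) where
  inj := (D.B.toCx.cok_ses 0 (D.B_exactAt _ (by norm_num))).inj
  surj h := ⟨⟨D.B.e 0 (D.ι h), _, rfl⟩, (D.π_e _).trans (D.kp_B.πι h)⟩
  ji z := by
    obtain ⟨x, rfl⟩ := D.B.toCx.pr_surj _ z
    exact (D.π_e _).trans (D.kp_B.πd x)
  ex := by
    rintro ⟨_, x, rfl⟩ hx
    obtain ⟨w, hw⟩ := D.kp_B.ex (D.B.e 0 x)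
      (by change D.B.d _ = 0; rw [D.B.de', D.B_lo _ (by norm_num)]; rfl) hx
    refine ⟨D.B.toCx.pr _ w, Subtype.ext ?_⟩
    change D.B.e 0 (D.B.d w) = D.B.e 0 x
    rw [show D.B.d w = _ from hw, D.B.ee]

/-- The inclusion `W → G`. -/
def Gi : W →ₗ[T] D.G := (LinearMap.range D.Ψ).mkQ ∘ₗ LinearMap.inr T Y W

theorem d_e4 (y : Y) : D.B.d (D.B.e 4 y) = D.B.e 3 (D.B.d y) := D.B.de 3 y

/-- The projection `G → Ω³`. -/
def Gj : D.G →ₗ[T] D.B.toCx.cok 3 :=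
  (LinearMap.range D.Ψ).liftQ (D.B.toCx.pr 3 ∘ₗ LinearMap.fst T Y W) (by
    rintro _ ⟨y, rfl⟩
    have h1 : D.B.toCx.pr 3 (D.B.e 3 y.1) = _ := D.B.toCx.pr_e 3 y.1
    have h2 : D.B.toCx.pr 3 (D.B.e 3 (D.B.d y.2)) = 0 := D.B.toCx.pr_d 3 y.2
    simp [h1, h2, d_e4])

theorem ses_G (ht : t = 4) : SES D.Gi D.Gj where
  inj := by
    subst ht
    rw [← LinearMap.ker_eq_bot, LinearMap.ker_eq_bot']
    intro w hw
    obtain ⟨y, hy⟩ := (Submodule.Quotient.mk_eq_zero _).1 hw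
    simp only [Ψ_apply, LinearMap.inr_apply, Prod.mk.injEq] at hy
    have h1 := congrArg (D.B.e 3) hy.1
    simp only [map_add, map_sub, D.B.ee, d_e4, sub_self, zero_add, map_zero] at h1
    obtain ⟨z, hz⟩ := D.B_ex 4 (by norm_num) _ (D.B.ee 4 y.2) ((D.d_e4 _).trans h1)
    rw [← hy.2, ← D.f_e, ← hz, D.f_d]
  surj z := by
    obtain ⟨y, rfl⟩ := D.B.toCx.pr_surj _ z
    exact ⟨Submodule.Quotient.mk (y, 0), rfl⟩
  ji _ := map_zero (D.B.toCx.pr 3)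
  ex z hz := by
    obtain ⟨⟨y, w⟩, rfl⟩ := Submodule.Quotient.mk_surjective _ z
    obtain ⟨x, hx⟩ := D.B.toCx.pr_eq_zero.1 hz
    have hx' : D.B.e 3 (D.B.d x) = D.B.e 3 y := hx
    refine ⟨w - D.f x, Eq.symm ((Submodule.Quotient.eq (LinearMap.range D.Ψ)).2 ⟨(y, x), ?_⟩)⟩
    simp [d_e4, hx']

theorem tm_fp (n : ℤ) (hn : n ≤ 2) :
    FP (LinearMap.id : D.B.toCx.tm n →ₗ[T] D.B.toCx.tm n) := (D.B_fp n hn).range (D.B.ee n)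

theorem cok_via {S' : Type*} [Ring S'] [Algebra K S'] {φ : S' →ₐ[K] T} (hT : FPvia T φ)
    (hH : FPvia H φ) : FPvia (D.B.toCx.cok 1) φ ∧ FPvia (D.B.toCx.cok 2) φ ∧
      FPvia (D.B.toCx.cok 3) φ := by
  have h1 : FPvia (D.B.toCx.cok 1) φ :=
    FPvia.ses_left D.ses_H (hT.of_fp (D.tm_fp 0 (by norm_num))) hH
  have h2 : FPvia (D.B.toCx.cok 2) φ := FPvia.ses_left
    (D.B.toCx.cok_ses 1 (D.B_exactAt _ (by norm_num))) (hT.of_fp (D.tm_fp 1 (by norm_num))) h1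
  exact ⟨h1, h2, FPvia.ses_left (D.B.toCx.cok_ses 2 (D.B_exactAt _ (by norm_num)))
    (hT.of_fp (D.tm_fp 2 (by norm_num))) h2⟩

/-- Functionals on `G` induced from `W`. -/
def Gπ (μ' : W →ₗ[K] S) (hμ : ∀ y, μ' (D.f y) = 0) : D.G →ₗ[K] S :=
  ((LinearMap.range D.Ψ).restrictScalars K).liftQ (μ' ∘ₗ LinearMap.snd K Y W)
    (by rintro _ ⟨y, rfl⟩; exact hμ y.2) ∘ₗ
    (Submodule.Quotient.restrictScalarsEquiv K (LinearMap.range D.Ψ)).symm.toLinearMap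

@[simp] theorem Gπ_mk (μ' : W →ₗ[K] S) (hμ : ∀ y, μ' (D.f y) = 0) (y : Y) (w : W) :
    D.Gπ μ' hμ (Submodule.Quotient.mk (y, w)) = μ' w := rfl

theorem q_exactAt (n : ℤ) (hn : 0 < n) : D.q.toCx.ExactAt n := by
  refine GCx.toCx_exactAt _ n fun x he hd => ?_
  have hv : D.q.d (D.c D.v) = 0 := D.kp_q.dv
  obtain ⟨w, hw⟩ := D.kp_q.ex (x - D.πq x • D.c D.v) (by simp [hd, hv]) (by simp [D.kp_q.εv])
  have h1 : D.q.e n (D.c D.v) = 0 := by rw [← D.c_e, ← D.v_e, D.p.eo n 0 hn.ne', map_zero]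
  refine ⟨D.q.e (n + 1) w, ?_⟩
  rw [D.q.de, show D.q.d w = _ from hw, map_sub, LinearMap.map_smul_of_tower, h1, he, smul_zero,
    sub_zero]

variable [Module.Finite K S]

theorem G_l (ht : t = 4) : FPvia D.G E.l :=
  FPvia.ses_mid (D.ses_G ht) (E.fpvia_l.of_fp D.W_fp) (D.cok_via E.fpvia_l D.H_l).2.2

theorem G_r (ht : t = 4) : FPvia D.G E.r :=
  FPvia.ses_mid (D.ses_G ht) (E.fpvia_r.of_fp D.W_fp) (D.cok_via E.fpvia_r D.H_r).2.2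

theorem G_hr (ht : t = 4) (h2 : (2 : K) = 0) {M : Type*} [AddCommGroup M] [Module K M]
    [Module S M] [IsScalarTower K S M] (n : ℤ) (r : ℕ) :
    ((D.tc h2).bt E H).HR K M (n + 3) r → ((D.tc h2).bt E D.G).HR K M n r := by
  intro h
  obtain ⟨l1, l2, l3⟩ := D.cok_via E.fpvia_l D.H_l
  obtain ⟨r1, r2, r3⟩ := D.cok_via E.fpvia_r D.H_r
  have h1 : ((D.tc h2).bt E (D.B.toCx.cok 1)).HR K M (n + 1 + 1) r :=
    Cx.bt_hr_sub (D.tc_fp h2) D.ses_H D.H_l D.H_r (D.tm_fp 0 (by norm_num)) (D.tc_ex h2 _)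
      (by rwa [show n + 1 + 1 + 1 = n + 3 by ring])
  have h3 : ((D.tc h2).bt E (D.B.toCx.cok 2)).HR K M (n + 1) r :=
    Cx.bt_hr_sub (D.tc_fp h2) (D.B.toCx.cok_ses 1 (D.B_exactAt _ (by norm_num))) l1 r1
      (D.tm_fp 1 (by norm_num)) (D.tc_ex h2 _) h1
  have h4 : ((D.tc h2).bt E (D.B.toCx.cok 3)).HR K M n r :=
    Cx.bt_hr_sub (D.tc_fp h2) (D.B.toCx.cok_ses 2 (D.B_exactAt _ (by norm_num))) l2 r2
      (D.tm_fp 2 (by norm_num)) (D.tc_ex h2 _) h3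
  exact Cx.bt_hr_mid (D.tc_fp h2) (D.ses_G ht) l3 r3 D.W_fp (D.tc_ex h2 _) h4

theorem G_γ (ht : t = 4) (h2 : (2 : K) = 0) (hz : ∀ n, (D.tc h2).HZ S n)
    (fd : ∀ (f : Xp × Xq →ₗ[S] Res χ K) n x, f ((D.tc h2).d n x) = 0)
    (hμ : ∀ y, D.μ (D.f y) = 0) :
    ¬ ∃ g : BT E D.G (Xp × Xq) →ₗ[S] Res χ K,
      ∀ u x, g (BT.mk E u ((D.tc h2).d (-1) x)) = D.εc (D.Gπ D.μ hμ u • x) := by
  rintro ⟨g, hg⟩
  have hl := D.G_l ht
  have hr := D.G_r ht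
  subst ht
  let Q := D.q.toCx.bt E D.G
  have hY : (D.tc h2).HZ (Q.cok 0) 3 := by
    refine ((D.tc h2).hz_cok_add Q (D.tc_fp h2) hz 0 5 (fun j _ => Cx.bt_fp (P := D.q.toCx) hl D.q_fp j)
      (fun j hj => Cx.bt_exactAt hr (D.q_exactAt j hj)) 3).1 fun f _ => (Cx.Cob.zero _).congr
        fun x => ?_
    obtain ⟨z, hz⟩ := Q.pr_surj _ (f x)
    have : Q.e (0 + (5 : ℕ)) z = 0 := BT.ext_add _ (0 : _ →ₗ[S] _) (fun u y => by
      simp [Q, D.q_hi 5 (by norm_num)]) z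
    rw [← hz, ← Q.pr_e, this, map_zero, LinearMap.zero_apply]
  let g0 : BT E D.G Xq →ₗ[S] Res χ K := g ∘ₗ BT.mapR (LinearMap.inr S Xp Xq ∘ₗ D.q.e 0)
  have hg0 : Q.Coc 0 g0 := by
    refine ⟨BT.ext_add (g0 ∘ₗ Q.e 0) g0 fun u y => by simp [g0, Q, D.q.ee],
      BT.ext_add (g0 ∘ₗ Q.d 0) (0 : _ →ₗ[S] _) fun u y => ?_⟩
    simpa [g0, Q, D.q.ee] using hg u (0, y)
  obtain ⟨β, hβ⟩ := hg0.desc
  have hc : ∀ u x, g0 (BT.mk E u (D.c x)) = Res.of χ K (χ (D.Gπ D.μ hμ u) * D.ε x) := fun u x => by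
    simpa [g0, D.p_lo (-1) (by norm_num), D.ε_smul] using hg u (x, 0)
  let φ : D.G →ₗ[K] Q.cok 0 := (Q.pr 0).restrictScalars K ∘ₗ (BT.mk E).flip (D.c D.v)
  have hφ : ∀ u, φ u = Q.pr 0 (BT.mk E u (D.c D.v)) := fun _ => rfl
  have hφ0 : ∀ u ∈ MS K D.G (E.rker χ), φ u = 0 := fun u hu => MS.eq_zero φ (by
    rintro _ ⟨s, hs, rfl⟩ u
    have hv : D.p.d D.v = 0 := D.kp_p.dv
    obtain ⟨x, hx⟩ := D.kp_p.ex (s • D.v) (by simp [hv]) (by simp [D.ε_smul, hs])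
    rw [hφ, BT.mk_r, ← map_smul, ← hx, ← Q.pr_e]
    exact (congrArg (fun y => Q.pr 0 (BT.mk E u (D.q.e 0 y))) (D.c_d x)).trans
      (Q.pr_d 0 (BT.mk E u (D.c x)))) hu
  let Γ0 : Xp × Xq →ₗ[S] Q.cok 0 := mkLin
    (φ ∘ₗ (LinearMap.range D.Ψ).mkQ.restrictScalars K ∘ₗ D.α.prodMap D.ω) fun s x => by
      change Q.pr 0 (BT.mk E ((LinearMap.range D.Ψ).mkQ (D.α (s • x.1), D.ω (s • x.2))) _) =
        s • Q.pr 0 (BT.mk E ((LinearMap.range D.Ψ).mkQ (D.α x.1, D.ω x.2)) _)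
      rw [D.α_smul, D.ω_smul, ← Prod.smul_mk, map_smul, ← BT.smul_mk, map_smul]
  have hΓ0 : ∀ x, Γ0 x = φ (Submodule.Quotient.mk (D.α x.1, D.ω x.2)) := fun _ => rfl
  have hΓ : (D.tc h2).Coc 3 (Γ0 ∘ₗ (D.tc h2).e 3) := by
    refine ⟨fun x => congrArg Γ0 ((D.tc h2).ee 3 x), fun x => ?_⟩
    rw [LinearMap.comp_apply, (D.tc h2).ed, hΓ0]
    refine hφ0 _ ?_
    have a1 : D.ω (D.q.d x.2) = 0 := by
      rw [← D.ω_e, ← D.q.de, D.q_hi (4 + 1) (by norm_num)]; simp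
    have a2 := MS.map ((LinearMap.range D.Ψ).mkQ ∘ₗ LinearMap.inl T Y W) (D.α_d (D.p.e 4 x.1))
    have a3 := MS.map ((LinearMap.range D.Ψ).mkQ ∘ₗ LinearMap.inr T Y W) (D.ω_c x.1)
    convert sub_mem a3 a2 using 1
    rw [LinearMap.comp_apply, LinearMap.comp_apply, ← map_sub]
    refine (Submodule.Quotient.eq _).2 ⟨(0, D.α x.1), ?_⟩
    have a4 : D.p.d (D.p.e 4 x.1) = D.p.e 3 (D.p.d x.1) := D.p.de 3 _
    simp [a1, a4, D.ω_e, D.α_e]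
  obtain ⟨lam, hlam⟩ := hY _ hΓ
  have h1 := fd (β ∘ₗ lam) (3 - 1) (0, D.w)
  have a5 : ∀ y, D.ω (D.q.e (3 + 1) y) = D.ω y := D.ω_e
  rw [LinearMap.comp_apply, hlam, LinearMap.comp_apply, hΓ0, hφ, hβ, hc, tc_e, Gπ_mk, a5, D.μ_ω,
    D.η_w, D.kp_p.εv, one_mul] at h1
  exact one_ne_zero ((Res.of χ K).map_eq_zero_iff.1 h1)

end Dat

end Crest.Agent.R186
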