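import Crest.Agent.R186.TrivExt2
import Crest.Agent.R186.Ext
import Crest.Prelude.Def_SymmetricAlgebra

/-! From `Core` to `CoreSym`, and the statement S0280 over a general field. -/

set_option autoImplicit false

namespace Crest.Agent.R186

open Crest.AlgebraR

universe u

theorem coreSym_of_core {K : Type u} [Field K] (h : CoreExists K) : CoreSymExists K := by
  obtain ⟨Λ, _, _, X, _, _, _, _, P, h⟩ := h
  exact ⟨TE K Λ, _, _, Ind K Λ X, _, _, _, _, P.ind K, coreSym_ind h⟩

theorem s0280_of_coreSym (k : Type) [Field k] (h : CoreSymExists k) :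
    ∃ (A : Type) (_ : Ring A) (_ : Algebra k A),
      FiniteDimensional k A ∧
      IsSymmetricAlgebra k A ∧
      ∃ M : ModuleCat.{0} A, Module.Finite A M ∧ ¬ Module.Projective A M ∧
        ∀ i : ℕ, 0 < i → Subsingleton (CategoryTheory.Abelian.Ext M M i) := by
  obtain ⟨A, _, _, X, _, _, _, _, P, h⟩ := h
  refine ⟨A, inferInstance, inferInstance, h.fin, h.sym, ModuleCat.of A (P.cok 0),
    cok_finite h.tot.fp 0, h.tot.not_projective h.nz, fun i hi => ?_⟩
  obtain ⟨i, rfl⟩ : ∃ j, i = j + 1 := ⟨i - 1, by omega⟩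
  exact ext_subsingleton h.tot.fp h.tot.ex 0 i (h.pos _ (by omega))

end Crest.Agent.R186
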