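import Crest.Agent.R186.Basic

/-! The trivial extension algebra `Λ ⋉ DΛ` and induced modules. -/

set_option autoImplicit false
set_option linter.unusedSectionVars false

namespace Crest.Agent.R186

open MulOpposite

universe u

variable (K Λ : Type u) [Field K] [Ring Λ] [Algebra K Λ]

/-- The `K`-dual of a right `Λ`-module, as a left `Λ`-module. -/
def DD (_Λ : Type u) (W : Type u) [AddCommGroup W] [Module K W] : Type u := Module.Dual K W

namespace DD

variable {K Λ} {W : Type u} [AddCommGroup W] [Module K W]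

instance : AddCommGroup (DD K Λ W) := inferInstanceAs (AddCommGroup (Module.Dual K W))
instance : Module K (DD K Λ W) := inferInstanceAs (Module K (Module.Dual K W))
instance [Module.Finite K W] : Module.Finite K (DD K Λ W) :=
  inferInstanceAs (Module.Finite K (Module.Dual K W))

/-- The underlying functional. -/
def v (η : DD K Λ W) : W →ₗ[K] K := η

/-- A functional as an element of the dual module. -/
def mk (η : W →ₗ[K] K) : DD K Λ W := η

@[simp] theorem v_mk (η : W →ₗ[K] K) : (mk η : DD K Λ W).v = η := rfl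
@[simp] theorem v_zero : (0 : DD K Λ W).v = 0 := rfl
@[simp] theorem v_add (η ζ : DD K Λ W) : (η + ζ).v = η.v + ζ.v := rfl
@[simp] theorem v_ksmul (k : K) (η : DD K Λ W) : (k • η).v = k • η.v := rfl

@[ext] theorem ext {η ζ : DD K Λ W} (h : ∀ w, η.v w = ζ.v w) : η = ζ := LinearMap.ext h

section left

variable [Module Λᵐᵒᵖ W] [SMulCommClass Λᵐᵒᵖ K W]

instance : SMul Λ (DD K Λ W) :=
  ⟨fun a η => mk (η.v ∘ₗ DistribSMul.toLinearMap K W (op a))⟩

@[simp] theorem v_smul (a : Λ) (η : DD K Λ W) (w : W) : (a • η).v w = η.v (op a • w) := rfl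

instance : Module Λ (DD K Λ W) where
  one_smul η := by ext; simp
  mul_smul a b η := by ext; simp [mul_smul]
  smul_zero a := by ext; simp
  smul_add a η ζ := by ext; simp
  add_smul a b η := by ext; simp [add_smul]
  zero_smul η := by ext; simp

instance [IsScalarTower K Λᵐᵒᵖ W] : IsScalarTower K Λ (DD K Λ W) :=
  ⟨fun k a η => by ext; simp⟩

end left

instance : SMul Λᵐᵒᵖ (DD K Λ Λ) := ⟨fun b η => mk (η.v ∘ₗ LinearMap.mulLeft K b.unop)⟩

@[simp] theorem v_op_smul (b : Λᵐᵒᵖ) (η : DD K Λ Λ) (y : Λ) : (b • η).v y = η.v (b.unop * y) :=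
  rfl

instance : Module Λᵐᵒᵖ (DD K Λ Λ) where
  one_smul η := by ext; simp
  mul_smul a b η := by ext; simp [mul_assoc]
  smul_zero a := by ext; simp
  smul_add a η ζ := by ext; simp
  add_smul a b η := by ext; simp [add_mul]
  zero_smul η := by ext; simp

instance : SMulCommClass Λ Λᵐᵒᵖ (DD K Λ Λ) := ⟨fun a b η => by ext; simp [mul_assoc]⟩

instance : IsScalarTower K Λᵐᵒᵖ (DD K Λ Λ) := ⟨fun k a η => by ext; simp⟩

end DD

/-- The trivial extension algebra. -/
abbrev TE : Type u := TrivSqZeroExt Λ (DD K Λ Λ)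

theorem TE.finite [Module.Finite K Λ] : Module.Finite K (TE K Λ) :=
  inferInstanceAs (Module.Finite K (Λ × DD K Λ Λ))

theorem TE.symm [Module.Finite K Λ] : ∃ φ : TE K Λ ≃ₗ[K] Module.Dual K (TE K Λ),
    ∀ a x b y : TE K Λ, φ (a * x * b) y = φ x (b * y * a) := by
  have := TE.finite K Λ
  let τ : TE K Λ →ₗ[K] K :=
    { toFun := fun t => t.snd.v 1
      map_add' := fun s t => by simp
      map_smul' := fun k t => by simp }
  have hτ : ∀ s t, τ (s * t) = t.snd.v s.fst + s.snd.v t.fst := fun s t => by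
    simp [τ]
  let φ : TE K Λ →ₗ[K] Module.Dual K (TE K Λ) := LinearMap.mk₂ K (fun s t => τ (s * t))
    (fun _ _ _ => by rw [add_mul, map_add]) (fun _ _ _ => by simp [hτ, mul_add])
    (fun _ _ _ => by rw [mul_add, map_add]) (fun _ _ _ => by simp [hτ, mul_add])
  have hφ : ∀ s t, φ s t = τ (s * t) := fun _ _ => rfl
  have hinj : Function.Injective φ := by
    rw [← LinearMap.ker_eq_bot, LinearMap.ker_eq_bot']
    intro s hs
    have h : ∀ t, τ (s * t) = 0 := fun t => by rw [← hφ, hs]; rfl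
    refine TrivSqZeroExt.ext ?_ (DD.ext fun b => ?_)
    · refine (Module.forall_dual_apply_eq_zero_iff K _).1 fun η => ?_
      simpa [hτ] using h (TrivSqZeroExt.inr (DD.mk η))
    · simpa [hτ] using h (TrivSqZeroExt.inl b)
  refine ⟨LinearMap.linearEquivOfInjective φ hinj Subspace.dual_finrank_eq.symm,
    fun a x b y => ?_⟩
  change τ (a * x * b * y) = τ (x * (b * y * a))
  rw [mul_assoc a, mul_assoc a, hτ a, add_comm, ← hτ]
  simp only [mul_assoc]

/-- The induced module `(Λ ⋉ DΛ) ⊗ Y`, for finitely presented `Y`. -/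
def Ind (Y : Type u) [AddCommGroup Y] [Module Λ Y] : Type u := Y × DD K Λ (Y →ₗ[Λ] Λ)

namespace Ind

variable {K Λ} {Y Y' Y'' : Type u} [AddCommGroup Y] [Module Λ Y] [AddCommGroup Y'] [Module Λ Y']
  [AddCommGroup Y''] [Module Λ Y'']

instance : AddCommGroup (Ind K Λ Y) := inferInstanceAs (AddCommGroup (Y × DD K Λ (Y →ₗ[Λ] Λ)))
instance : Module Λ (Ind K Λ Y) := inferInstanceAs (Module Λ (Y × DD K Λ (Y →ₗ[Λ] Λ)))
instance [Module K Y] : Module K (Ind K Λ Y) :=
  inferInstanceAs (Module K (Y × DD K Λ (Y →ₗ[Λ] Λ)))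

/-- The pair constructor. -/
def mk (y : Y) (η : (Y →ₗ[Λ] Λ) →ₗ[K] K) : Ind K Λ Y := (y, DD.mk η)

/-- First component. -/
def a (z : Ind K Λ Y) : Y := Prod.fst z

/-- Second component. -/
def b (z : Ind K Λ Y) : (Y →ₗ[Λ] Λ) →ₗ[K] K := (Prod.snd z).v

@[simp] theorem a_mk (y : Y) (η : (Y →ₗ[Λ] Λ) →ₗ[K] K) : (mk y η).a = y := rfl
@[simp] theorem b_mk (y : Y) (η : (Y →ₗ[Λ] Λ) →ₗ[K] K) : (mk y η).b = η := rfl
@[simp] theorem a_zero : (0 : Ind K Λ Y).a = 0 := rfl
@[simp] theorem b_zero : (0 : Ind K Λ Y).b = 0 := rfl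
@[simp] theorem a_add (z w : Ind K Λ Y) : (z + w).a = z.a + w.a := rfl
@[simp] theorem b_add (z w : Ind K Λ Y) : (z + w).b = z.b + w.b := rfl
@[simp] theorem a_lsmul (c : Λ) (z : Ind K Λ Y) : (c • z).a = c • z.a := rfl
@[simp] theorem b_lsmul (c : Λ) (z : Ind K Λ Y) (ψ : Y →ₗ[Λ] Λ) :
    (c • z).b ψ = z.b (op c • ψ) := rfl
@[simp] theorem a_ksmul [Module K Y] (c : K) (z : Ind K Λ Y) : (c • z).a = c • z.a := rfl
@[simp] theorem b_ksmul [Module K Y] (c : K) (z : Ind K Λ Y) : (c • z).b = c • z.b := rfl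

@[ext] theorem ext {z w : Ind K Λ Y} (h1 : z.a = w.a) (h2 : ∀ ψ, z.b ψ = w.b ψ) : z = w :=
  Prod.ext h1 (DD.ext h2)

/-- Evaluation of linear forms at a vector. -/
def ev (y : Y) : (Y →ₗ[Λ] Λ) →ₗ[K] Λ where
  toFun ψ := ψ y
  map_add' _ _ := rfl
  map_smul' _ _ := rfl

instance : SMul (TE K Λ) (Ind K Λ Y) :=
  ⟨fun t z => mk (t.fst • z.a) ((t.fst • z).b + t.snd.v ∘ₗ ev z.a)⟩

@[simp] theorem a_smul (t : TE K Λ) (z : Ind K Λ Y) : (t • z).a = t.fst • z.a := rfl
@[simp] theorem b_smul (t : TE K Λ) (z : Ind K Λ Y) (ψ : Y →ₗ[Λ] Λ) :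
    (t • z).b ψ = z.b (op t.fst • ψ) + t.snd.v (ψ z.a) := rfl

instance : Module (TE K Λ) (Ind K Λ Y) where
  one_smul z := by ext <;> simp
  mul_smul s t z := by ext <;> simp [mul_smul, add_assoc]
  smul_zero t := by ext <;> simp
  smul_add t z w := by
    ext
    · simp
    · simp [add_add_add_comm]
  add_smul s t z := by
    ext
    · simp [add_smul]
    · simp [add_smul, add_add_add_comm]
  zero_smul z := by ext <;> simp

instance [Module K Y] [IsScalarTower K Λ Y] : IsScalarTower K (TE K Λ) (Ind K Λ Y) :=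
  ⟨fun k t z => by ext <;> simp [mul_add]⟩

theorem inl_smul (c : Λ) (z : Ind K Λ Y) : (TrivSqZeroExt.inl c : TE K Λ) • z = c • z := by
  ext <;> simp

/-- The unit `Y → Ind Y`. -/
def ι : Y →ₗ[Λ] Ind K Λ Y where
  toFun y := mk y 0
  map_add' _ _ := by ext <;> simp
  map_smul' _ _ := by ext <;> simp

@[simp] theorem a_ι (y : Y) : (ι y : Ind K Λ Y).a = y := rfl
@[simp] theorem b_ι (y : Y) : (ι y : Ind K Λ Y).b = 0 := rfl

/-- Functoriality of induction. -/
def map (g : Y →ₗ[Λ] Y') : Ind K Λ Y →ₗ[TE K Λ] Ind K Λ Y' where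
  toFun z := mk (g z.a) (z.b ∘ₗ LinearMap.lcomp K Λ g)
  map_add' z w := by ext <;> simp
  map_smul' t z := by
    ext
    · simp
    · rfl

@[simp] theorem a_map (g : Y →ₗ[Λ] Y') (z : Ind K Λ Y) : (map g z).a = g z.a := rfl
@[simp] theorem b_map (g : Y →ₗ[Λ] Y') (z : Ind K Λ Y) (ψ : Y' →ₗ[Λ] Λ) :
    (map g z).b ψ = z.b (ψ ∘ₗ g) := rfl

theorem map_map (g : Y →ₗ[Λ] Y') (h : Y' →ₗ[Λ] Y'') (z : Ind K Λ Y) :
    map h (map g z) = map (h ∘ₗ g) z := rfl

theorem map_ι (g : Y →ₗ[Λ] Y') (y : Y) : map g (ι y : Ind K Λ Y) = ι (g y) := by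
  ext <;> simp

theorem map_zero' (z : Ind K Λ Y) : map (0 : Y →ₗ[Λ] Y') z = 0 := by
  ext <;> simp

theorem map_add' (g h : Y →ₗ[Λ] Y') (z : Ind K Λ Y) : map (g + h) z = map g z + map h z := by
  ext <;> simp [LinearMap.comp_add]

/-- Right multiples of a linear form. -/
def rm (φ : Y →ₗ[Λ] Λ) : Λ →ₗ[K] (Y →ₗ[Λ] Λ) where
  toFun c := op c • φ
  map_add' c c' := by ext; simp [mul_add]
  map_smul' k c := by ext; simp

/-- The induced linear form. -/
def α (φ : Y →ₗ[Λ] Λ) : Ind K Λ Y →ₗ[TE K Λ] TE K Λ where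
  toFun z := TrivSqZeroExt.inl (φ z.a) + TrivSqZeroExt.inr (DD.mk (z.b ∘ₗ rm φ))
  map_add' z w := by
    ext
    · simp
    · simp
  map_smul' t z := by
    ext
    · simp
    · simp [rm, mul_smul]

@[simp] theorem fst_α (φ : Y →ₗ[Λ] Λ) (z : Ind K Λ Y) : (α φ z).fst = φ z.a := by simp [α]
@[simp] theorem snd_α (φ : Y →ₗ[Λ] Λ) (z : Ind K Λ Y) (c : Λ) :
    (α φ z).snd.v c = z.b (op c • φ) := by simp [α, rm]

theorem α_ι (φ : Y →ₗ[Λ] Λ) (y : Y) : α φ (ι y : Ind K Λ Y) = TrivSqZeroExt.inl (φ y) := by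
  ext <;> simp

theorem map_one' (φ : Y →ₗ[Λ] Λ) (y : Y') (z : Ind K Λ Y) :
    map (φ.smulRight y) z = α φ z • ι y := by
  ext ψ
  · simp
  · simp only [b_map, b_smul, b_ι, LinearMap.zero_apply, zero_add, snd_α, a_ι]
    congr 1
    ext
    simp

theorem fp_map {g : Y →ₗ[Λ] Y'} (h : FP g) : FP (map (K := K) g) := by
  induction h with
  | zero => exact FP.zero.congr fun z => (map_zero' z).symm
  | one φ y => exact (FP.one (α (K := K) φ) (ι y)).congr fun z => (map_one' φ y z).symm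
  | add _ _ ha hb => exact (ha.add hb).congr fun z => (map_add' _ _ z).symm

variable {N : Type u} [AddCommGroup N] [Module (TE K Λ) N]

theorem eq_zero_of_ι {g : Y →ₗ[Λ] Y'} (h : FP g) (F : Ind K Λ Y' →ₗ[TE K Λ] N)
    (hF : ∀ y, F (ι y) = 0) (z : Ind K Λ Y) : F (map g z) = 0 := by
  induction h with
  | zero => rw [map_zero', map_zero]
  | one φ y => rw [map_one', map_smul, hF, smul_zero]
  | add _ _ ha hb => rw [map_add', map_add, ha, hb, add_zero]

theorem exists_ext [Module Λ N] (hN : ∀ (c : Λ) (n : N), (TrivSqZeroExt.inl c : TE K Λ) • n = c • n)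
    {g : Y →ₗ[Λ] Y'} (h : FP g) (f : Y' →ₗ[Λ] N) :
    ∃ F : Ind K Λ Y →ₗ[TE K Λ] N, ∀ y, F (ι y) = f (g y) := by
  induction h with
  | zero => exact ⟨0, by simp⟩
  | one φ y => exact ⟨(α φ).smulRight (f y), fun x => by simp [α_ι, hN]⟩
  | add _ _ ha hb =>
    obtain ⟨F, hF⟩ := ha
    obtain ⟨G, hG⟩ := hb
    exact ⟨F + G, by simp [hF, hG]⟩

/-- Restriction of an `A`-linear map along the unit. -/
def res [Module Λ N] (hN : ∀ (c : Λ) (n : N), (TrivSqZeroExt.inl c : TE K Λ) • n = c • n)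
    (F : Ind K Λ Y →ₗ[TE K Λ] N) : Y →ₗ[Λ] N where
  toFun y := F (ι y)
  map_add' x y := by simp
  map_smul' c y := by rw [map_smul, ← inl_smul, map_smul, hN, RingHom.id_apply]

end Ind

end Crest.Agent.R186
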