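import Crest.Agent.R186.TrivExt1

/-! Induction of a totally acyclic complex to the trivial extension algebra. -/

set_option autoImplicit false
set_option linter.unusedSectionVars false

namespace Crest.Agent.R186

open MulOpposite

universe u

theorem exists_dual_fac {K V W : Type*} [Field K] [AddCommGroup V] [Module K V] [AddCommGroup W]
    [Module K W] (f : V →ₗ[K] W) (η : V →ₗ[K] K) (h : ∀ v, f v = 0 → η v = 0) :
    ∃ η' : W →ₗ[K] K, ∀ v, η' (f v) = η v := by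
  have : η ∈ LinearMap.range f.dualMap := by
    rw [LinearMap.range_dualMap_eq_dualAnnihilator_ker, Submodule.mem_dualAnnihilator]
    exact h
  obtain ⟨η', rfl⟩ := this
  exact ⟨η', fun _ => rfl⟩

variable (K : Type u) {Λ X : Type u} [Field K] [Ring Λ] [Algebra K Λ] [AddCommGroup X]
  [Module Λ X] (P : Cx Λ X)

/-- The induced complex. -/
def Cx.ind : Cx (TE K Λ) (Ind K Λ X) where
  e n := Ind.map (P.e n)
  d n := Ind.map (P.d n)
  ee n z := by rw [Ind.map_map, show P.e n ∘ₗ P.e n = P.e n from LinearMap.ext (P.ee n)]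
  ed n z := by rw [Ind.map_map, show P.e n ∘ₗ P.d n = P.d n from LinearMap.ext (P.ed n)]
  de n z := by rw [Ind.map_map, show P.d n ∘ₗ P.e (n + 1) = P.d n from LinearMap.ext (P.de n)]
  dd n z := by
    rw [Ind.map_map, show P.d n ∘ₗ P.d (n + 1) = 0 from LinearMap.ext (P.dd n), Ind.map_zero']

variable {K P}

theorem Cx.coc_comp_e {N : Type*} [AddCommGroup N] [Module Λ N] {n : ℤ} {ψ : X →ₗ[Λ] N}
    (h : ψ ∘ₗ P.d n = 0) : P.Coc n (ψ ∘ₗ P.e n) :=
  ⟨fun x => by simp [P.ee], fun x => by simpa [P.ed] using LinearMap.congr_fun h x⟩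

theorem ind_exact {n : ℤ} (h1 : P.ExactAt n) (h2 : P.HZ Λ n) : (P.ind K).ExactAt n := by
  intro z he hd
  obtain ⟨w, hw⟩ := h1 z.a (congrArg Ind.a he) (congrArg Ind.a hd)
  obtain ⟨η, hη⟩ := exists_dual_fac (LinearMap.lcomp K Λ (P.d n)) z.b fun ψ hψ => by
    obtain ⟨g, hg⟩ := h2 _ (Cx.coc_comp_e hψ)
    have e1 : z.b (ψ ∘ₗ P.e n) = z.b ψ := LinearMap.congr_fun (congrArg Ind.b he) ψ
    have e2 : z.b (g ∘ₗ P.d (n - 1)) = 0 := LinearMap.congr_fun (congrArg Ind.b hd) g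
    rw [← e1, ← e2]
    congr 1
    exact LinearMap.ext fun x => (hg x).symm
  exact ⟨Ind.mk w η, Ind.ext hw hη⟩

theorem ind_hz (hP : P.IsFP) {N : Type u} [AddCommGroup N] [Module (TE K Λ) N] [Module Λ N]
    (hN : ∀ (c : Λ) (n : N), (TrivSqZeroExt.inl c : TE K Λ) • n = c • n) {i : ℤ}
    (h : P.HZ N i) : (P.ind K).HZ N i := by
  intro f hf
  obtain ⟨g, hg⟩ := h (Ind.res hN f)
    ⟨fun x => by
      change f (Ind.ι _) = f (Ind.ι x)
      rw [← Ind.map_ι]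
      exact hf.he _,
    fun x => by
      change f (Ind.ι _) = 0
      rw [← Ind.map_ι]
      exact hf.hd _⟩
  obtain ⟨G, hG⟩ := Ind.exists_ext hN (hP (i - 1)) g
  refine ⟨G, fun z => ?_⟩
  have := Ind.eq_zero_of_ι (hP i) (G ∘ₗ (P.ind K).d (i - 1) - f) (fun y => by
    change G (Ind.map _ (Ind.ι y)) - f (Ind.ι y) = 0
    rw [Ind.map_ι, hG, P.ed, hg]
    exact sub_self _) z
  change G ((P.ind K).d (i - 1) ((P.ind K).e i z)) - f ((P.ind K).e i z) = 0 at this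
  rwa [Cx.de', hf.he, sub_eq_zero] at this

theorem ind_pr_coc (n : ℤ) : (P.ind K).Coc n (Ind.map (P.pr n)) :=
  ⟨fun z => by
    change Ind.map _ (Ind.map _ z) = _
    rw [Ind.map_map, show P.pr n ∘ₗ P.e n = P.pr n from LinearMap.ext (P.pr_e n)],
  fun z => by
    change Ind.map _ (Ind.map _ z) = _
    rw [Ind.map_map, show P.pr n ∘ₗ P.d n = 0 from LinearMap.ext (P.pr_d n), Ind.map_zero']⟩

theorem ind_pr_surj (n : ℤ) : Function.Surjective (Ind.map (K := K) (P.pr n)) := by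
  intro z
  obtain ⟨x, hx⟩ := P.pr_surj n z.a
  obtain ⟨η, hη⟩ := exists_dual_fac (LinearMap.lcomp K Λ (P.pr n)) z.b fun ψ hψ => by
    have : ψ = 0 := LinearMap.ext fun y => by
      obtain ⟨x, rfl⟩ := P.pr_surj n y
      exact LinearMap.congr_fun hψ x
    rw [this, map_zero]
  exact ⟨Ind.mk x η, Ind.ext hx hη⟩

theorem ind_cok (n : ℤ) : ∃ (u : (P.ind K).cok n →ₗ[TE K Λ] Ind K Λ (P.cok n))
    (v : Ind K Λ (P.cok n) →ₗ[TE K Λ] (P.ind K).cok n),
    (∀ z, v (u z) = z) ∧ ∀ z, u (v z) = z := by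
  obtain ⟨u, hu⟩ := (ind_pr_coc (K := K) (P := P) n).desc
  obtain ⟨v, hv⟩ := exists_desc _ (ind_pr_surj (K := K) (P := P) n) ((P.ind K).pr n) fun z hz => by
    obtain ⟨w, hw⟩ := P.pr_eq_zero.1 (congrArg Ind.a hz)
    obtain ⟨η, hη⟩ := exists_dual_fac (LinearMap.lcomp K Λ (P.d n))
      (z.b ∘ₗ LinearMap.lcomp K Λ (P.e n)) fun ψ hψ => by
        obtain ⟨g, hg⟩ := (Cx.coc_comp_e hψ).desc
        have e2 : z.b (g ∘ₗ P.pr n) = 0 := LinearMap.congr_fun (congrArg Ind.b hz) g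
        rw [← e2]
        change z.b (ψ ∘ₗ P.e n) = _
        congr 1
        exact LinearMap.ext fun x => (hg x).symm
    exact (P.ind K).pr_eq_zero.2 ⟨Ind.mk w η, Ind.ext hw hη⟩
  refine ⟨u, v, fun z => ?_, fun z => ?_⟩
  · obtain ⟨x, rfl⟩ := (P.ind K).pr_surj n z
    rw [hu, hv]
  · obtain ⟨x, rfl⟩ := ind_pr_surj n z
    rw [hv, hu]

theorem ind_nz {n : ℤ} (h : (P.ind K).HZ (Ind K Λ (P.cok n)) n) : P.HZ (P.cok n) n := by
  obtain ⟨G, hG⟩ := h _ (ind_pr_coc n)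
  have : P.Cob n (P.pr n) :=
    ⟨LinearMap.fst Λ _ _ ∘ₗ Ind.res Ind.inl_smul G, fun x => by
      change (G (Ind.ι _)).a = _
      rw [← Ind.map_ι]
      exact congrArg Ind.a (hG (Ind.ι x))⟩
  intro f hf
  obtain ⟨g, hg⟩ := hf.desc
  exact (this.comp g).congr hg

variable [Module K X] [IsScalarTower K Λ X]

theorem hz_dual {i : ℤ} (h : P.ExactAt i) : P.HZ (DD K Λ Λ) i := by
  intro f hf
  let f1 : X →ₗ[K] K :=
    { toFun := fun x => (f x).v 1
      map_add' := fun x y => by simp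
      map_smul' := fun k x => by rw [LinearMap.map_smul_of_tower]; simp }
  obtain ⟨g, hg⟩ := exists_dual_fac ((P.d (i - 1)).restrictScalars K) f1 fun x hx => by
    obtain ⟨w, hw⟩ := h (P.e i x) (P.ee _ _) (by rw [P.de']; exact hx)
    change (f x).v 1 = 0
    rw [← hf.he, ← hw, hf.hd]
    rfl
  refine ⟨{ toFun := fun x => DD.mk (g ∘ₗ (LinearMap.toSpanSingleton Λ X x).restrictScalars K)
            map_add' := fun x y => by ext; simp
            map_smul' := fun c x => by ext; simp [mul_smul] }, fun x => DD.ext fun c => ?_⟩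
  change g (c • P.d (i - 1) x) = _
  rw [← map_smul]
  refine (hg (c • x)).trans ?_
  simp [f1]

/-- `Hom(Z, P)` is exact in nonnegative degrees. -/
theorem hom_exact (hP : TotAc P) {i : ℤ} (hneg : P.HZ (P.cok 0) (-1 - i))
    (ψ : P.cok 0 →ₗ[Λ] X) (he : ∀ z, P.e i (ψ z) = ψ z) (hd : ∀ z, P.d (i - 1) (ψ z) = 0) :
    ∃ ψ' : P.cok 0 →ₗ[Λ] X, ∀ z, P.d i (ψ' z) = ψ z := by
  have hz : P.HZ (P.cok (i + 1)) 0 := by
    have := (P.hz_cok_shift hP.fp hP.hz hP.ex 0 (-1 - i) (i + 1)).2 hneg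
    rwa [zero_add, show -1 - i + (i + 1) = 0 by ring] at this
  obtain ⟨ψ₁, h₁⟩ := exists_fac ((P.tm i).subtype ∘ₗ P.cokι i)
    ((P.tm i).injective_subtype.comp (P.cok_ses i (hP.ex _)).inj) ψ fun z => by
      obtain ⟨w, hw⟩ := hP.ex i _ (he z) (hd z)
      exact ⟨P.pr _ w, hw⟩
  obtain ⟨g, hge, hg⟩ := (hz _ ((P.pr_coc 0).comp ψ₁)).exists_homog
  obtain ⟨g', -, hg'⟩ := hP.fp.lift _ g hge (P.pr (i + 1)) fun x => P.pr_surj _ _
  obtain ⟨ψ', hψ'⟩ := (Cx.Cob.coc (P := P) (n := 0) (f := g' ∘ₗ P.d (0 - 1)) ⟨g', fun _ => rfl⟩).desc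
  refine ⟨ψ', fun z => ?_⟩
  obtain ⟨x, rfl⟩ := P.pr_surj 0 z
  rw [hψ', ← h₁, LinearMap.comp_apply, ← P.cokι_pr, hg', hg]
  rfl

section sharp

variable {Z Y N : Type u} [AddCommGroup Z] [Module Λ Z] [AddCommGroup Y] [Module Λ Y]

/-- Postcomposition as a `K`-linear map. -/
def post {Y' : Type u} [AddCommGroup Y'] [Module Λ Y'] [Module K Y] [IsScalarTower K Λ Y]
    [Module K Y'] [IsScalarTower K Λ Y'] (g : Y →ₗ[Λ] Y') : (Z →ₗ[Λ] Y) →ₗ[K] (Z →ₗ[Λ] Y') where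
  toFun ψ := g ∘ₗ ψ
  map_add' _ _ := LinearMap.comp_add _ _ _
  map_smul' k ψ := by ext; simp

theorem exists_sharp {g : X →ₗ[Λ] Y} (h : FP g) (f : Y →ₗ[Λ] DD K Λ (Z →ₗ[Λ] Λ)) :
    ∃ F : (Z →ₗ[Λ] X) →ₗ[K] K, ∀ (ρ : Z →ₗ[Λ] Λ) (x : X), F (ρ.smulRight x) = (f (g x)).v ρ := by
  induction h with
  | zero => exact ⟨0, by simp⟩
  | one φ y =>
    refine ⟨(f y).v ∘ₗ post φ, fun ρ x => ?_⟩
    simp only [LinearMap.comp_apply, LinearMap.smulRight_apply, map_smul, DD.v_smul]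
    congr 1
    ext
    simp [post]
  | add _ _ ha hb =>
    obtain ⟨F, hF⟩ := ha
    obtain ⟨G, hG⟩ := hb
    exact ⟨F + G, by simp [hF, hG]⟩

theorem sharp_zero (F : (Z →ₗ[Λ] X) →ₗ[K] K)
    (hF : ∀ (ρ : Z →ₗ[Λ] Λ) (x : X), F (ρ.smulRight x) = 0) {ψ : Z →ₗ[Λ] X} (h : FP ψ) :
    F ψ = 0 := by
  induction h with
  | zero => exact map_zero F
  | one φ y => exact hF φ y
  | add _ _ ha hb => rw [map_add, ha, hb, add_zero]

theorem post_one (g : X →ₗ[Λ] X) (ρ : Z →ₗ[Λ] Λ) (x : X) :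
    post (K := K) g (ρ.smulRight x) = ρ.smulRight (g x) := by
  ext
  simp [post]

end sharp

theorem hz_key (hP : TotAc P) {i : ℤ} (hneg : P.HZ (P.cok 0) (-1 - i)) :
    P.HZ (DD K Λ (P.cok 0 →ₗ[Λ] Λ)) i := by
  intro f hf
  obtain ⟨F, hF⟩ := exists_sharp (hP.fp i) f
  obtain ⟨G, hG⟩ := exists_dual_fac (post (P.d (i - 1))) (F ∘ₗ post (P.e i)) fun ψ hψ => by
    obtain ⟨ψ', h'⟩ := hom_exact hP hneg (P.e i ∘ₗ ψ) (fun z => P.ee _ _) fun z => by
      rw [LinearMap.comp_apply, P.de']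
      exact LinearMap.congr_fun hψ z
    have := sharp_zero (F ∘ₗ post (P.d i)) (fun ρ x => by
      rw [LinearMap.comp_apply, post_one, hF, hf.he, hf.hd]
      rfl) ((hP.fp (i + 1)).comp_right ψ')
    rw [← this]
    change F _ = F _
    congr 1
    refine LinearMap.ext fun z => ?_
    change P.e i (ψ z) = P.d i (P.e (i + 1) (ψ' z))
    rw [P.de, h']
    rfl
  let sr : X → (P.cok 0 →ₗ[Λ] Λ) →ₗ[K] (P.cok 0 →ₗ[Λ] X) := fun x =>
    { toFun := fun ρ => ρ.smulRight x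
      map_add' := fun ρ ρ' => by ext; simp [add_smul]
      map_smul' := fun k ρ => by ext; simp }
  refine ⟨{ toFun := fun x => DD.mk (G ∘ₗ sr x)
            map_add' := fun x y => DD.ext fun ρ => ?_
            map_smul' := fun c x => DD.ext fun ρ => ?_ }, fun x => DD.ext fun ρ => ?_⟩
  · change G _ = G _ + G _
    rw [← map_add]
    congr 1
    ext
    simp [sr]
  · change G _ = G _
    congr 1
    ext
    simp [sr, mul_smul]
  · change G (ρ.smulRight _) = _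
    rw [← post_one (K := K), hG, LinearMap.comp_apply, post_one, hF, hf.he, hf.he]

theorem coreSym_ind (h : Core K Λ X P) : CoreSym K (TE K Λ) (Ind K Λ X) (P.ind K) := by
  have := h.fin
  obtain ⟨u, v, hvu, huv⟩ := ind_cok (K := K) (P := P) 0
  refine ⟨TE.finite K Λ, TE.symm K Λ, ⟨fun n => Ind.fp_map (h.tot.fp n),
    fun n => ind_exact (h.tot.ex n) (h.tot.hz n), fun n => ?_⟩, fun i hi => ?_, fun k => ?_⟩
  · exact ind_hz h.tot.fp (fun c t => TrivSqZeroExt.inl_mul_eq_smul c t)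
      ((h.tot.hz n).prod (hz_dual (h.tot.ex n)))
  · exact (ind_hz h.tot.fp Ind.inl_smul
      ((h.pos i hi).prod (hz_key h.tot (h.neg _ (by omega))))).retract u v hvu
  · exact h.nz (ind_nz (k.retract v u huv))

end Crest.Agent.R186
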